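import Mathlib.Topology.Homotopy.Lifting
import Mathlib.Topology.Subpath
import Mathlib.Topology.LocallyConstant.Basic

/-!
P275 (helper44): locally constant cocycles and their holonomy.
-/

set_option linter.all false

open Set Filter Topology unitInterval

namespace Vale.Agent.P275RH

variable {X ι G G' M : Type} [TopologicalSpace X] [Group G] [Group G'] [MulAction G M]
  {U : ι → Set X} {c : ι → ι → X → G} {x y z : X} {i j k : ι}

/-- homotopy classes of paths -/
abbrev PQ (x y : X) : Type := Path.Homotopic.Quotient x y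

/-- an open cover -/
structure Oc (U : ι → Set X) : Prop where
  opn : ∀ i, IsOpen (U i)
  cov : ∀ x, ∃ i, x ∈ U i

/-- induction on the paths -/
theorem Oc.ind (h : Oc U) {P : ∀ x y : X, PQ x y → Prop}
    (loc : ∀ i x y (γ : Path x y), (∀ t, γ t ∈ U i) → P x y (.mk γ))
    (tr : ∀ x y z γ δ, P x y γ → P y z δ → P x z (γ.trans δ)) (γ : PQ x y) : P x y γ := by
  obtain ⟨γ, rfl⟩ := Path.Homotopic.Quotient.mk_surjective γ
  have := PreconnectedSpace.induction₂' (fun s t : I => P _ _ (.mk (γ.subpath s t))) (fun s => by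
    obtain ⟨i, hi⟩ := h.cov (γ s)
    obtain ⟨ε, h0, h1⟩ := Metric.mem_nhds_iff.1 (γ.continuous.continuousAt ((h.opn i).mem_nhds hi))
    filter_upwards [Metric.ball_mem_nhds s h0] with t ht
    have h2 : uIcc s t ⊆ Metric.ball s ε := fun u hu => by
      have h3 : |(t : ℝ) - s| < ε := ht
      have h4 : (u : ℝ) ∈ uIcc (s : ℝ) t := by
        rcases mem_uIcc.1 hu with h4 | h4
        exacts [mem_uIcc.2 (.inl h4), mem_uIcc.2 (.inr h4)]
      exact (abs_sub_left_of_mem_uIcc h4).trans_lt h3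
    refine ⟨loc i _ _ _ fun u => ?_, loc i _ _ _ fun u => ?_⟩
    · obtain ⟨v, hv, e⟩ := (γ.range_subpath s t).subset ⟨u, rfl⟩
      exact e ▸ h1 (h2 hv)
    · obtain ⟨v, hv, e⟩ := (γ.range_subpath t s).subset ⟨u, rfl⟩
      exact e ▸ h1 (h2 (uIcc_comm t s ▸ hv)))
    ⟨fun s t u a b => Path.Homotopic.Quotient.eq.2 ⟨Path.Homotopy.subpathTransSubpath γ s t u⟩ ▸
      tr _ _ _ _ _ a b⟩ 0 1
  rw [Path.subpath_zero_one] at this
  obtain ⟨f, rfl, rfl⟩ := γ
  exact this

/-- locally constant on `V` -/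
def Lc {M : Type} (V : Set X) (f : X → M) : Prop := ∀ x ∈ V, ∀ᶠ y in 𝓝 x, f y = f x

theorem Lc.path {M : Type} {V : Set X} {f : X → M} (h : Lc V f) (γ : Path x y)
    (hγ : ∀ t, γ t ∈ V) : f y = f x := by
  have := (IsLocallyConstant.iff_eventually_eq (f ∘ γ)).2 fun t =>
    γ.continuous.continuousAt.eventually (h _ (hγ t))
  simpa using this.apply_eq_of_preconnectedSpace 1 0

/-- a locally constant cocycle; the coordinates of a section satisfy `s i = c i j • s j` -/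
structure Cy (U : ι → Set X) (c : ι → ι → X → G) : Prop extends Oc U where
  lc : ∀ i j, Lc (U i ∩ U j) (c i j)
  mul : ∀ i j k, ∀ x ∈ U i, x ∈ U j → x ∈ U k → c i j x * c j k x = c i k x

theorem Cy.one (h : Cy U c) (hx : x ∈ U i) : c i i x = 1 := by
  simpa using h.mul i i i x hx hx hx

theorem Cy.inv (h : Cy U c) (hi : x ∈ U i) (hj : x ∈ U j) : (c i j x)⁻¹ = c j i x :=
  inv_eq_of_mul_eq_one_right ((h.mul i j i x hi hj hi).trans (h.one hi))

/-- the rules for the holonomy -/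
structure IsHol (U : ι → Set X) (c : ι → ι → X → G) (T : ∀ x y : X, PQ x y → ι → ι → G) :
    Prop where
  tr : ∀ x y z γ δ i j k, y ∈ U j → T x z (γ.trans δ) i k = T y z δ j k * T x y γ i j
  loc : ∀ x y (γ : Path x y) i j k, (∀ t, γ t ∈ U j) → x ∈ U i → y ∈ U k →
    T x y (.mk γ) i k = c k j y * c j i x

theorem Cy.exists_hol (h : Cy U c) : ∃ T, IsHol U c T := by
  letI : TopologicalSpace G := ⊥
  haveI : DiscreteTopology G := ⟨rfl⟩
  choose a ha using h.cov
  let Z : FiberBundleCore ι X G :=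
    { baseSet := U
      isOpen_baseSet := h.opn
      indexAt := a
      mem_baseSet_at := ha
      coordChange := fun i j x v => c j i x * v
      coordChange_self := fun i x hx v => by rw [h.one hx, one_mul]
      continuousOn_coordChange := fun i j q hq => ContinuousAt.continuousWithinAt (by
        refine (continuousAt_const (y := c j i q.1 * q.2)).congr ?_
        filter_upwards [continuous_fst.continuousAt.eventually (h.lc j i _ ⟨hq.1.2, hq.1.1⟩),
          continuous_snd.continuousAt.eventually ((isOpen_discrete {q.2}).mem_nhds rfl)]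
          with p h1 h2
        rw [h1, show p.2 = q.2 from h2])
      coordChange_comp := fun i j k x hx v => by rw [← mul_assoc, h.mul _ _ _ _ hx.2 hx.1.2 hx.1.1] }
  have cv : IsCoveringMap Z.proj := IsCoveringMap.mk _ _ Z.localTrivAt Z.mem_localTrivAt_baseSet
  let P : ∀ x y : X, PQ x y → G → Prop := fun x y γ T =>
    ∀ v : G, cv.monodromy γ ⟨⟨x, v⟩, rfl⟩ = ⟨⟨y, (T * v : G)⟩, rfl⟩
  have uq : ∀ {x y γ T T'}, P x y γ T → P x y γ T' → T = T' := fun a b => by
    simpa using congrArg (fun e => (show G from e.1.2)) ((a 1).symm.trans (b 1))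
  have p1 : ∀ j x y (γ : Path x y), (∀ t, γ t ∈ U j) → P x y (.mk γ) (c (a y) j y * c j (a x) x) :=
    fun j x y γ hγ v => Subtype.ext (by
      refine (congrFun ((cv.eq_liftPath_iff (γ := γ) γ.source).2 ⟨(Z.localTriv
        j).toOpenPartialHomeomorph.continuousOn_symm.comp_continuous (γ.continuous.prodMk
          (continuous_const (y := c j (a x) x * v))) fun t => (Z.mem_localTriv_target j _).2 (hγ t),
            rfl, ?_⟩) 1).symm.trans ?_
      · show (⟨γ 0, c (a (γ 0)) j (γ 0) * (c j (a x) x * v)⟩ : Z.TotalSpace) = _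
        rw [γ.source, ← mul_assoc, h.mul _ _ _ _ (ha x) (γ.source ▸ hγ 0) (ha x), h.one (ha x),
          one_mul]
      · show (⟨γ 1, c (a (γ 1)) j (γ 1) * (c j (a x) x * v)⟩ : Z.TotalSpace) = _
        rw [γ.target, ← mul_assoc])
  have p2 : ∀ {x y z γ δ T T'}, P x y γ T → P y z δ T' → P x z (γ.trans δ) (T' * T) :=
    fun a b v => by rw [cv.monodromy_trans_apply, a, b, mul_assoc]
  choose T hT using fun x y γ => h.toOc.ind (P := fun x y γ => ∃ T, P x y γ T)
    (fun j x y γ hγ => ⟨_, p1 j x y γ hγ⟩) (fun _ _ _ _ _ ⟨_, a⟩ ⟨_, b⟩ => ⟨_, p2 a b⟩) γ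
  refine ⟨fun x y γ i j => c j (a y) y * T x y γ * c (a x) i x, fun x y z γ δ i j k hj => ?_,
    fun x y γ i j k hγ hi hk => ?_⟩
  · rw [uq (hT _ _ _) (p2 (hT _ _ γ) (hT _ _ δ))]
    simp only [mul_assoc]
    rw [← mul_assoc (c (a y) j y), h.mul _ _ _ _ (ha y) hj (ha y), h.one (ha y), one_mul]
  · rw [uq (hT _ _ _) (p1 j x y γ hγ), ← mul_assoc, h.mul _ _ _ _ hk (ha y) (γ.target ▸ hγ 1),
      mul_assoc, h.mul _ _ _ _ (γ.source ▸ hγ 0) (ha x) hi]

open Classical in
/-- the holonomy along `γ`, from the frame `i` at the start to the frame `j` at the end -/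
noncomputable def hol (U : ι → Set X) (c : ι → ι → X → G) (γ : PQ x y) (i j : ι) : G :=
  if h : ∃ T, IsHol U c T then h.choose x y γ i j else 1

theorem Cy.isHol (h : Cy U c) : IsHol U c fun _ _ γ => hol U c γ := by
  have := h.exists_hol.choose_spec
  unfold hol
  simp only [dif_pos h.exists_hol]
  exact this

namespace Cy

variable (h : Cy U c)
include h

theorem hol_trans (hj : y ∈ U j) (γ : PQ x y) (δ : PQ y z) (i k : ι) :
    hol U c (γ.trans δ) i k = hol U c δ j k * hol U c γ i j := h.isHol.tr _ _ _ γ δ i j k hj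

theorem hol_loc (γ : Path x y) (hγ : ∀ t, γ t ∈ U j) (hi : x ∈ U i) (hk : y ∈ U k) :
    hol U c (.mk γ) i k = c k j y * c j i x := h.isHol.loc _ _ γ i j k hγ hi hk

theorem hol_self (γ : Path x y) (hγ : ∀ t, γ t ∈ U j) : hol U c (.mk γ) j j = 1 := by
  have h0 : x ∈ U j := γ.source ▸ hγ 0
  have h1 : y ∈ U j := γ.target ▸ hγ 1
  rw [h.hol_loc γ hγ h0 h1, h.one h0, h.one h1, one_mul]

theorem hol_refl (hi : x ∈ U i) (hk : x ∈ U k) : hol U c (.refl x) i k = c k i x :=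
  (h.hol_loc (Path.refl x) (fun _ => hi) hi hk).trans (by rw [h.one hi, mul_one])

theorem hol_left (γ : PQ x y) (hi : x ∈ U i) (hk : x ∈ U k) (j : ι) :
    hol U c γ k j = hol U c γ i j * c i k x := by
  rw [← h.hol_refl hk hi, ← h.hol_trans hi, Path.Homotopic.Quotient.refl_trans]

theorem hol_right (γ : PQ x y) (hj : y ∈ U j) (hk : y ∈ U k) (i : ι) :
    hol U c γ i k = c k j y * hol U c γ i j := by
  rw [← h.hol_refl hj hk, ← h.hol_trans hj, Path.Homotopic.Quotient.trans_refl]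

theorem hol_symm (γ : PQ x y) (hi : x ∈ U i) (hj : y ∈ U j) :
    hol U c γ.symm j i = (hol U c γ i j)⁻¹ := eq_inv_of_mul_eq_one_left (by
  rw [← h.hol_trans hj, Path.Homotopic.Quotient.trans_symm, h.hol_refl hi hi, h.one hi])

/-- the monodromy representation in the frame `i` at `x` -/
noncomputable def rep (hi : x ∈ U i) : FundamentalGroup X x →* G :=
  MonoidHom.mk' (fun γ => hol U c γ.toPath i i) fun γ δ => h.hol_trans hi δ γ i i

theorem rep_apply (hi : x ∈ U i) (γ : FundamentalGroup X x) : h.rep hi γ = hol U c γ.toPath i i :=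
  rfl

end Cy

/-- the holonomy is a word in the values of the cocycle which only depends on the path -/
theorem Oc.word (h : Oc U) (γ : PQ x y) (hi : x ∈ U i) (hj : y ∈ U j) :
    ∃ L : List (ι × ι × X), (∀ q ∈ L, q.2.2 ∈ U q.1 ∧ q.2.2 ∈ U q.2.1) ∧
      ∀ (G : Type) [Group G] (c : ι → ι → X → G), Cy U c →
        hol U c γ i j = (L.map fun q => c q.1 q.2.1 q.2.2).prod := by
  refine h.ind (P := fun x y γ => ∀ i j, x ∈ U i → y ∈ U j → ∃ L : List (ι × ι × X),
    (∀ q ∈ L, q.2.2 ∈ U q.1 ∧ q.2.2 ∈ U q.2.1) ∧ ∀ (G : Type) [Group G] (c : ι → ι → X → G),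
      Cy U c → hol U c γ i j = (L.map fun q => c q.1 q.2.1 q.2.2).prod)
    (fun k x y γ hγ i j hi hj => ⟨[(j, k, y), (k, i, x)], ?_, fun G _ c hc => ?_⟩)
    (fun x y z γ δ a b i k hi hk => ?_) γ i j hi hj
  · simpa using ⟨⟨hj, γ.target ▸ hγ 1⟩, γ.source ▸ hγ 0, hi⟩
  · simpa using hc.hol_loc γ hγ hi hj
  · obtain ⟨j, hj⟩ := h.cov y
    obtain ⟨L, h1, h2⟩ := a i j hi hj
    obtain ⟨L', h3, h4⟩ := b j k hj hk
    exact ⟨L' ++ L, fun q hq => (List.mem_append.1 hq).elim (h3 q) (h1 q), fun G _ c hc => by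
      rw [hc.hol_trans hj, h2 G c hc, h4 G c hc, List.map_append, List.prod_append]⟩

theorem Cy.map (h : Cy U c) (f : G →* G') : Cy U fun i j x => f (c i j x) :=
  ⟨h.toOc, fun i j x hx => (h.lc i j x hx).mono fun _ e => congrArg f e,
    fun i j k x a b d => by rw [← map_mul, h.mul i j k x a b d]⟩

theorem Cy.hol_map (h : Cy U c) (f : G →* G') (γ : PQ x y) (hi : x ∈ U i) (hj : y ∈ U j) :
    hol U (fun i j x => f (c i j x)) γ i j = f (hol U c γ i j) := by
  obtain ⟨L, -, h1⟩ := h.toOc.word γ hi hj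
  rw [h1 _ _ h, h1 _ _ (h.map f), map_list_prod, List.map_map]
  rfl

theorem Cy.hol_congr {c' : ι → ι → X → G} (h : Cy U c) (h' : Cy U c')
    (e : ∀ i j, ∀ x ∈ U i, x ∈ U j → c i j x = c' i j x) (γ : PQ x y) (hi : x ∈ U i)
    (hj : y ∈ U j) : hol U c γ i j = hol U c' γ i j := by
  obtain ⟨L, h0, h1⟩ := h.toOc.word γ hi hj
  rw [h1 _ _ h, h1 _ _ h', List.map_congr_left fun q hq => e _ _ _ (h0 q hq).1 (h0 q hq).2]

theorem Cy.hol_mem (h : Cy U c) (H : Subgroup G) (e : ∀ i j, ∀ x ∈ U i, x ∈ U j → c i j x ∈ H)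
    (γ : PQ x y) (hi : x ∈ U i) (hj : y ∈ U j) : hol U c γ i j ∈ H := by
  obtain ⟨L, h0, h1⟩ := h.toOc.word γ hi hj
  rw [h1 _ _ h]
  exact H.list_prod_mem fun g hg => by
    obtain ⟨q, hq, rfl⟩ := List.mem_map.1 hg
    exact e _ _ _ (h0 q hq).1 (h0 q hq).2

theorem Cy.prod {c' : ι → ι → X → G'} (h : Cy U c) (h' : Cy U c') :
    Cy U fun i j x => (c i j x, c' i j x) :=
  ⟨h.toOc, fun i j x hx => ((h.lc i j x hx).and (h'.lc i j x hx)).mono fun _ e => Prod.ext e.1 e.2,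
    fun i j k x a b d => Prod.ext (h.mul i j k x a b d) (h'.mul i j k x a b d)⟩

theorem Cy.hol_prod {c' : ι → ι → X → G'} (h : Cy U c) (h' : Cy U c') (γ : PQ x y) (hi : x ∈ U i)
    (hj : y ∈ U j) :
    hol U (fun i j x => (c i j x, c' i j x)) γ i j = (hol U c γ i j, hol U c' γ i j) :=
  Prod.ext ((h.prod h').hol_map (MonoidHom.fst G G') γ hi hj).symm
    ((h.prod h').hol_map (MonoidHom.snd G G') γ hi hj).symm

/-- the holonomy depends continuously on the cocycle -/
theorem tendsto_hol [TopologicalSpace G] [ContinuousMul G] {S : Type} {l : Filter S}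
    {cs : S → ι → ι → X → G} (hs : ∀ᶠ s in l, Cy U (cs s)) (h : Cy U c)
    (e : ∀ i j, ∀ x ∈ U i, x ∈ U j → Tendsto (fun s => cs s i j x) l (𝓝 (c i j x))) (γ : PQ x y)
    (hi : x ∈ U i) (hj : y ∈ U j) : Tendsto (fun s => hol U (cs s) γ i j) l (𝓝 (hol U c γ i j)) := by
  obtain ⟨L, h0, h1⟩ := h.toOc.word γ hi hj
  rw [h1 _ _ h]
  exact (tendsto_list_prod L fun q hq => e _ _ _ (h0 q hq).1 (h0 q hq).2).congr'
    (hs.mono fun s hs => (h1 _ _ hs).symm)

section pull

variable {A κ : Type} [TopologicalSpace A] {V : κ → Set A} {f : C(A, X)} {r : κ → ι}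

theorem map_trans {a b d : A} (γ : PQ a b) (δ : PQ b d) (f : C(A, X)) :
    (γ.trans δ).map f = (γ.map f).trans (δ.map f) := by
  obtain ⟨γ, rfl⟩ := Path.Homotopic.Quotient.mk_surjective γ
  obtain ⟨δ, rfl⟩ := Path.Homotopic.Quotient.mk_surjective δ
  exact congrArg Path.Homotopic.Quotient.mk (Path.map_trans γ δ f.continuous)

theorem map_symm {a b : A} (γ : PQ a b) (f : C(A, X)) : γ.symm.map f = (γ.map f).symm := by
  obtain ⟨γ, rfl⟩ := Path.Homotopic.Quotient.mk_surjective γ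
  rfl

/-- pull-back and refinement -/
theorem Cy.pull (h : Cy U c) (hV : Oc V) (e : ∀ k, ∀ a ∈ V k, f a ∈ U (r k)) :
    Cy V fun k l a => c (r k) (r l) (f a) :=
  ⟨hV, fun k l a ha => f.continuous.continuousAt.eventually (h.lc _ _ _ ⟨e k a ha.1, e l a ha.2⟩),
    fun k l m a h1 h2 h3 => h.mul _ _ _ _ (e k a h1) (e l a h2) (e m a h3)⟩

theorem Cy.hol_pull (h : Cy U c) (hV : Oc V) (e : ∀ k, ∀ a ∈ V k, f a ∈ U (r k)) {a b : A}
    (γ : PQ a b) {k l : κ} (hk : a ∈ V k) (hl : b ∈ V l) :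
    hol V (fun k l a => c (r k) (r l) (f a)) γ k l = hol U c (γ.map f) (r k) (r l) := by
  refine hV.ind (P := fun a b γ => ∀ k l, a ∈ V k → b ∈ V l →
    hol V (fun k l a => c (r k) (r l) (f a)) γ k l = hol U c (γ.map f) (r k) (r l))
    (fun m a b γ hγ k l hk hl => ?_) (fun a b d γ δ p q k m hk hm => ?_) γ k l hk hl
  · rw [(h.pull hV e).hol_loc γ hγ hk hl]
    exact (h.hol_loc (γ.map f.continuous) (fun t => e m _ (hγ t)) (e k a hk) (e l b hl)).symm
  · obtain ⟨l, hl⟩ := hV.cov b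
    rw [(h.pull hV e).hol_trans hl, p k l hk hl, q l m hl hm, ← h.hol_trans (e l b hl),
      map_trans]

theorem Oc.pre (h : Oc U) (f : C(A, X)) : Oc fun i => f ⁻¹' U i :=
  ⟨fun i => (h.opn i).preimage f.continuous, fun a => h.cov (f a)⟩

theorem Oc.inter {V : κ → Set X} (h : Oc U) (h' : Oc V) : Oc fun q : ι × κ => U q.1 ∩ V q.2 :=
  ⟨fun q => (h.opn _).inter (h'.opn _), fun x =>
    let ⟨i, hi⟩ := h.cov x
    let ⟨k, hk⟩ := h'.cov x
    ⟨(i, k), hi, hk⟩⟩

end pull

/-- a flat section with values in `M` -/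
structure Fs (U : ι → Set X) (c : ι → ι → X → G) (s : ι → X → M) : Prop where
  lc : ∀ i, Lc (U i) (s i)
  tr : ∀ i j, ∀ x ∈ U i, x ∈ U j → s i x = c i j x • s j x

variable {s s' : ι → X → M}

theorem Fs.hol (hs : Fs U c s) (h : Cy U c) (γ : PQ x y) (hi : x ∈ U i) (hj : y ∈ U j) :
    hol U c γ i j • s i x = s j y := by
  refine h.toOc.ind (P := fun x y γ => ∀ i j, x ∈ U i → y ∈ U j →
    P275RH.hol U c γ i j • s i x = s j y) (fun k x y γ hγ i j hi hj => ?_)
    (fun x y z γ δ a b i k hi hk => ?_) γ i j hi hj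
  · rw [h.hol_loc γ hγ hi hj, mul_smul, ← hs.tr k i x (γ.source ▸ hγ 0) hi, ← (hs.lc k).path γ hγ,
      ← hs.tr j k y hj (γ.target ▸ hγ 1)]
  · obtain ⟨j, hj⟩ := h.cov y
    rw [h.hol_trans hj, mul_smul, a i j hi hj, b j k hj hk]

theorem Fs.ext [PathConnectedSpace X] (hs : Fs U c s) (hs' : Fs U c s') (h : Cy U c) (hi : x ∈ U i)
    (e : s i x = s' i x) (hj : y ∈ U j) : s j y = s' j y := by
  rw [← hs.hol h (.mk (PathConnectedSpace.somePath x y)) hi hj, e, hs'.hol h _ hi hj]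

theorem Oc.lc [LocallyPathConnectedSpace X] (h : Oc U) {M : Type} {f : X → M}
    (e : ∀ x ∈ U j, ∀ y ∈ U j, ∀ γ : Path x y, (∀ t, γ t ∈ U j) → f y = f x) : Lc (U j) f :=
  fun x hx => by
    obtain ⟨V, ⟨h1, h2⟩, h3⟩ := (path_connected_basis x).mem_iff.1 ((h.opn j).mem_nhds hx)
    filter_upwards [h1] with y hy
    obtain ⟨γ, hγ⟩ := h2.joinedIn x (mem_of_mem_nhds h1) y hy
    exact e x hx y (h3 hy) γ fun t => h3 (hγ t)

/-- an element which is fixed by the monodromy extends to a flat section -/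
theorem Cy.exists_fs [PathConnectedSpace X] [LocallyPathConnectedSpace X] (h : Cy U c)
    (hi : x ∈ U i) {m : M} (hm : ∀ γ, h.rep hi γ • m = m) : ∃ s, Fs U c s ∧ s i x = m := by
  have key : ∀ {y j} (γ δ : PQ x y), y ∈ U j → hol U c γ i j • m = hol U c δ i j • m :=
    fun {y j} γ δ hj => by
      conv_rhs => rw [← hm (γ.trans δ.symm), h.rep_apply, h.hol_trans hj, h.hol_symm δ hi hj,
        ← mul_smul, mul_inv_cancel_left]
  refine ⟨fun j y => hol U c (.mk (PathConnectedSpace.somePath x y)) i j • m,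
    ⟨fun j => h.toOc.lc fun y hy z hz γ hγ => ?_, fun j k y hj hk => ?_⟩, hm _⟩
  · rw [key _ (.trans (.mk (PathConnectedSpace.somePath x y)) (.mk γ)) hz, h.hol_trans hy,
      h.hol_self γ hγ, one_mul]
  · rw [h.hol_right _ hk hj, mul_smul]

end Vale.Agent.P275RH
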