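import Vale.Agent.P275ST.Geo

/-!
P275, existence of a marking: the exact statements of the blocks (helper44).
-/

set_option linter.all false

open scoped Manifold ContDiff Topology commutatorElement Real
open Set Filter

noncomputable section

namespace Vale.Agent.P275RH

open Vale.Agent.P275ST

/-- the product of the commutators -/
def cwd (g : ℕ) : FreeGroup (Fin g × Bool) :=
  (List.ofFn fun j => ⁅FreeGroup.of (j, false), FreeGroup.of (j, true)⁆).prod

section graph

variable {V E : Type}

/-- `x` is a walk from `v` to `v'` in the graph with edges `e : s e → t e` -/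
def Wk (s t : E → V) (v v' : V) (x : FreeGroup E) : Prop :=
  ∀ (H : Type) [Group H] (g : E → H) (k : V → H),
    FreeGroup.lift (fun e => k (s e) * g e * (k (t e))⁻¹) x = k v * FreeGroup.lift g x * (k v')⁻¹

theorem Wk.one (s t : E → V) (v : V) : Wk s t v v 1 := fun H _ g k => by simp

theorem Wk.mul {s t : E → V} {u v w : V} {x y : FreeGroup E} (a : Wk s t u v x)
    (b : Wk s t v w y) : Wk s t u w (x * y) := fun H _ g k => by
  rw [map_mul, map_mul, a, b]; group

theorem Wk.inv {s t : E → V} {u v : V} {x : FreeGroup E} (a : Wk s t u v x) :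
    Wk s t v u x⁻¹ := fun H _ g k => by
  rw [map_inv, map_inv, a]; group

theorem Wk.of (s t : E → V) (e : E) : Wk s t (s e) (t e) (FreeGroup.of e) := fun H _ g k => by
  simp

/-- the closed walks at `v`, the fundamental group of the graph -/
def Lp (s t : E → V) (v : V) : Subgroup (FreeGroup E) where
  carrier := {x | Wk s t v v x}
  mul_mem' := Wk.mul
  one_mem' := Wk.one s t v
  inv_mem' := Wk.inv

/-- the value of an integral cochain on a word -/
def sm (α : E → ℤ) (A : List (E × Bool)) : ℤ := (A.map fun a => if a.2 then α a.1 else -α a.1).sum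

/-- the graph is connected -/
def Cn (s t : E → V) (v₀ : V) : Prop :=
  ∀ P : V → Prop, P v₀ → (∀ e, P (s e) ↔ P (t e)) → ∀ v, P v

/-- the intersection form of the word `w` is nondegenerate -/
def ND (s t : E → V) (w : List (E × Bool)) : Prop :=
  ∀ α : E → ℤ, (∀ e A A', A ++ [(e, true)] <+: w → A' ++ [(e, false)] <+: w →
    sm α A + α e = sm α A') → ∃ φ : V → ℤ, ∀ e, α e = φ (t e) - φ (s e)

end graph

/-- normal form of a quadratic word on a graph -/
def GNF : Prop := ∀ (V E : Type) (s t : E → V) (v₀ : V) (w : List (E × Bool)),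
  Cn s t v₀ → w.Nodup → (∀ a, a ∈ w) → Wk s t v₀ v₀ (FreeGroup.mk w) → ND s t w →
  ∃ (g : ℕ) (e : FreeGroup (Fin g × Bool) ≃* Lp s t v₀), (e (cwd g) : FreeGroup E) = FreeGroup.mk w

/-- a meromorphic function whose only pole is at `p` -/
def MERP : Prop := ∀ (C : Type) [TopologicalSpace C] [T2Space C] [CompactSpace C]
  [ConnectedSpace C] [ChartedSpace ℂ C] [IsManifold 𝓘(ℂ) ω C] (p : C), ∃ f : C → ℂ,
    (∀ x ≠ p, AnalyticAt ℂ (loc x f) (ctr x)) ∧ MerAt p f ∧ ord p f < 0

/-- `ζ` is a holomorphic chart centred at `p` -/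
structure HolAt {C : Type} [TopologicalSpace C] [ChartedSpace ℂ C] (p : C)
    (ζ : OpenPartialHomeomorph C ℂ) : Prop where
  mem : p ∈ ζ.source
  zero : ζ p = 0
  an : AnalyticAt ℂ (loc p ζ) (ctr p)
  nz : deriv (loc p ζ) (ctr p) ≠ 0

/-- a finite branched covering of the plane by the punctured curve -/
structure Br {C : Type} [TopologicalSpace C] [ChartedSpace ℂ C] (p : C) where
  f : Pc p → ℂ
  k : ℕ
  b : Fin k → ℂ
  N : ℕ
  ζ : OpenPartialHomeomorph C ℂ
  ρ : ℝ
  cont : Continuous f
  cl : IsClosedMap f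
  fin : ∀ z, (f ⁻¹' {z}).Finite
  two : 2 ≤ k
  mono : StrictMono fun i => (b i).im
  cov : IsCoveringMapOn f (range b)ᶜ
  pos : 0 < N
  hol : HolAt p ζ
  eq : ∀ y : Pc p, y.1 ∈ ζ.source → f y = (ζ y)⁻¹ ^ N
  far : ∀ y, ρ < ‖f y‖ → y.1 ∈ ζ.source

/-- existence of the branched covering -/
def BRC : Prop := MERP → ∀ (C : Type) [TopologicalSpace C] [T2Space C] [CompactSpace C]
  [ConnectedSpace C] [ChartedSpace ℂ C] [IsManifold 𝓘(ℂ) ω C] (p : C), Nonempty (Br p)

/-- the first clause of the statement -/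
def MARK : Prop := ∀ (C : Type) [TopologicalSpace C] [T2Space C] [CompactSpace C]
  [ConnectedSpace C] [ChartedSpace ℂ C] [IsManifold 𝓘(ℂ) ω C] (p : C) (x₀ : Pc p),
    ∃ g, Nonempty (Marking g p x₀)

end Vale.Agent.P275RH
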