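import Vale.Agent.P275RH.Hol
import Mathlib.AlgebraicTopology.FundamentalGroupoid.SimplyConnected
import Mathlib.Analysis.Convex.Contractible
import Mathlib.Analysis.Normed.Module.Basic
import Mathlib.Tactic.Group

/-!
P275 (helper44): the universal cocycle.
-/

set_option linter.all false

open Set Filter Topology unitInterval

noncomputable section

namespace Vale.Agent.P275RH

variable {X ι G G' M : Type} [TopologicalSpace X] [Group G] [Group G'] [MulAction G M]
  {U : ι → Set X} {c : ι → ι → X → G} {x₀ x y z : X} {i j k i₀ : ι} {V : Set X}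

theorem symm_tr (γ : PQ x y) (δ : PQ y z) : (γ.trans δ).symm = δ.symm.trans γ.symm := by
  obtain ⟨γ, rfl⟩ := Path.Homotopic.Quotient.mk_surjective γ
  obtain ⟨δ, rfl⟩ := Path.Homotopic.Quotient.mk_surjective δ
  exact congrArg Path.Homotopic.Quotient.mk (Path.trans_symm γ δ)

theorem symm_sy (γ : PQ x y) : γ.symm.symm = γ := by
  obtain ⟨γ, rfl⟩ := Path.Homotopic.Quotient.mk_surjective γ
  exact congrArg Path.Homotopic.Quotient.mk γ.symm_symm

theorem tr_can (γ : PQ x y) (δ : PQ x z) : γ.trans (γ.symm.trans δ) = δ := by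
  rw [← Path.Homotopic.Quotient.trans_assoc, Path.Homotopic.Quotient.trans_symm,
    Path.Homotopic.Quotient.refl_trans]

theorem tr_can' (γ : PQ x y) (δ : PQ y z) : γ.symm.trans (γ.trans δ) = δ := by
  rw [← Path.Homotopic.Quotient.trans_assoc, Path.Homotopic.Quotient.symm_trans,
    Path.Homotopic.Quotient.refl_trans]

theorem symm_rf (x : X) : (Path.Homotopic.Quotient.refl x).symm = .refl x := rfl

/-- a loop as an element of the fundamental group -/
abbrev lp (γ : PQ x x) : FundamentalGroup X x := FundamentalGroup.fromPath γ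

theorem lp_mul (γ δ : PQ x x) : lp γ * lp δ = lp (δ.trans γ) := rfl

theorem lp_inv (γ : PQ x x) : (lp γ)⁻¹ = lp γ.symm :=
  inv_eq_of_mul_eq_one_left (Path.Homotopic.Quotient.trans_symm γ)

theorem lp_one : lp (.refl x) = (1 : FundamentalGroup X x) := rfl

/-- uniqueness of the holonomy -/
theorem Cy.hol_eq (h : Cy U c) {T : ∀ x y : X, PQ x y → ι → ι → G}
    (tr : ∀ x y z γ δ i j k, x ∈ U i → y ∈ U j → z ∈ U k →
      T x z (γ.trans δ) i k = T y z δ j k * T x y γ i j)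
    (loc : ∀ x y (γ : Path x y) i j k, (∀ t, γ t ∈ U j) → x ∈ U i → y ∈ U k →
      T x y (.mk γ) i k = c k j y * c j i x) (γ : PQ x y) (hi : x ∈ U i) (hj : y ∈ U j) :
    hol U c γ i j = T x y γ i j := by
  refine h.toOc.ind (P := fun x y γ => ∀ i j, x ∈ U i → y ∈ U j → hol U c γ i j = T x y γ i j)
    (fun k x y γ hγ i j hi hj => ?_) (fun x y z γ δ a b i k hi hk => ?_) γ i j hi hj
  · rw [h.hol_loc γ hγ hi hj, loc _ _ γ _ _ _ hγ hi hj]
  · obtain ⟨j, hj⟩ := h.cov y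
    rw [h.hol_trans hj, tr _ _ _ _ _ _ j _ hi hj hk, a i j hi hj, b j k hj hk]

/-- change of the frames by locally constant functions -/
theorem Cy.gauge (h : Cy U c) {b : ι → X → G} (hb : ∀ i, Lc (U i) (b i)) :
    Cy U fun i j x => b i x * c i j x * (b j x)⁻¹ :=
  ⟨h.toOc, fun i j x hx => by
    filter_upwards [h.lc i j x hx, hb i x hx.1, hb j x hx.2] with y a1 a2 a3
    rw [a1, a2, a3], fun i j k x a1 a2 a3 => by rw [← h.mul i j k x a1 a2 a3]; group⟩

theorem Cy.hol_gauge (h : Cy U c) {b : ι → X → G} (hb : ∀ i, Lc (U i) (b i)) (γ : PQ x y)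
    (hi : x ∈ U i) (hj : y ∈ U j) : hol U (fun i j x => b i x * c i j x * (b j x)⁻¹) γ i j =
      b j y * hol U c γ i j * (b i x)⁻¹ :=
  (h.gauge hb).hol_eq (T := fun x y γ i j => b j y * hol U c γ i j * (b i x)⁻¹)
    (fun x y z γ δ i j k _ hj _ => by rw [h.hol_trans hj]; group)
    (fun x y γ i j k hγ hi hk => by rw [h.hol_loc γ hγ hi hk, (hb j).path γ hγ]; group) γ hi hj

/-- path connected, and paths in `V` with the same ends are homotopic in `X` -/
structure Sc (V : Set X) : Prop where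
  pc : IsPathConnected V
  ht : ∀ x y (γ δ : Path x y), (∀ t, γ t ∈ V) → (∀ t, δ t ∈ V) →
    (Path.Homotopic.Quotient.mk γ : PQ x y) = .mk δ

theorem trans_mem {γ : Path x y} {δ : Path y z} (a : ∀ t, γ t ∈ V) (b : ∀ t, δ t ∈ V) (t : I) :
    γ.trans δ t ∈ V := by
  have : γ.trans δ t ∈ range γ ∪ range δ := Path.trans_range γ δ ▸ mem_range_self t
  rcases this with ⟨s, e⟩ | ⟨s, e⟩
  exacts [e ▸ a s, e ▸ b s]

theorem Sc.of_loop (h : IsPathConnected V) (e : ∀ x (γ : Path x x), (∀ t, γ t ∈ V) →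
    (Path.Homotopic.Quotient.mk γ : PQ x x) = .refl x) : Sc V :=
  ⟨h, fun x y γ δ a b => by
    have := congrArg (fun q : PQ x x => q.trans (.mk δ))
      (e x (γ.trans δ.symm) (trans_mem a fun t => b _))
    simpa [Path.Homotopic.Quotient.mk_trans, Path.Homotopic.Quotient.mk_symm,
      Path.Homotopic.Quotient.trans_assoc, Path.Homotopic.Quotient.symm_trans] using this⟩

theorem Sc.mono {W : Set X} (h : Sc V) (hW : IsPathConnected W) (s : W ⊆ V) : Sc W :=
  ⟨hW, fun x y γ δ a b => h.ht x y γ δ (fun t => s (a t)) fun t => s (b t)⟩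

/-- the image of a simply connected space by an embedding -/
theorem Sc.range {A : Type} [TopologicalSpace A] [SimplyConnectedSpace A] {φ : A → X}
    (h : IsInducing φ) : Sc (range φ) := by
  refine Sc.of_loop (isPathConnected_range h.continuous) fun x γ hγ => ?_
  classical
  choose g hg using hγ
  obtain ⟨a, rfl⟩ : x ∈ Set.range φ := ⟨g 0, (hg 0).trans γ.source⟩
  let g' : I → A := fun t => if γ t = φ a then a else g t
  have hg' : ∀ t, φ (g' t) = γ t := fun t => by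
    by_cases e : γ t = φ a
    · simp [g', e]
    · simp [g', e, hg]
  let δ : Path a a := ⟨⟨g', h.continuous_iff.2 (γ.continuous.congr fun t => (hg' t).symm)⟩,
    by simp [g'], by simp [g']⟩
  have e : γ = δ.map h.continuous := Path.ext (funext fun t => (hg' t).symm)
  rw [e]
  exact congrArg (fun q : PQ a a => q.map ⟨φ, h.continuous⟩)
    (Subsingleton.elim (Path.Homotopic.Quotient.mk δ) (.refl a))

/-- the image of a convex set -/
theorem Sc.image {E : Type} [NormedAddCommGroup E] [NormedSpace ℝ E] {Q : Set E} (hQ : Convex ℝ Q)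
    (h0 : Q.Nonempty) {φ : E → X} (h : IsInducing fun q : Q => φ q) : Sc (φ '' Q) := by
  haveI := hQ.contractibleSpace h0
  rw [image_eq_range]
  exact Sc.range h

/-- classes of paths from the base point which vary continuously over each `U i` -/
def Tau (U : ι → Set X) (τ : ι → ∀ y, PQ x₀ y) : Prop :=
  ∀ i y z (δ : Path y z), (∀ t, δ t ∈ U i) → τ i z = (τ i y).trans (.mk δ)

theorem exists_tau [PathConnectedSpace X] (h : ∀ i, Sc (U i)) (a : ι → X) (ha : ∀ i, a i ∈ U i)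
    (ω : ∀ i, PQ x₀ (a i)) : ∃ τ : ι → ∀ y, PQ x₀ y, Tau U τ ∧ ∀ i, τ i (a i) = ω i := by
  have : ∀ i y, ∃ δ : Path (a i) y, y ∈ U i → ∀ t, δ t ∈ U i := fun i y => by
    by_cases hy : y ∈ U i
    · obtain ⟨δ, hδ⟩ := (h i).pc.joinedIn _ (ha i) y hy
      exact ⟨δ, fun _ => hδ⟩
    · exact ⟨PathConnectedSpace.somePath _ _, fun a => (hy a).elim⟩
  choose p hp using this
  refine ⟨fun i y => (ω i).trans (.mk (p i y)), fun i y z δ hδ => ?_, fun i => ?_⟩
  · rw [Path.Homotopic.Quotient.trans_assoc, ← Path.Homotopic.Quotient.mk_trans]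
    exact congrArg _ ((h i).ht _ _ _ _ (hp i z (δ.target ▸ hδ 1))
      (trans_mem (hp i y (δ.source ▸ hδ 0)) hδ))
  · show (ω i).trans (.mk (p i (a i))) = ω i
    rw [(h i).ht _ _ _ (.refl _) (hp i _ (ha i)) fun _ => ha i]
    exact Path.Homotopic.Quotient.trans_refl _

theorem exists_tau' [PathConnectedSpace X] (h : ∀ i, Sc (U i)) (h0 : x₀ ∈ U i₀) :
    ∃ τ : ι → ∀ y, PQ x₀ y, Tau U τ ∧ τ i₀ x₀ = .refl x₀ := by
  classical
  have : ∀ i, ∃ a ∈ U i, ∃ ω : PQ x₀ a, i = i₀ → a = x₀ ∧ HEq ω (Path.Homotopic.Quotient.refl x₀) :=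
    fun i => by
      by_cases e : i = i₀
      · exact ⟨x₀, e ▸ h0, .refl x₀, fun _ => ⟨rfl, HEq.rfl⟩⟩
      · obtain ⟨a, ha⟩ := (h i).pc.nonempty
        exact ⟨a, ha, .mk (PathConnectedSpace.somePath _ _), fun a => (e a).elim⟩
  choose a ha ω hω using this
  obtain ⟨τ, h1, h2⟩ := exists_tau h a ha ω
  obtain ⟨e1, e2⟩ := hω i₀ rfl
  refine ⟨τ, h1, eq_of_heq (HEq.trans ?_ ((heq_of_eq (h2 i₀)).trans e2))⟩
  rw [e1]

variable {τ : ι → ∀ y, PQ x₀ y}

/-- the loop made of a path from `U i` to `U j` -/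
def clo (τ : ι → ∀ y, PQ x₀ y) (γ : PQ x y) (i j : ι) : FundamentalGroup X x₀ :=
  lp ((τ i x).trans (γ.trans (τ j y).symm))

/-- the universal cocycle -/
def uc (τ : ι → ∀ y, PQ x₀ y) (i j : ι) (y : X) : FundamentalGroup X x₀ :=
  lp ((τ j y).trans (τ i y).symm)

theorem clo_trans (γ : PQ x y) (δ : PQ y z) (i j k : ι) :
    clo τ (γ.trans δ) i k = clo τ δ j k * clo τ γ i j := by
  simp only [clo, lp_mul, Path.Homotopic.Quotient.trans_assoc, tr_can']

theorem uc_mul (i j k : ι) (y : X) : uc τ i j y * uc τ j k y = uc τ i k y := by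
  simp only [uc, lp_mul, Path.Homotopic.Quotient.trans_assoc, tr_can']

theorem Tau.uc_path (h : Tau U τ) (δ : Path y z) (hi : ∀ t, δ t ∈ U i) (hj : ∀ t, δ t ∈ U j) :
    uc τ i j z = uc τ i j y := by
  simp only [uc, h i y z δ hi, h j y z δ hj, symm_tr, Path.Homotopic.Quotient.trans_assoc, tr_can]

theorem Tau.cy [LocallyPathConnectedSpace X] (h : Tau U τ) (hU : Oc U) : Cy U (uc τ) :=
  ⟨hU, fun i j x hx => by
    obtain ⟨V, ⟨h1, h2⟩, h3⟩ := (path_connected_basis x).mem_iff.1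
      (((hU.opn i).inter (hU.opn j)).mem_nhds hx)
    filter_upwards [h1] with y hy
    obtain ⟨γ, hγ⟩ := h2.joinedIn x (mem_of_mem_nhds h1) y hy
    exact h.uc_path γ (fun t => (h3 (hγ t)).1) fun t => (h3 (hγ t)).2,
    fun i j k y _ _ _ => uc_mul i j k y⟩

theorem Tau.hol_uc [LocallyPathConnectedSpace X] (h : Tau U τ) (hU : Oc U) (γ : PQ x y)
    (hi : x ∈ U i) (hj : y ∈ U j) : hol U (uc τ) γ i j = clo τ γ i j :=
  (h.cy hU).hol_eq (T := fun _ _ γ => clo τ γ) (fun _ _ _ γ δ i j k _ _ _ => clo_trans γ δ i j k)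
    (fun x y γ i j k hγ _ _ => by
      simp only [clo, uc, lp_mul, h j x y γ hγ, Path.Homotopic.Quotient.trans_assoc, tr_can'])
    γ hi hj

theorem clo_base (e : τ i₀ x₀ = .refl x₀) (γ : FundamentalGroup X x₀) :
    clo τ γ.toPath i₀ i₀ = γ := by
  simp only [clo, e, symm_rf, Path.Homotopic.Quotient.refl_trans,
    Path.Homotopic.Quotient.trans_refl]

/-- the monodromy of the universal cocycle is the identity -/
theorem Tau.rep_uc [LocallyPathConnectedSpace X] (h : Tau U τ) (hU : Oc U) (h0 : x₀ ∈ U i₀)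
    (e : τ i₀ x₀ = .refl x₀) (γ : FundamentalGroup X x₀) : (h.cy hU).rep h0 γ = γ :=
  (h.hol_uc hU _ h0 h0).trans (clo_base e γ)

/-- the cocycle of a representation has this representation as monodromy -/
theorem Tau.rep_map [LocallyPathConnectedSpace X] (h : Tau U τ) (hU : Oc U) (h0 : x₀ ∈ U i₀)
    (e : τ i₀ x₀ = .refl x₀) (ρ : FundamentalGroup X x₀ →* G) :
    ((h.cy hU).map ρ).rep h0 = ρ := MonoidHom.ext fun γ =>
  ((h.cy hU).hol_map ρ _ h0 h0).trans (congrArg ρ (h.rep_uc hU h0 e γ))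

theorem Cy.rep_clo (hc : Cy U c) (h0 : x₀ ∈ U i₀) (γ : PQ x y) (hi : x ∈ U i) (hj : y ∈ U j) :
    hc.rep h0 (clo τ γ i j) =
      (hol U c (τ j y) i₀ j)⁻¹ * hol U c γ i j * hol U c (τ i x) i₀ i := by
  show hol U c ((τ i x).trans (γ.trans (τ j y).symm)) i₀ i₀ = _
  rw [hc.hol_trans hi, hc.hol_trans hj, hc.hol_symm _ h0 hj]

theorem Cy.rep_uc (hc : Cy U c) (h0 : x₀ ∈ U i₀) (hi : y ∈ U i) (hj : y ∈ U j) :
    hc.rep h0 (uc τ i j y) = (hol U c (τ i y) i₀ i)⁻¹ * c i j y * hol U c (τ j y) i₀ j := by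
  show hol U c ((τ j y).trans (τ i y).symm) i₀ i₀ = _
  rw [hc.hol_trans hi, hc.hol_symm _ h0 hi, hc.hol_right (τ j y) hj hi, mul_assoc]

theorem Tau.hol_path (h : Tau U τ) (hc : Cy U c) (δ : Path y z) (hi : ∀ t, δ t ∈ U i) :
    hol U c (τ i z) i₀ i = hol U c (τ i y) i₀ i := by
  rw [h i y z δ hi, hc.hol_trans (δ.source ▸ hi 0), hc.hol_self δ hi, one_mul]

/-- every cocycle comes from its monodromy -/
theorem Tau.exists_b (h : Tau U τ) (hS : ∀ i, IsPathConnected (U i)) (hc : Cy U c)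
    (h0 : x₀ ∈ U i₀) : ∃ b : ι → G, (∀ i, ∀ y ∈ U i, hol U c (τ i y) i₀ i = b i) ∧
      ∀ i j, ∀ y ∈ U i, y ∈ U j → c i j y = b i * hc.rep h0 (uc τ i j y) * (b j)⁻¹ := by
  have : ∀ i, ∃ b, ∀ y ∈ U i, hol U c (τ i y) i₀ i = b := fun i => by
    obtain ⟨a, ha, h1⟩ := hS i
    exact ⟨_, fun y hy => (h1 hy).elim fun δ hδ => h.hol_path hc δ hδ⟩
  choose b hb using this
  exact ⟨b, hb, fun i j y hi hj => by rw [hc.rep_uc h0 hi hj, hb i y hi, hb j y hj]; group⟩

/-- the fundamental group is generated by the values of the universal cocycle -/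
theorem Tau.mem [LocallyPathConnectedSpace X] (h : Tau U τ) (hU : Oc U) (h0 : x₀ ∈ U i₀)
    (e : τ i₀ x₀ = .refl x₀) (H : Subgroup (FundamentalGroup X x₀))
    (hH : ∀ i j, ∀ y ∈ U i, y ∈ U j → uc τ i j y ∈ H) (γ : FundamentalGroup X x₀) : γ ∈ H :=
  h.rep_uc hU h0 e γ ▸ (h.cy hU).hol_mem H hH _ h0 h0

end Vale.Agent.P275RH
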