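import Vale.Agent.P275RH.Gr

/-!
P275 (helper44): meridians.
-/

set_option linter.all false

open scoped Real
open Set Filter Topology unitInterval Metric Complex

noncomputable section

namespace Vale.Agent.P275RH

open Vale.Agent.P275ST

section general

variable {X : Type} [TopologicalSpace X] {x y z : X}

/-- change of the base point -/
def bpt (ω : PQ x y) : FundamentalGroup X y ≃* FundamentalGroup X x where
  toFun γ := lp (ω.trans (γ.toPath.trans ω.symm))
  invFun γ := lp (ω.symm.trans (γ.toPath.trans ω))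
  left_inv γ := by
    simp only [Path.Homotopic.Quotient.trans_assoc, tr_can', Path.Homotopic.Quotient.symm_trans,
      Path.Homotopic.Quotient.trans_refl]
  right_inv γ := by
    simp only [Path.Homotopic.Quotient.trans_assoc, tr_can, Path.Homotopic.Quotient.trans_symm,
      Path.Homotopic.Quotient.trans_refl]
  map_mul' γ δ := by
    simp only [lp_mul, FundamentalGroup.mul_def, Path.Homotopic.Quotient.trans_assoc, tr_can']

theorem bpt_apply (ω : PQ x y) (γ : PQ y y) : bpt ω (lp γ) = lp (ω.trans (γ.trans ω.symm)) := rfl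

theorem bpt_trans (ω : PQ x y) (ω' : PQ y z) (γ : FundamentalGroup X z) :
    bpt (ω.trans ω') γ = bpt ω (bpt ω' γ) := by
  show lp ((ω.trans ω').trans (γ.toPath.trans (ω.trans ω').symm)) =
    lp (ω.trans ((ω'.trans (γ.toPath.trans ω'.symm)).trans ω.symm))
  simp only [symm_tr, Path.Homotopic.Quotient.trans_assoc]

theorem bpt_self (ω γ : FundamentalGroup X x) : bpt ω.toPath γ = ω⁻¹ * γ * ω := by
  show lp _ = lp (ω.toPath.trans (γ.toPath.trans ω.toPath.symm))
  rfl

theorem bpt_conj (ω ω' : PQ x y) (γ : FundamentalGroup X y) :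
    bpt ω' γ = (lp (ω'.trans ω.symm))⁻¹ * bpt ω γ * lp (ω'.trans ω.symm) := by
  rw [← bpt_self, ← bpt_trans]
  simp only [Path.Homotopic.Quotient.trans_assoc, Path.Homotopic.Quotient.symm_trans,
    Path.Homotopic.Quotient.trans_refl]

theorem Cy.rep_bpt {ι G : Type} [Group G] {U : ι → Set X} {c : ι → ι → X → G} (h : Cy U c)
    {i j : ι} (hi : x ∈ U i) (hj : y ∈ U j) (ω : PQ x y) (γ : FundamentalGroup X y) :
    h.rep hi (bpt ω γ) = (hol U c ω i j)⁻¹ * h.rep hj γ * hol U c ω i j := by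
  show hol U c (ω.trans (γ.toPath.trans ω.symm)) i i = _
  rw [h.hol_trans hj, h.hol_trans hj, h.hol_symm _ hi hj, h.rep_apply]

/-- free homotopies of loops -/
theorem free_htp (H : I × I → X) (hH : Continuous H) (a : Path x x) (c : Path y y)
    (ha : ∀ t, a t = H (0, t)) (hc : ∀ t, c t = H (1, t)) (e : ∀ s, H (s, 0) = H (s, 1)) :
    ∃ b : Path x y, (∀ s, b s = H (s, 0)) ∧ lp (.mk a) = bpt (.mk b) (lp (.mk c)) := by
  let b : Path x y := ⟨⟨fun s => H (s, 0), by fun_prop⟩, (ha 0).symm.trans a.source,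
    (hc 0).symm.trans c.source⟩
  refine ⟨b, fun _ => rfl, ?_⟩
  rw [bpt_apply, ← Path.Homotopic.Quotient.trans_assoc,
    ← square H hH a b c b ha (fun _ => rfl) hc e, Path.Homotopic.Quotient.trans_assoc,
    Path.Homotopic.Quotient.trans_symm, Path.Homotopic.Quotient.trans_refl]

theorem LD.sub (h : LD X) {S : Set X} (hS : IsOpen S) : LD S := fun x O hO => by
  obtain ⟨φ, a, b, c⟩ := h x _ (hS.isOpenEmbedding_subtypeVal.image_mem_nhds.2 hO)
  have m : ∀ z, φ z ∈ S := fun z => let ⟨y, _, e⟩ := c ⟨z, rfl⟩; e ▸ y.2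
  refine ⟨fun z => ⟨φ z, m z⟩, .of_comp _ hS.isOpenEmbedding_subtypeVal a, Subtype.ext b, ?_⟩
  rintro _ ⟨z, rfl⟩
  obtain ⟨y, hy, e⟩ := c ⟨z, rfl⟩
  exact (congrArg (· ∈ O) (Subtype.ext e : y = ⟨φ z, m z⟩)).mp hy

/-- a disc of a chart as a plane -/
theorem ex_plane (e : OpenPartialHomeomorph X ℂ) {c : ℂ} {r : ℝ} (hr : 0 < r)
    (h : ball c r ⊆ e.target) : ∃ φ : ℂ → X, IsOpenEmbedding φ ∧ φ 0 = e.symm c ∧
      range φ = e.symm '' ball c r := by
  let u : OpenPartialHomeomorph ℂ ℂ := .univBall c r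
  have h1 : u.source = univ := OpenPartialHomeomorph.univBall_source c r
  have h2 : range u = ball c r := by
    rw [← image_univ, ← h1, u.image_source_eq_target, OpenPartialHomeomorph.univBall_target c hr]
  refine ⟨u.trans e.symm, (u.trans e.symm).isOpenEmbedding (eq_univ_of_forall fun z =>
    ⟨h1.ge (mem_univ z), h (h2.le (mem_range_self z))⟩), ?_, ?_⟩
  · exact congrArg e.symm (OpenPartialHomeomorph.univBall_apply_zero c r)
  · rw [← h2, ← range_comp]; rfl

theorem sc_disc (e : OpenPartialHomeomorph X ℂ) {c : ℂ} {r : ℝ} (hr : 0 < r)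
    (h : ball c r ⊆ e.target) : Sc (e.symm '' ball c r) :=
  let ⟨_, a, _, b⟩ := ex_plane e hr h
  b ▸ Sc.range a.isInducing

theorem LD.oc (h : LD X) {ι : Type} {U : ι → Set X} (hU : Oc U) :
    ∃ (V : X → Set X) (r : X → ι), Oc V ∧ (∀ x, x ∈ V x) ∧ (∀ x, Sc (V x)) ∧ ∀ x, V x ⊆ U (r x) := by
  choose r hr using hU.cov
  choose φ h1 h2 h3 using fun x => h x _ ((hU.opn _).mem_nhds (hr x))
  exact ⟨fun x => range (φ x), r, ⟨fun x => (h1 x).isOpen_range, fun x => ⟨x, 0, h2 x⟩⟩,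
    fun x => ⟨0, h2 x⟩, fun x => Sc.range (h1 x).isInducing, h3⟩

end general

variable {C : Type} [TopologicalSpace C] [ChartedSpace ℂ C] {p : C} {x₀ x₁ y : Pc p}

theorem ld_chart (C : Type) [TopologicalSpace C] [ChartedSpace ℂ C] : LD C := fun x O hO => by
  let e := chartAt ℂ x
  have hx := mem_chart_source ℂ x
  obtain ⟨r, hr, h⟩ := Metric.mem_nhds_iff.1 (inter_mem (e.open_target.mem_nhds (e.map_source hx))
    (e.continuousAt_symm (e.map_source hx) (show O ∈ 𝓝 (e.symm (e x)) by rwa [e.left_inv hx])))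
  obtain ⟨φ, a, b, c⟩ := ex_plane e hr fun z hz => (h hz).1
  exact ⟨φ, a, b.trans (e.left_inv hx), c ▸ image_subset_iff.2 fun z hz => (h hz).2⟩

theorem ld_pc [T1Space C] (p : C) : LD (Pc p) := (ld_chart C).sub isOpen_compl_singleton

theorem lpc_pc [T1Space C] (p : C) : LocallyPathConnectedSpace (Pc p) := (ld_pc p).lpc

theorem pc_compl [T1Space C] [ConnectedSpace C] {F : Set C} (hF : F.Finite) :
    IsPathConnected Fᶜ := by
  haveI := (ld_chart C).lpc
  haveI : PathConnectedSpace C := .of_locallyPathConnectedSpace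
  obtain ⟨x⟩ := (inferInstance : Nonempty C)
  obtain ⟨y, -, hy⟩ := (ld_chart C).ex_diff hF (univ_mem (f := 𝓝 x))
  exact ⟨y, hy, fun z hz => compl_eq_univ_diff F ▸ (ld_chart C).punct isOpen_univ hF
    (joinedIn_univ.2 (PathConnectedSpace.joined y z)) hy hz⟩

theorem pc_pc [T1Space C] [ConnectedSpace C] (p : C) : PathConnectedSpace (Pc p) :=
  isPathConnected_iff_pathConnectedSpace.1 (pc_compl (finite_singleton p))

theorem mer_iff {γ : FundamentalGroup (Pc p) x₀} : IsMeridian p x₀ γ ↔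
    ∃ (ε : ℝ) (y : Pc p) (ω : PQ x₀ y) (c : Path y y), 0 < ε ∧
      closedBall (ctr p) ε ⊆ (chartAt ℂ p).target ∧
      (∀ t, (c t : C) = (chartAt ℂ p).symm (circleMap (ctr p) ε (2 * π * t))) ∧
      γ = bpt ω (lp (.mk c)) :=
  ⟨fun ⟨ε, y, ω, c, h⟩ => ⟨ε, y, .mk ω, c, h⟩, fun ⟨ε, y, ω, c, h⟩ => by
    obtain ⟨ω, rfl⟩ := Path.Homotopic.Quotient.mk_surjective ω
    exact ⟨ε, y, ω, c, h⟩⟩

theorem mer_bpt {γ : FundamentalGroup (Pc p) x₁} (h : IsMeridian p x₁ γ) (ω : PQ x₀ x₁) :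
    IsMeridian p x₀ (bpt ω γ) :=
  let ⟨ε, y, ω', c, h1, h2, h3, h4⟩ := mer_iff.1 h
  mer_iff.2 ⟨ε, y, ω.trans ω', c, h1, h2, h3, by rw [h4, bpt_trans]⟩

theorem mer_conj {γ : FundamentalGroup (Pc p) x₀} (h : IsMeridian p x₀ γ)
    (u : FundamentalGroup (Pc p) x₀) : IsMeridian p x₀ (u * γ * u⁻¹) := by
  have := mer_bpt h (u⁻¹).toPath
  rwa [bpt_self, inv_inv] at this

theorem ne_p {w : ℂ} (h : w ∈ (chartAt ℂ p).target) (h0 : w ≠ ctr p) :
    (chartAt ℂ p).symm w ∈ ({p}ᶜ : Set C) := fun e =>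
  h0 (((chartAt ℂ p).right_inv h).symm.trans (congrArg _ e))

/-- free homotopies in the punctured chart -/
theorem free_chart (H : I × I → ℂ) (hH : Continuous H) (h1 : ∀ q, H q ∈ (chartAt ℂ p).target)
    (h2 : ∀ q, H q ≠ ctr p) (e : ∀ s, H (s, 0) = H (s, 1)) (a : Path y y)
    (ha : ∀ t, (a t : C) = (chartAt ℂ p).symm (H (0, t))) :
    ∃ (y' : Pc p) (c : Path y' y') (ω : PQ y y'),
      (∀ t, (c t : C) = (chartAt ℂ p).symm (H (1, t))) ∧ lp (.mk a) = bpt ω (lp (.mk c)) := by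
  let K : I × I → Pc p := fun q => ⟨_, ne_p (h1 q) (h2 q)⟩
  have hK : Continuous K :=
    ((chartAt ℂ p).continuousOn_symm.comp_continuous hH h1).subtype_mk _
  have e' : ∀ s, K (s, 0) = K (s, 1) := fun s => Subtype.ext (congrArg (chartAt ℂ p).symm (e s))
  let c : Path (K (1, 0)) (K (1, 0)) := ⟨⟨fun t => K (1, t), by fun_prop⟩, rfl, (e' 1).symm⟩
  obtain ⟨b, -, hb⟩ := free_htp K hK a c (fun t => Subtype.ext (ha t)) (fun _ => rfl) e'
  exact ⟨_, c, .mk b, fun _ => rfl, hb⟩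

/-- a loop which is close to a small circle is a meridian -/
theorem mer_loop {l : ℂ} (hl : l ≠ 0) (hb : closedBall (ctr p) (2 * ‖l‖) ⊆ (chartAt ℂ p).target)
    (v : I → ℂ) (hv : Continuous v) (e : v 0 = v 1) (hn : ∀ t, ‖v t - l‖ < ‖l‖) (a : Path y y)
    (ha : ∀ t, (a t : C) = (chartAt ℂ p).symm (ctr p + cexp (2 * π * t * Complex.I) * v t))
    (ω : PQ x₀ y) : IsMeridian p x₀ (bpt ω (lp (.mk a))) := by
  have l0 := norm_pos_iff.2 hl
  let u : I × I → ℂ := fun q => l + (1 - (q.1 : ℝ) : ℝ) * (v q.2 - l)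
  have u1 : ∀ q, ‖u q - l‖ < ‖l‖ := fun q => by
    simp only [u, add_sub_cancel_left, norm_mul, norm_real, Real.norm_eq_abs]
    rw [abs_of_nonneg (sub_nonneg.2 q.1.2.2)]
    exact (mul_le_of_le_one_left (norm_nonneg _) (sub_le_self _ q.1.2.1)).trans_lt (hn _)
  let H : I × I → ℂ := fun q => ctr p + cexp ((2 * π * q.2 - q.1 * arg l : ℝ) * Complex.I) * u q
  have H1 : ∀ q, ‖H q - ctr p‖ = ‖u q‖ := fun q => by
    simp only [H, add_sub_cancel_left, norm_mul, norm_exp_ofReal_mul_I, one_mul]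
  obtain ⟨y', c, ω', h1, h2⟩ := free_chart H (by fun_prop) (fun q => hb (by
      rw [mem_closedBall_iff_norm, H1]
      linarith [norm_sub_norm_le (u q) l, u1 q])) (fun q h => by
      have := H1 q
      rw [h, sub_self, norm_zero] at this
      have h3 := u1 q
      rw [norm_eq_zero.1 this.symm, zero_sub, norm_neg] at h3
      exact h3.false) (fun s => by
      simp only [H, u, e, Icc.coe_zero, Icc.coe_one, mul_zero, mul_one, zero_sub]
      rw [show ((2 * π - s * arg l : ℝ) : ℂ) * Complex.I =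
        ((-(s * arg l) : ℝ) : ℂ) * Complex.I + 2 * π * Complex.I by push_cast; ring,
        Complex.exp_add, exp_two_pi_mul_I, mul_one]) a fun t => by
      rw [ha]
      simp [H, u]
  refine mer_iff.2 ⟨‖l‖, y', ω.trans ω', c, l0, (closedBall_subset_closedBall (by linarith)).trans hb,
    fun t => (h1 t).trans (congrArg _ ?_), by rw [h2, bpt_trans]⟩
  simp only [H, u, circleMap, Icc.coe_one, sub_self, ofReal_zero, zero_mul, add_zero, one_mul]
  have k := norm_mul_exp_arg_mul_I l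
  generalize arg l = β at k
  generalize (‖l‖ : ℂ) = r at k
  rw [← k, mul_left_comm, ← Complex.exp_add]
  congr 3
  push_cast
  ring

/-- small circles in any holomorphic chart are meridians -/
theorem HolAt.mer {ζ : OpenPartialHomeomorph C ℂ} (h : HolAt p ζ) : ∃ δ > 0, ∀ l : ℂ, l ≠ 0 →
    ‖l‖ < δ → ∀ (x₀ y : Pc p) (a : Path y y) (ω : PQ x₀ y),
      (∀ t, (a t : C) = ζ.symm (l * cexp (2 * π * t * Complex.I))) →
      IsMeridian p x₀ (bpt ω (lp (.mk a))) := by
  let e := chartAt ℂ p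
  have hp := mem_chart_source ℂ p
  let d := deriv (loc p ζ) (ctr p)
  have d0 : 0 < ‖d‖ := norm_pos_iff.2 h.nz
  have z0 : loc p ζ (ctr p) = 0 := (congrArg ζ (e.left_inv hp)).trans h.zero
  have t0 : (0 : ℂ) ∈ ζ.target := h.zero ▸ ζ.map_source h.mem
  have s0 : ζ.symm 0 = p := h.zero ▸ ζ.left_inv h.mem
  have c0 : ContinuousAt ζ.symm 0 := ζ.continuousAt_symm t0
  have c1 : ContinuousAt (fun w => e (ζ.symm w)) 0 :=
    ContinuousAt.comp_of_eq (e.continuousAt hp) c0 s0
  have hd : HasDerivAt (fun w => e (ζ.symm w)) d⁻¹ 0 := by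
    refine HasDerivAt.of_local_left_inverse (f := loc p ζ) c1
      (by rw [s0]; exact h.an.differentiableAt.hasDerivAt) h.nz ?_
    filter_upwards [ζ.open_target.mem_nhds t0,
      c0.eventually (show e.source ∈ 𝓝 (ζ.symm 0) by rw [s0]; exact e.open_source.mem_nhds hp)]
      with w h1 h2
    exact (congrArg ζ (e.left_inv h2)).trans (ζ.right_inv h1)
  obtain ⟨r, r0, hr⟩ := Metric.nhds_basis_closedBall.mem_iff.1
    (e.open_target.mem_nhds (e.map_source hp))
  obtain ⟨δ, δ0, hδ⟩ := Metric.eventually_nhds_iff_ball.1 (((Asymptotics.isLittleO_iff.1 hd.isLittleO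
    (half_pos (inv_pos.2 d0))).and (ζ.open_target.mem_nhds t0)).and
      (c0.eventually (show e.source ∈ 𝓝 (ζ.symm 0) by rw [s0]; exact e.open_source.mem_nhds hp)))
  refine ⟨min δ (r * ‖d‖ / 2), lt_min δ0 (by positivity), fun l l0 hl x₀ y a ω ha => ?_⟩
  let w : I → ℂ := fun t => l * cexp ((2 * π * t : ℝ) * Complex.I)
  have w1 : ∀ t, ‖w t‖ = ‖l‖ := fun t => by simp only [w, norm_mul, norm_exp_ofReal_mul_I, mul_one]
  have w2 : ∀ t, w t ∈ ball (0 : ℂ) δ := fun t =>
    mem_ball_zero_iff.2 ((w1 t).trans_lt (hl.trans_le (min_le_left _ _)))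
  have w3 : ∀ t, (a t : C) = ζ.symm (w t) := fun t => by rw [ha]; simp [w]
  have n1 : ‖l * d⁻¹‖ = ‖l‖ * ‖d‖⁻¹ := by rw [norm_mul, norm_inv]
  have l1 := norm_pos_iff.2 l0
  refine mer_loop (l := l * d⁻¹) (mul_ne_zero l0 (inv_ne_zero h.nz))
    ((closedBall_subset_closedBall ?_).trans hr)
    (fun t => cexp (-((2 * π * t : ℝ) * Complex.I)) * (e (a t) - ctr p)) ?_ ?_ (fun t => ?_) a
    (fun t => ?_) ω
  · rw [n1, ← div_eq_mul_inv, ← mul_div_assoc, div_le_iff₀ d0]
    linarith [hl.trans_le (min_le_right _ _)]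
  · refine Continuous.mul (by fun_prop) (Continuous.sub (e.continuousOn.comp_continuous
      (continuous_subtype_val.comp a.continuous) fun t => ?_) continuous_const)
    exact (w3 t).symm ▸ (hδ _ (w2 t)).2
  · simp [exp_neg, exp_two_pi_mul_I]
  · have h1 := (hδ _ (w2 t)).1.1
    rw [sub_zero, s0, ← w3, w1] at h1
    have h2 : cexp (-((2 * π * t : ℝ) * Complex.I)) * (e (a t) - ctr p) - l * d⁻¹ =
        cexp (-((2 * π * t : ℝ) * Complex.I)) * (e (a t) - e p - w t • d⁻¹) := by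
      rw [mul_sub _ (e (a t) - e p), smul_eq_mul, ← mul_assoc, mul_left_comm _ l, ← Complex.exp_add,
        neg_add_cancel, Complex.exp_zero, mul_one]
      rfl
    rw [h2, norm_mul, exp_neg, norm_inv, norm_exp_ofReal_mul_I, inv_one, one_mul, n1]
    refine h1.trans_lt ?_
    rw [mul_comm]
    exact mul_lt_mul_of_pos_left (half_lt_self (inv_pos.2 d0)) l1
  · rw [← mul_assoc, ← Complex.exp_add, show 2 * π * t * Complex.I + -((2 * π * t : ℝ) * Complex.I)
      = 0 by push_cast; ring, Complex.exp_zero, one_mul, add_sub_cancel]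
    exact (e.left_inv ((w3 t).symm ▸ (hδ _ (w2 t)).2)).symm

/-- all meridians are conjugate -/
theorem mer_isConj {γ γ' : FundamentalGroup (Pc p) x₀} (h : IsMeridian p x₀ γ)
    (h' : IsMeridian p x₀ γ') : ∃ u, γ' = u * γ * u⁻¹ := by
  obtain ⟨ε, y, ω, c, h1, h2, h3, rfl⟩ := mer_iff.1 h
  obtain ⟨ε', y', ω', c', k1, k2, k3, rfl⟩ := mer_iff.1 h'
  have m : ∀ s : I, 0 < ε' + s * (ε - ε') ∧ ε' + s * (ε - ε') ≤ max ε ε' := fun s => by
    have := s.2.1
    have := s.2.2
    constructor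
    · nlinarith [mul_nonneg s.2.1 h1.le, mul_nonneg (sub_nonneg.2 s.2.2) k1.le,
        le_total (s : ℝ) (1 / 2)]
    · nlinarith [le_max_left ε ε', le_max_right ε ε']
  obtain ⟨y2, c2, ω2, e1, e2⟩ := free_chart
    (fun q => circleMap (ctr p) (ε' + q.1 * (ε - ε')) (2 * π * q.2)) (by
      unfold circleMap; fun_prop) (fun q => by
      have := closedBall_subset_closedBall (m q.1).2
        (circleMap_mem_closedBall (ctr p) (m q.1).1.le (2 * π * q.2))
      rcases le_total ε ε' with a | a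
      · exact k2 (by rwa [max_eq_right a] at this)
      · exact h2 (by rwa [max_eq_left a] at this)) (fun q => circleMap_ne_center (m q.1).1.ne')
    (fun s => by simp [circleMap, exp_two_pi_mul_I]) c' fun t => by simp [k3]
  obtain ⟨rfl, -, e3⟩ := mk_heq (γ := c2) (γ' := c) fun t => Subtype.ext (by simp [e1, h3])
  rw [e2, eq_of_heq e3, ← bpt_trans]
  exact ⟨_, (bpt_conj ω _ _).trans (by rw [inv_inv])⟩

end Vale.Agent.P275RH
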