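import Vale.Agent.P275RH.Str1
import Vale.Agent.P275RH.Mer
import Vale.Agent.P275Z.Top

/-!
P275 (helper44): the two last blocks for the existence of a marking.
-/

set_option linter.all false

open scoped Real
open Set unitInterval

noncomputable section

namespace Vale.Agent.P275RH

open Vale.Agent.P275ST

/-- the big circle, reversed -/
def Bc.loop {X : Type} [TopologicalSpace X] (B : Bc X) (a : ℝ) : Path (B.κ a) (B.κ a) :=
  ⟨⟨fun t => B.κ (a - 2 * π * B.N * t), B.cκ.comp (by fun_prop)⟩, by simp,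
    (B.per _).symm.trans (by simp)⟩

theorem Bc.loop_apply {X : Type} [TopologicalSpace X] (B : Bc X) (a : ℝ) (t : I) :
    B.loop a t = B.κ (a - 2 * π * B.N * t) := rfl

/-- the big circle of a branched covering is a meridian -/
def BCX : Prop := ∀ (C : Type) [TopologicalSpace C] [T2Space C] [ChartedSpace ℂ C] (p : C),
  Br p → ∃ B : Bc (Pc p), ∀ a, IsMeridian p (B.κ a) (lp (.mk (B.loop a)))

/-- the big circle is the product of the commutators of a free basis -/
def STR : Prop := GNF → ∀ (X : Type) [TopologicalSpace X] [T2Space X] [PathConnectedSpace X],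
  LD X → ∀ B : Bc X, ∃ (a : ℝ) (g : ℕ)
    (e : FreeGroup (Fin g × Bool) ≃* FundamentalGroup X (B.κ a)), e (cwd g) = lp (.mk (B.loop a))

theorem mark_of (h0 : GNF) (h1 : MERP) (h2 : BRC) (h3 : BCX) (h4 : STR) : P275Z.MARK := by
  intro C _ _ _ _ _ _ p x₀
  obtain ⟨b⟩ := h2 h1 C p
  obtain ⟨B, hB⟩ := h3 C p b
  haveI := pc_pc p
  obtain ⟨a, g, e, he⟩ := h4 h0 _ (ld_pc p) B
  let ω : PQ x₀ (B.κ a) := .mk (PathConnectedSpace.somePath _ _)
  refine ⟨g, ⟨⟨e.trans (bpt ω), ?_⟩⟩⟩
  have := mer_bpt (hB a) ω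
  rw [← he] at this
  exact this

end Vale.Agent.P275RH
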