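import Vale.Agent.P275RH.Ret

/-!
P275 (helper44): isomorphisms of cocycles, winding numbers.
-/

set_option linter.all false

open scoped Real
open Set Filter Topology unitInterval Complex

noncomputable section

namespace Vale.Agent.P275RH

variable {X Y ι κ G : Type} [TopologicalSpace X] [TopologicalSpace Y] [Group G] {U : ι → Set X}
  {U' : κ → Set X} {c : ι → ι → X → G} {c' : κ → κ → X → G} {x y : X} {i : ι} {j : κ}

/-- cocycles with conjugate monodromy are isomorphic -/
theorem Cy.ex_iso [PathConnectedSpace X] [LocallyPathConnectedSpace X] (h : Cy U c) (h' : Cy U' c')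
    (hi : x ∈ U i) (hj : x ∈ U' j) {a : G} (e : ∀ γ, h.rep hi γ * a = a * h'.rep hj γ) :
    ∃ β : ι → κ → X → G, (∀ k m, Lc (U k ∩ U' m) (β k m)) ∧
      (∀ k k' m y, y ∈ U k → y ∈ U k' → β k m y = c k k' y * β k' m y) ∧
      (∀ k m m' y, y ∈ U' m → y ∈ U' m' → β k m' y = β k m y * c' m m' y) ∧
      ∀ k m y (γ : PQ x y), y ∈ U k → y ∈ U' m →
        β k m y = hol U c γ i k * a * (hol U' c' γ j m)⁻¹ := by
  have key : ∀ k m y (γ δ : PQ x y), y ∈ U k → y ∈ U' m →
      hol U c γ i k * a * (hol U' c' γ j m)⁻¹ = hol U c δ i k * a * (hol U' c' δ j m)⁻¹ :=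
    fun k m y γ δ hk hm => by
      have := e (lp (γ.trans δ.symm))
      rw [h.rep_apply, h'.rep_apply, h.hol_trans hk, h'.hol_trans hm, h.hol_symm δ hi hk,
        h'.hol_symm δ hj hm, mul_assoc, inv_mul_eq_iff_eq_mul] at this
      rw [this]
      group
  refine ⟨fun k m y => hol U c (.mk (PathConnectedSpace.somePath x y)) i k * a *
    (hol U' c' (.mk (PathConnectedSpace.somePath x y)) j m)⁻¹, fun k m =>
      (h.toOc.inter h'.toOc).lc (j := (k, m)) fun y hy z hz γ hγ => ?_, fun k k' m y a b => ?_,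
      fun k m m' y a b => ?_, fun k m y γ => key k m y _ γ⟩
  · beta_reduce
    rw [key k m z _ (.trans (.mk (PathConnectedSpace.somePath x y)) (.mk γ)) hz.1 hz.2,
      h.hol_trans hy.1, h'.hol_trans hy.2, h.hol_self γ fun t => (hγ t).1,
      h'.hol_self γ fun t => (hγ t).2, one_mul, one_mul]
  · simp only [h.hol_right _ b a, mul_assoc]
  · simp only [h'.hol_right _ a b, mul_inv_rev, h'.inv b a, mul_assoc]

theorem lc_of_exp {f : X → ℂ} (h : ContinuousAt f x) (e : ∀ᶠ y in 𝓝 x, cexp (f y) = 1) :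
    ∀ᶠ y in 𝓝 x, f y = f x := by
  filter_upwards [e, h.eventually (Metric.ball_mem_nhds _ Real.two_pi_pos)] with y a b
  obtain ⟨k, hk⟩ := exp_eq_exp_iff_exists_int.1 (a.trans e.self_of_nhds.symm)
  rw [hk, dist_eq_norm, add_sub_cancel_left, norm_mul, norm_intCast,
    show ‖(2 * π * Complex.I : ℂ)‖ = 2 * π by simp [Real.pi_pos.le],
    mul_lt_iff_lt_one_left Real.two_pi_pos] at b
  rw [hk, Int.abs_lt_one_iff.1 (by exact_mod_cast b : |k| < 1)]
  simp

section wnd

variable (r : C(X, ℂ))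

/-- the domains of two branches of the logarithm -/
def LU (b : Bool) : Set X := {y | (if b then r y else -r y) ∈ slitPlane}

/-- two branches of the logarithm -/
def lg (b : Bool) (y : X) : ℂ := if b then log (r y) else log (-r y) + π * Complex.I

/-- the cocycle of the logarithm -/
def lgc (b b' : Bool) (y : X) : Multiplicative ℂ := .ofAdd (lg r b' y - lg r b y)

variable {r} (h : ∀ y, r y ≠ 0) {b b' : Bool}

theorem lg_cont (hb : y ∈ LU r b) : ContinuousAt (lg r b) y := by
  cases b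
  · exact (r.continuous.neg.continuousAt.clog hb).add continuousAt_const
  · exact r.continuous.continuousAt.clog hb

include h

theorem exp_lg (b : Bool) (y : X) : cexp (lg r b y) = r y := by
  cases b
  · simp [lg, Complex.exp_add, exp_log (neg_ne_zero.2 (h y))]
  · exact exp_log (h y)

theorem exp_lgc (b b' : Bool) (y : X) : cexp (lgc r b b' y).toAdd = 1 := by
  rw [lgc, toAdd_ofAdd, Complex.exp_sub, exp_lg h, exp_lg h, div_self (h y)]

theorem lg_cy : Cy (LU r) (lgc r) := by
  refine ⟨⟨fun b => ?_, fun y => ?_⟩, fun b b' y hy => (lc_of_exp ((lg_cont hy.2).sub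
    (lg_cont hy.1)) (.of_forall (exp_lgc h b b'))).mono fun _ e => congrArg Multiplicative.ofAdd e,
    fun _ _ _ y _ _ _ => ?_⟩
  · cases b
    exacts [isOpen_slitPlane.preimage r.continuous.neg, isOpen_slitPlane.preimage r.continuous]
  · exact (mem_slitPlane_or_neg_mem_slitPlane (h y)).elim (fun a => ⟨true, a⟩) fun a => ⟨false, a⟩
  · simp only [lgc, ← ofAdd_add, sub_add_sub_cancel']

theorem hol_lg (γ : Path x y) (l : I → ℂ) (hl : Continuous l) (e : ∀ t, cexp (l t) = r (γ t))
    (hb : x ∈ LU r b) (hb' : y ∈ LU r b') : (hol (LU r) (lgc r) (.mk γ) b b').toAdd =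
      l 1 - l 0 + lg r b x - lg r b' y := by
  have hO := (lg_cy h).toOc.pre γ.toContinuousMap
  have hs : Fs (fun b => γ.toContinuousMap ⁻¹' LU r b) (fun b b' t => lgc r b b' (γ t))
      fun b t => Multiplicative.ofAdd (l t - lg r b (γ t)) :=
    ⟨fun b t ht => (lc_of_exp (hl.continuousAt.sub ((lg_cont ht).comp γ.continuous.continuousAt))
      (.of_forall fun s => (Complex.exp_sub _ _).trans
        ((div_eq_one_iff_eq (exp_ne_zero _)).2 ((e s).trans (exp_lg h b _).symm)))).mono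
      fun _ e => congrArg Multiplicative.ofAdd e, fun b b' t _ _ => by
        simp only [lgc, smul_eq_mul, ← ofAdd_add, sub_add_sub_cancel']⟩
  let δ : Path (0 : I) 1 := ⟨.id I, rfl, rfl⟩
  have a0 : (0 : I) ∈ γ.toContinuousMap ⁻¹' LU r b := (congrArg (· ∈ LU r b) γ.source).mpr hb
  have a1 : (1 : I) ∈ γ.toContinuousMap ⁻¹' LU r b' := (congrArg (· ∈ LU r b') γ.target).mpr hb'
  have := congrArg Multiplicative.toAdd ((congrArg (· • _) (((lg_cy h).hol_pull (r := id) hO
    (fun _ _ a => a) _ a0 a1).trans (hol_path_congr (γ := δ.map γ.continuous) (γ' := γ)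
      (fun _ => rfl) _ _))).symm.trans
    (hs.hol ((lg_cy h).pull (r := id) hO fun _ _ a => a) (.mk δ) a0 a1))
  simp only [smul_eq_mul, toAdd_mul, toAdd_ofAdd, id, γ.source, γ.target] at this
  linear_combination this

/-- the variation of the logarithm of `r` along loops -/
def wnd (x : X) : FundamentalGroup X x →* Multiplicative ℂ :=
  (lg_cy h).rep ((lg_cy h).cov x).choose_spec

theorem wnd_spec (γ : Path x x) (l : I → ℂ) (hl : Continuous l) (e : ∀ t, cexp (l t) = r (γ t)) :
    (wnd h x (lp (.mk γ))).toAdd = l 1 - l 0 :=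
  (hol_lg h γ l hl e ((lg_cy h).cov x).choose_spec ((lg_cy h).cov x).choose_spec).trans
    (add_sub_cancel_right _ _)

theorem ex_lift (γ : Path x y) : ∃ l : I → ℂ, Continuous l ∧ ∀ t, cexp (l t) = r (γ t) := by
  haveI : ContractibleSpace I := (convex_Icc (0 : ℝ) 1).contractibleSpace ⟨0, by simp⟩
  haveI : LocallyPathConnectedSpace I := (convex_Icc (0 : ℝ) 1).locallyPathConnectedSpace
  obtain ⟨l, ⟨-, h2⟩, -⟩ := isCoveringMapOn_exp.existsUnique_continuousMap_lifts (A := I)
    (r.comp γ.toContinuousMap) (a₀ := 0) (e₀ := log _) (exp_log (h _)) fun t => h _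
  exact ⟨l, l.continuous, congrFun h2⟩

theorem wnd_eq (hb : x ∈ LU r b) (γ : FundamentalGroup X x) : wnd h x γ = (lg_cy h).rep hb γ := by
  obtain ⟨γ, rfl⟩ := Path.Homotopic.Quotient.mk_surjective γ
  obtain ⟨l, a, e⟩ := ex_lift h γ
  exact Multiplicative.toAdd.injective ((wnd_spec h γ l a e).trans
    ((hol_lg h γ l a e hb hb).trans (add_sub_cancel_right _ _)).symm)

theorem exp_wnd (γ : FundamentalGroup X x) : cexp (wnd h x γ).toAdd = 1 := by
  obtain ⟨γ, rfl⟩ := Path.Homotopic.Quotient.mk_surjective γ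
  obtain ⟨l, a, e⟩ := ex_lift h γ
  rw [wnd_spec h γ l a e, Complex.exp_sub, e, e, γ.source, γ.target, div_self (h x)]

theorem wnd_map {r' : C(Y, ℂ)} (h' : ∀ y, r' y ≠ 0) (f : C(X, Y)) (e : ∀ y, r' (f y) = r y)
    (γ : FundamentalGroup X x) : wnd h' (f x) (FundamentalGroup.map f x γ) = wnd h x γ := by
  obtain ⟨γ, rfl⟩ := Path.Homotopic.Quotient.mk_surjective γ
  obtain ⟨l, a, e'⟩ := ex_lift h γ
  exact Multiplicative.toAdd.injective ((wnd_spec h' (γ.map f.continuous) l a fun t =>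
    (e' t).trans (e _).symm).trans (wnd_spec h γ l a e').symm)

theorem wnd_bpt (ω : PQ x y) (γ : FundamentalGroup X y) : wnd h x (bpt ω γ) = wnd h y γ := by
  rw [wnd, wnd, (lg_cy h).rep_bpt _ ((lg_cy h).cov y).choose_spec, inv_mul_cancel_comm]

/-- logarithms with a prescribed cocycle -/
theorem Cy.ex_lg [PathConnectedSpace X] [LocallyPathConnectedSpace X] (hc : Cy U c) (hi : x ∈ U i)
    (k : G →* Multiplicative ℂ) (k1 : ∀ g, cexp (k g).toAdd = 1)
    (e : ∀ γ, k (hc.rep hi γ) = wnd h x γ) : ∃ v : ι → X → ℂ,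
      (∀ m, ContinuousOn (v m) (U m)) ∧ (∀ m, ∀ y ∈ U m, cexp (v m y) = r y) ∧
      ∀ m m' y, y ∈ U m → y ∈ U m' → v m' y = v m y + (k (c m m' y)).toAdd := by
  choose b hb using (lg_cy h).cov
  obtain ⟨β, b1, b2, b3, b4⟩ := (lg_cy h).ex_iso (hc.map k) (hb x) hi (a := 1) fun γ => by
    rw [mul_one, one_mul, ← wnd_eq h, ← e]
    exact (hc.hol_map k _ hi hi).symm
  refine ⟨fun m y => lg r (b y) y + (β (b y) m y).toAdd, fun m y hy =>
    ContinuousAt.continuousWithinAt (((lg_cont (hb y)).add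
      (continuousAt_const (y := (β (b y) m y).toAdd))).congr ?_), fun m y hy => ?_,
      fun m m' y a a' => ?_⟩
  · filter_upwards [b1 _ m y ⟨hb y, hy⟩, ((lg_cy h).opn _).mem_nhds (hb y)] with z a1 a2
    rw [b2 _ _ m z (hb z) a2, a1, lgc, toAdd_mul, toAdd_ofAdd, Pi.add_apply]
    ring
  · obtain ⟨l, a, e⟩ := ex_lift h (PathConnectedSpace.somePath x y)
    beta_reduce
    rw [b4 _ m y (.mk (PathConnectedSpace.somePath x y)) (hb y) hy, hc.hol_map k _ hi hy, mul_one,
      toAdd_mul, toAdd_inv, hol_lg h _ l a e (hb x) (hb y)]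
    simp only [Complex.exp_add, Complex.exp_sub, Complex.exp_neg, k1, e, exp_lg h, Path.source,
      Path.target]
    field_simp [h x, h y]
  · simp only [b3 _ m m' y a a', toAdd_mul, add_assoc]

end wnd

end Vale.Agent.P275RH
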