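import Vale.Agent.P275RH.Tpf
import Vale.Agent.P275SA.Main

/-!
P275 (helper44): the topological input, unconditionally.
-/

namespace Vale.Agent.P275RH

theorem topf : P275RL.TOPF := topf_of P275SA.sca

end Vale.Agent.P275RH
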