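import Vale.Agent.P275RH.Uni
import Vale.Agent.P275RH.MkD

/-!
P275 (helper44): covers whose nerve is a graph; gluing lemmas for paths.
-/

set_option linter.all false

open Set Filter Topology unitInterval

noncomputable section

namespace Vale.Agent.P275RH

variable {X V E : Type} [TopologicalSpace X] {U : V → Set X} {W : E → Set X} {s t : E → V}
  {x y z : X} {v v' : V}

/-- a cover without triple overlaps -/
structure Gc (U : V → Set X) (W : E → Set X) (s t : E → V) : Prop extends Oc U where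
  sc : ∀ v, Sc (U v)
  opw : ∀ e, IsOpen (W e)
  pc : ∀ e, IsPathConnected (W e)
  sub : ∀ e v, ∀ y ∈ W e, (y ∈ U v ↔ v = s e ∨ v = t e)
  ne : ∀ e, s e ≠ t e
  dis : ∀ e e', ∀ y ∈ W e, y ∈ W e' → e = e'
  ov : ∀ v v', v ≠ v' → ∀ y ∈ U v, y ∈ U v' → ∃ e, y ∈ W e

open Classical in
/-- the potential of the cocycle -/
def gk (W : E → Set X) (t : E → V) (v : V) (y : X) : FreeGroup E :=
  if h : ∃ e, y ∈ W e ∧ v = t e then FreeGroup.of h.choose else 1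

/-- the cocycle of the graph -/
def gc (W : E → Set X) (t : E → V) (v v' : V) (y : X) : FreeGroup E := (gk W t v y)⁻¹ * gk W t v' y

theorem gc_self (v : V) (y : X) : gc W t v v y = 1 := inv_mul_cancel _

namespace Gc

variable (h : Gc U W s t)
include h

theorem gk_t {e : E} (hy : y ∈ W e) : gk W t (t e) y = FreeGroup.of e := by
  have a : ∃ e', y ∈ W e' ∧ t e = t e' := ⟨e, hy, rfl⟩
  rw [gk, dif_pos a, h.dis _ _ _ a.choose_spec.1 hy]

theorem gk_s {e : E} (hy : y ∈ W e) : gk W t (s e) y = 1 :=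
  dif_neg fun ⟨e', a, b⟩ => h.ne e (by rwa [h.dis _ _ _ a hy] at b)

theorem gc_st {e : E} (hy : y ∈ W e) : gc W t (s e) (t e) y = FreeGroup.of e := by
  rw [gc, h.gk_s hy, h.gk_t hy, inv_one, one_mul]

theorem gc_ts {e : E} (hy : y ∈ W e) : gc W t (t e) (s e) y = (FreeGroup.of e)⁻¹ := by
  rw [gc, h.gk_s hy, h.gk_t hy, mul_one]

theorem cases (a : y ∈ U v) (b : y ∈ U v') :
    v = v' ∨ ∃ e, y ∈ W e ∧ (v = s e ∧ v' = t e ∨ v = t e ∧ v' = s e) := by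
  by_cases n : v = v'
  · exact .inl n
  obtain ⟨e, he⟩ := h.ov v v' n y a b
  refine .inr ⟨e, he, ?_⟩
  rcases (h.sub e v y he).1 a with a | a <;> rcases (h.sub e v' y he).1 b with b | b
  exacts [(n (a.trans b.symm)).elim, .inl ⟨a, b⟩, .inr ⟨a, b⟩, (n (a.trans b.symm)).elim]

theorem cy : Cy U (gc W t) := by
  refine ⟨h.toOc, fun v v' y hy => ?_, fun _ _ _ _ _ _ _ => by simp only [gc]; group⟩
  rcases h.cases hy.1 hy.2 with rfl | ⟨e, he, ⟨rfl, rfl⟩ | ⟨rfl, rfl⟩⟩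
  · exact .of_forall fun _ => by rw [gc_self, gc_self]
  · filter_upwards [(h.opw e).mem_nhds he] with z hz
    rw [h.gc_st hz, h.gc_st he]
  · filter_upwards [(h.opw e).mem_nhds he] with z hz
    rw [h.gc_ts hz, h.gc_ts he]

theorem wk_gc (a : y ∈ U v) (b : y ∈ U v') : Wk s t v v' (gc W t v v' y) := by
  rcases h.cases a b with rfl | ⟨e, he, ⟨rfl, rfl⟩ | ⟨rfl, rfl⟩⟩
  · rw [gc_self]; exact Wk.one s t _
  · rw [h.gc_st he]; exact Wk.of s t e
  · rw [h.gc_ts he]; exact (Wk.of s t e).inv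

theorem wk_hol (γ : PQ x y) (a : x ∈ U v) (b : y ∈ U v') : Wk s t v' v (hol U (gc W t) γ v v') := by
  refine h.toOc.ind (P := fun x y γ => ∀ v v', x ∈ U v → y ∈ U v' →
    Wk s t v' v (hol U (gc W t) γ v v')) (fun k x y γ hγ v v' a b => ?_)
    (fun x y z γ δ p q v v' a b => ?_) γ v v' a b
  · rw [h.cy.hol_loc γ hγ a b]
    exact (h.wk_gc b (γ.target ▸ hγ 1)).mul (h.wk_gc (γ.source ▸ hγ 0) a)
  · obtain ⟨j, hj⟩ := h.cov y
    rw [h.cy.hol_trans hj]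
    exact (q j v' hj b).mul (p v j a hj)

theorem cn [PathConnectedSpace X] (v₀ : V) : Cn s t v₀ := fun P h0 hP v => by
  have k : ∀ {y v v'}, y ∈ U v → y ∈ U v' → (P v ↔ P v') := fun a b => by
    rcases h.cases a b with rfl | ⟨e, -, ⟨rfl, rfl⟩ | ⟨rfl, rfl⟩⟩
    exacts [Iff.rfl, hP e, (hP e).symm]
  obtain ⟨x, hx⟩ := (h.sc v₀).pc.nonempty
  obtain ⟨y, hy⟩ := (h.sc v).pc.nonempty
  exact (h.toOc.ind (P := fun x y _ => ∀ v v', x ∈ U v → y ∈ U v' → (P v ↔ P v'))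
    (fun j x y γ hγ v v' a b => (k a (γ.source ▸ hγ 0)).trans (k (γ.target ▸ hγ 1) b))
    (fun x y z _ _ p q v v' a b => (h.cov y).elim fun j hj => (p v j a hj).trans (q j v' hj b))
    (.mk (PathConnectedSpace.somePath x y)) v₀ v hx hy).1 h0

/-- the fundamental group of the space is that of the graph -/
theorem iso [PathConnectedSpace X] [LocallyPathConnectedSpace X] (h0 : x ∈ U v) :
    ∃ Φ : FundamentalGroup X x ≃* Lp s t v, ∀ γ, (Φ γ : FreeGroup E) = h.cy.rep h0 γ := by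
  obtain ⟨τ, hτ, e0⟩ := exists_tau' h.sc h0
  choose p hp using fun e => (h.pc e).nonempty
  let Ψ : FreeGroup E →* FundamentalGroup X x := FreeGroup.lift fun e => uc τ (s e) (t e) (p e)
  have ms : ∀ e, ∀ y ∈ W e, y ∈ U (s e) := fun e y hy => (h.sub e _ y hy).2 (.inl rfl)
  have mt : ∀ e, ∀ y ∈ W e, y ∈ U (t e) := fun e y hy => (h.sub e _ y hy).2 (.inr rfl)
  have k1 : ∀ e, ∀ y ∈ W e, Ψ (FreeGroup.of e) = uc τ (s e) (t e) y := fun e y hy => by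
    obtain ⟨δ, hδ⟩ := (h.pc e).joinedIn _ (hp e) y hy
    rw [hτ.uc_path δ (fun u => ms e _ (hδ u)) fun u => mt e _ (hδ u)]
    exact FreeGroup.lift_apply_of
  have k2 : ∀ γ, Ψ (h.cy.rep h0 γ) = γ := fun γ => by
    rw [h.cy.rep_apply, ← h.cy.hol_map Ψ _ h0 h0, (h.cy.map Ψ).hol_congr (hτ.cy h.toOc) _ _ h0 h0]
    · exact hτ.rep_uc h.toOc h0 e0 γ
    · intro i j y a b
      rcases h.cases a b with rfl | ⟨e, he, ⟨rfl, rfl⟩ | ⟨rfl, rfl⟩⟩
      · rw [gc_self, map_one, (hτ.cy h.toOc).one a]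
      · rw [h.gc_st he, k1 e y he]
      · rw [h.gc_ts he, map_inv, k1 e y he, (hτ.cy h.toOc).inv b a]
  obtain ⟨b, b1, b2⟩ := hτ.exists_b (fun i => (h.sc i).pc) h.cy h0
  have b0 : b v = 1 := by rw [← b1 v x h0, e0, h.cy.hol_refl h0 h0, gc_self]
  refine ⟨MulEquiv.ofBijective ((h.cy.rep h0).codRestrict (Lp s t v) fun γ => h.wk_hol _ h0 h0)
    ⟨fun a a' e => ?_, fun w => ⟨Ψ w, Subtype.ext ?_⟩⟩, fun _ => rfl⟩
  · rw [← k2 a, ← k2 a']
    exact congrArg (fun w : Lp s t v => Ψ w) e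
  · have := w.2 _ FreeGroup.of fun i => (b i)⁻¹
    rw [b0, FreeGroup.lift_of_apply, inv_one, inv_one, one_mul, mul_one] at this
    refine Eq.trans ?_ this
    show ((h.cy.rep h0).comp Ψ) w = _
    refine DFunLike.congr_fun (FreeGroup.ext_hom _ _ fun e => ?_) _
    rw [FreeGroup.lift_apply_of, MonoidHom.comp_apply, k1 e _ (hp e), ← h.gc_st (hp e),
      b2 _ _ _ (ms e _ (hp e)) (mt e _ (hp e))]
    group

end Gc

section glue

variable {ι : Type} {Y : ι → Set X}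

/-- induction on the paths inside a union of open sets -/
theorem ind_path (ho : ∀ a, IsOpen (Y a)) {P : ∀ x y : X, PQ x y → Prop}
    (loc : ∀ i x y (γ : Path x y), (∀ t, γ t ∈ Y i) → P x y (.mk γ))
    (tr : ∀ a x, ∀ y ∈ Y a, ∀ z γ δ, P x y γ → P y z δ → P x z (γ.trans δ)) (γ : Path x y)
    (hγ : ∀ t, ∃ a, γ t ∈ Y a) : P x y (.mk γ) := by
  let O : Set X := {x | ∃ a, x ∈ Y a}
  let f : C(O, X) := ⟨Subtype.val, continuous_subtype_val⟩
  have hO : Oc fun a => f ⁻¹' Y a := ⟨fun a => (ho a).preimage f.continuous, fun x => x.2⟩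
  let δ : Path (⟨x, γ.source ▸ hγ 0⟩ : O) ⟨y, γ.target ▸ hγ 1⟩ :=
    ⟨⟨fun t => ⟨γ t, hγ t⟩, γ.continuous.subtype_mk _⟩, Subtype.ext γ.source, Subtype.ext γ.target⟩
  exact hO.ind (P := fun x y γ => P x y (γ.map f))
    (fun i x y γ hγ => loc i _ _ (γ.map f.continuous) hγ)
    (fun x y z γ δ a b => y.2.elim fun i hi => map_trans γ δ f ▸ tr i _ _ hi _ _ _ a b) (.mk δ)

/-- a van Kampen lemma -/
theorem vk (ho : ∀ a, IsOpen (Y a)) {D : Set X}
    (hH : ∀ a x y (γ δ : Path x y), (∀ t, γ t ∈ Y a) → (∀ t, δ t ∈ Y a) →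
      (Path.Homotopic.Quotient.mk γ : PQ x y) = .mk δ)
    (hD : ∀ x (γ : Path x x), (∀ t, γ t ∈ D) → (Path.Homotopic.Quotient.mk γ : PQ x x) = .refl x)
    (hJ : ∀ a a', ∀ y ∈ Y a, y ∈ Y a' → ∃ z ∈ D, JoinedIn (Y a ∩ Y a') y z)
    (hK : ∀ a, ∀ y ∈ D, ∀ z ∈ D, JoinedIn (Y a) y z → JoinedIn (Y a ∩ D) y z)
    (γ : Path x x) (hγ : ∀ t, ∃ a, γ t ∈ Y a) :
    (Path.Homotopic.Quotient.mk γ : PQ x x) = .refl x := by
  let Q : ∀ x y : X, PQ x y → Prop := fun x y ξ => ∃ η : Path x y, (∀ t, η t ∈ D) ∧ ξ = .mk η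
  have q1 : ∀ {x y z ξ ξ'}, Q x y ξ → Q y z ξ' → Q x z (ξ.trans ξ') := by
    rintro x y z _ _ ⟨η, a, rfl⟩ ⟨η', b, rfl⟩
    exact ⟨η.trans η', trans_mem a b, rfl⟩
  have q2 : ∀ {a x y} (η : Path x y), x ∈ D → y ∈ D → (∀ t, η t ∈ Y a) → Q x y (.mk η) :=
    fun {a x y} η hx hy hη => by
      obtain ⟨η', h'⟩ := hK a x hx y hy ⟨η, hη⟩
      exact ⟨η', fun t => (h' t).2, hH a _ _ _ _ hη fun t => (h' t).1⟩
  have := ind_path ho (P := fun x y ξ => ∀ a a' x' y' (δ : Path x x') (δ' : Path y y'), x' ∈ D →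
    y' ∈ D → (∀ t, δ t ∈ Y a) → (∀ t, δ' t ∈ Y a') →
      Q x' y' ((Path.Homotopic.Quotient.mk δ).symm.trans (ξ.trans (.mk δ'))))
    (fun c x y γ hγ a a' x' y' δ δ' hx hy hδ hδ' => ?_)
    (fun c x y hc z ξ ξ' p q a a' x' z' δ δ' hx hz hδ hδ' => ?_) γ hγ
  · obtain ⟨a, ha⟩ := hγ 0
    obtain ⟨z, hz, δ, hδ⟩ := hJ a a x (γ.source ▸ ha) (γ.source ▸ ha)
    obtain ⟨η, h1, h2⟩ := this a a z z δ δ hz hz (fun t => (hδ t).1) fun t => (hδ t).1
    have h3 := congrArg (fun q : PQ z z => (Path.Homotopic.Quotient.mk δ).trans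
      (q.trans (Path.Homotopic.Quotient.mk δ).symm)) (h2.trans (hD z η h1))
    simpa only [Path.Homotopic.Quotient.trans_assoc, tr_can, Path.Homotopic.Quotient.trans_symm,
      Path.Homotopic.Quotient.trans_refl, Path.Homotopic.Quotient.refl_trans] using h3
  · obtain ⟨x2, hx2, ε, hε⟩ := hJ a c x (δ.source ▸ hδ 0) (γ.source ▸ hγ 0)
    obtain ⟨y2, hy2, ε', hε'⟩ := hJ a' c y (δ'.source ▸ hδ' 0) (γ.target ▸ hγ 1)
    have := q1 (q2 (δ.symm.trans ε) hx hx2 (trans_mem (fun t => hδ _) fun t => (hε t).1))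
      (q1 (q2 (ε.symm.trans (γ.trans ε')) hx2 hy2
        (trans_mem (fun t => (hε _).2) (trans_mem hγ fun t => (hε' t).2)))
      (q2 (ε'.symm.trans δ') hy2 hy (trans_mem (fun t => (hε' _).1) hδ')))
    simpa only [Path.Homotopic.Quotient.mk_trans, Path.Homotopic.Quotient.mk_symm,
      Path.Homotopic.Quotient.trans_assoc, tr_can] using this
  · obtain ⟨y2, hy2, ε, hε⟩ := hJ c c y hc hc
    have := q1 (p a c x' y2 δ ε hx hy2 hδ fun t => (hε t).1)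
      (q c a' y2 z' ε δ' hy2 hz (fun t => (hε t).1) hδ')
    simpa only [Path.Homotopic.Quotient.trans_assoc, tr_can] using this

/-- a function on marked points which is constant along the pieces -/
theorem lc_join (ho : ∀ a, IsOpen (Y a)) {Z : Set X} {M : Type} {P : X → M}
    (hJ : ∀ a a', ∀ y ∈ Y a, y ∈ Y a' → ∃ z ∈ Z, JoinedIn (Y a ∩ Y a') y z)
    (hK : ∀ a, ∀ y ∈ Z, ∀ z ∈ Z, JoinedIn (Y a) y z → P y = P z) (hx : x ∈ Z) (hy : y ∈ Z)
    (h : JoinedIn (⋃ a, Y a) x y) : P x = P y := by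
  obtain ⟨γ, hγ⟩ := h
  have := ind_path ho (P := fun x y _ => ∀ a a', ∀ x' ∈ Z, ∀ y' ∈ Z, JoinedIn (Y a) x x' →
    JoinedIn (Y a') y y' → P x' = P y') (fun c x y γ hγ a a' x' hx y' hy hδ hδ' => ?_)
    (fun c x y hc z ξ ξ' p q a a' x' hx z' hz hδ hδ' => ?_) γ fun t => mem_iUnion.1 (hγ t)
  · obtain ⟨a, ha⟩ := mem_iUnion.1 (hγ 0)
    obtain ⟨a', ha'⟩ := mem_iUnion.1 (hγ 1)
    exact this a a' x hx y hy (.refl (γ.source ▸ ha)) (.refl (γ.target ▸ ha'))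
  · obtain ⟨x2, hx2, hε⟩ := hJ a c x hδ.source_mem (γ.source ▸ hγ 0)
    obtain ⟨y2, hy2, hε'⟩ := hJ a' c y hδ'.source_mem (γ.target ▸ hγ 1)
    rw [hK a x' hx x2 hx2 (hδ.symm.trans (hε.mono inter_subset_left)),
      hK c x2 hx2 y2 hy2 ((hε.mono inter_subset_right).symm.trans
        (JoinedIn.trans ⟨γ, hγ⟩ (hε'.mono inter_subset_right))),
      hK a' y2 hy2 y' hy ((hε'.mono inter_subset_left).symm.trans hδ')]
  · obtain ⟨y2, hy2, hε⟩ := hJ c c y hc hc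
    exact (p a c x' hx y2 hy2 hδ (hε.mono inter_subset_left)).trans
      (q c a' y2 hy2 z' hz (hε.mono inter_subset_left) hδ')

end glue

/-- every point has small neighbourhoods which are planes -/
def LD (X : Type) [TopologicalSpace X] : Prop :=
  ∀ x : X, ∀ O ∈ 𝓝 x, ∃ φ : ℂ → X, IsOpenEmbedding φ ∧ φ 0 = x ∧ range φ ⊆ O

theorem LD.lpc (h : LD X) : LocallyPathConnectedSpace X :=
  .of_bases (p := fun x (φ : ℂ → X) => IsOpenEmbedding φ ∧ φ 0 = x) (s := fun _ φ => range φ)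
    (fun x => ⟨fun O => ⟨fun hO => (h x O hO).imp fun _ a => ⟨⟨a.1, a.2.1⟩, a.2.2⟩,
      fun ⟨φ, a, b⟩ => mem_of_superset (a.1.isOpen_range.mem_nhds ⟨0, a.2⟩) b⟩⟩)
    fun _ _ a => isPathConnected_range a.1.continuous

theorem pc_diff {φ : ℂ → X} (h : IsOpenEmbedding φ) {F : Set X} (hF : F.Finite) :
    IsPathConnected (range φ \ F) := by
  have := ((hF.preimage h.injective.injOn).countable.isPathConnected_compl_of_one_lt_rank
    (by rw [Complex.rank_real_complex]; exact Nat.one_lt_ofNat)).image h.continuous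
  rwa [← preimage_compl, image_preimage_eq_range_inter] at this

theorem LD.ex_diff (h : LD X) {O F : Set X} (hF : F.Finite) (hO : O ∈ 𝓝 x) : (O \ F).Nonempty :=
  let ⟨_, a, _, b⟩ := h x O hO
  (pc_diff a hF).nonempty.mono (diff_subset_diff_left b)

/-- a finite set does not disconnect -/
theorem LD.punct (h : LD X) {O F : Set X} (hO : IsOpen O) (hF : F.Finite) (j : JoinedIn O x y)
    (hx : x ∉ F) (hy : y ∉ F) : JoinedIn (O \ F) x y := by
  obtain ⟨γ, hγ⟩ := j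
  let J := {φ : ℂ → X // IsOpenEmbedding φ ∧ range φ ⊆ O}
  have k : ∀ (a : J) {x y}, x ∈ range a.1 \ F → y ∈ range a.1 \ F → JoinedIn (O \ F) x y :=
    fun a x y p q => ((pc_diff a.2.1 hF).joinedIn x p y q).mono (diff_subset_diff_left a.2.2)
  have c : ∀ t, ∃ a : J, γ t ∈ range a.1 := fun t =>
    let ⟨φ, a, b, c⟩ := h _ O (hO.mem_nhds (hγ t))
    ⟨⟨φ, a, c⟩, 0, b⟩
  have := ind_path (Y := fun a : J => range a.1) (fun a => a.2.1.isOpen_range)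
    (P := fun x y _ => ∀ a a' : J, x ∈ range a.1 → y ∈ range a'.1 → ∀ x' ∈ range a.1 \ F,
      ∀ y' ∈ range a'.1 \ F, JoinedIn (O \ F) x' y')
    (fun c x y γ hγ a a' hx hy x' hx' y' hy' => ?_)
    (fun c x y hc z ξ ξ' p q a a' hx hz x' hx' z' hz' => ?_) γ c
  · obtain ⟨a, ha⟩ := c 0
    obtain ⟨a', ha'⟩ := c 1
    rw [γ.source] at ha
    rw [γ.target] at ha'
    exact this a a' ha ha' x ⟨ha, hx⟩ y ⟨ha', hy⟩
  · obtain ⟨x2, p1, p2⟩ := h.ex_diff hF (inter_mem (a.2.1.isOpen_range.mem_nhds hx)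
      (c.2.1.isOpen_range.mem_nhds (γ.source ▸ hγ 0)))
    obtain ⟨y2, q1, q2⟩ := h.ex_diff hF (inter_mem (a'.2.1.isOpen_range.mem_nhds hy)
      (c.2.1.isOpen_range.mem_nhds (γ.target ▸ hγ 1)))
    exact (k a hx' ⟨p1.1, p2⟩).trans ((k c ⟨p1.2, p2⟩ ⟨q1.2, q2⟩).trans (k a' ⟨q1.1, q2⟩ hy'))
  · obtain ⟨y2, hy2⟩ := (pc_diff c.2.1 hF).nonempty
    exact (p a c hx hc x' hx' y2 hy2).trans (q c a' hc hz y2 hy2 z' hz')

theorem mk_heq {x' y' : X} {γ : Path x y} {γ' : Path x' y'} (e : ∀ t, γ t = γ' t) :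
    x = x' ∧ y = y' ∧ HEq γ γ' := by
  obtain rfl : x = x' := γ.source.symm.trans ((e 0).trans γ'.source)
  obtain rfl : y = y' := γ.target.symm.trans ((e 1).trans γ'.target)
  exact ⟨rfl, rfl, heq_of_eq (Path.ext (funext e))⟩

theorem hol_path_congr {G ι : Type} [Group G] {U : ι → Set X} {c : ι → ι → X → G} {x' y' : X}
    {γ : Path x y} {γ' : Path x' y'} (e : ∀ t, γ t = γ' t) (i j : ι) :
    hol U c (.mk γ) i j = hol U c (.mk γ') i j := by
  obtain ⟨rfl, rfl, h⟩ := mk_heq e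
  rw [eq_of_heq h]

/-- the boundary of a square -/
theorem square {p q r u : X} (H : I × I → X) (hH : Continuous H) (a : Path p q) (b : Path p r)
    (c : Path r u) (d : Path q u) (ha : ∀ t, a t = H (0, t)) (hb : ∀ t, b t = H (t, 0))
    (hc : ∀ t, c t = H (1, t)) (hd : ∀ t, d t = H (t, 1)) :
    (Path.Homotopic.Quotient.mk a).trans (.mk d) = (Path.Homotopic.Quotient.mk b).trans (.mk c) := by
  haveI : ContractibleSpace I := (convex_Icc (0 : ℝ) 1).contractibleSpace ⟨0, by simp⟩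
  let a' : Path ((0, 0) : I × I) (0, 1) := ⟨⟨fun t => (0, t), by fun_prop⟩, rfl, rfl⟩
  let b' : Path ((0, 0) : I × I) (1, 0) := ⟨⟨fun t => (t, 0), by fun_prop⟩, rfl, rfl⟩
  let c' : Path ((1, 0) : I × I) (1, 1) := ⟨⟨fun t => (1, t), by fun_prop⟩, rfl, rfl⟩
  let d' : Path ((0, 1) : I × I) (1, 1) := ⟨⟨fun t => (t, 1), by fun_prop⟩, rfl, rfl⟩
  obtain ⟨rfl, rfl, h1⟩ := mk_heq (γ' := a'.map hH) ha
  obtain ⟨rfl, rfl, h3⟩ := mk_heq (γ' := c'.map hH) hc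
  obtain ⟨-, -, h2⟩ := mk_heq (γ' := b'.map hH) hb
  obtain ⟨-, -, h4⟩ := mk_heq (γ' := d'.map hH) hd
  rw [eq_of_heq h1, eq_of_heq h2, eq_of_heq h3, eq_of_heq h4]
  have := congrArg (fun q : PQ ((0, 0) : I × I) (1, 1) => q.map ⟨H, hH⟩) (Subsingleton.elim
    ((Path.Homotopic.Quotient.mk a').trans (.mk d')) ((Path.Homotopic.Quotient.mk b').trans (.mk c')))
  simp only [map_trans] at this
  exact this

end Vale.Agent.P275RH
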