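import Vale.Agent.P275GN.Gnf
import Vale.Agent.P275BV.Brc
import Vale.Agent.P275RR.Out
import Vale.Agent.P275BX.Bcx
import Vale.Agent.P275SR.Main

/-!
P275 (helper44): a marking exists.
-/

namespace Vale.Agent.P275RH

theorem mark : P275Z.MARK := mark_of P275GN.gnf P275RR.merp P275BV.brc P275BX.bcx P275SR.str

end Vale.Agent.P275RH
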