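import Vale.Agent.P275RH.Mer

/-!
P275 (helper44): radial retractions away from a point, logarithms along paths.
-/

set_option linter.all false

open scoped Real
open Set Filter Topology unitInterval Metric Complex

noncomputable section

namespace Vale.Agent.P275RH

open Vale.Agent.P275ST

section general

variable {X Y : Type} [TopologicalSpace X] [TopologicalSpace Y] {x y : X}

theorem htp_fix (H : I × I → X) (hH : Continuous H) (a c : Path x y) (ha : ∀ t, a t = H (0, t))
    (hc : ∀ t, c t = H (1, t)) (h0 : ∀ s, H (s, 0) = x) (h1 : ∀ s, H (s, 1) = y) :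
    (Path.Homotopic.Quotient.mk a : PQ x y) = .mk c := by
  have := square H hH a (.refl x) c (.refl y) ha (fun s => (h0 s).symm) hc fun s => (h1 s).symm
  rwa [Path.Homotopic.Quotient.mk_refl, Path.Homotopic.Quotient.mk_refl,
    Path.Homotopic.Quotient.trans_refl, Path.Homotopic.Quotient.refl_trans] at this

theorem map_lp (f : C(X, Y)) (γ : PQ x x) : FundamentalGroup.map f x (lp γ) = lp (γ.map f) := rfl

theorem map_bpt (f : C(X, Y)) (ω : PQ x y) (γ : FundamentalGroup X y) :
    FundamentalGroup.map f x (bpt ω γ) = bpt (ω.map f) (FundamentalGroup.map f y γ) := by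
  show lp ((ω.trans (γ.toPath.trans ω.symm)).map f) = lp _
  rw [map_trans, map_trans, map_symm]
  rfl

/-- pointed homotopy equivalences -/
theorem bij_of_ret (i : C(Y, X)) (r : C(X, Y)) (b : Y) (H : I × X → X) (K : I × Y → Y)
    (hH : Continuous H) (hK : Continuous K) (H0 : ∀ z, H (0, z) = z) (H1 : ∀ z, H (1, z) = i (r z))
    (Hb : ∀ s, H (s, i b) = i b) (K0 : ∀ z, K (0, z) = z) (K1 : ∀ z, K (1, z) = r (i z))
    (Kb : ∀ s, K (s, b) = b) : Function.Bijective (FundamentalGroup.map i b) := by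
  have e : b = r (i b) := (Kb 1).symm.trans (K1 b)
  refine ⟨(injective_iff_map_eq_one _).2 fun γ h => ?_, fun γ => ?_⟩
  · obtain ⟨γ, rfl⟩ := Path.Homotopic.Quotient.mk_surjective γ
    have h1 := congrArg (fun q : PQ (i b) (i b) => (q.map r).cast e e) h
    refine (htp_fix (fun q => K (q.1, γ q.2)) (by fun_prop) γ
      (((γ.map i.continuous).map r.continuous).cast e e) (fun t => (K0 _).symm)
      (fun t => (K1 _).symm) (fun s => by simp [Kb]) fun s => by simp [Kb]).trans (h1.trans ?_)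
    exact congrArg Path.Homotopic.Quotient.mk (Path.ext (funext fun _ => e.symm))
  · obtain ⟨γ, rfl⟩ := Path.Homotopic.Quotient.mk_surjective γ
    exact ⟨lp (.mk ((γ.map r.continuous).cast e e)), (htp_fix (fun q => H (q.1, γ q.2))
      (by fun_prop) γ (((γ.map r.continuous).cast e e).map i.continuous) (fun t => (H0 _).symm)
      (fun t => (H1 _).symm) (fun s => by simp [Hb]) fun s => by simp [Hb]).symm⟩

/-- the radial push away from `a` -/
def rad (R : ℝ) (a w : ℂ) : ℂ := a + (max 1 (R / ‖w - a‖)) • (w - a)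

theorem norm_rad {R : ℝ} {a w : ℂ} (h : w ≠ a) : ‖rad R a w - a‖ = max ‖w - a‖ R := by
  have h0 := norm_pos_iff.2 (sub_ne_zero.2 h)
  rw [rad, add_sub_cancel_left, norm_smul, Real.norm_of_nonneg (zero_le_one.trans (le_max_left _ _)),
    max_mul_of_nonneg _ _ h0.le, one_mul, div_mul_cancel₀ _ h0.ne']

theorem rad_far {R : ℝ} {a w : ℂ} (h : R ≤ ‖w - a‖) : rad R a w = w := by
  rw [rad, max_eq_left (div_le_one_of_le₀ h (norm_nonneg _)), one_smul, add_sub_cancel]

theorem rad_out {R : ℝ} {a w : ℂ} {K : Set ℂ} (hK : Convex ℝ K) (ha : a ∈ K) (h : rad R a w ∈ K) :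
    w ∈ K := by
  have h1 : 1 ≤ max 1 (R / ‖w - a‖) := le_max_left _ _
  have h0 := zero_lt_one.trans_le h1
  have := hK.add_smul_sub_mem ha h ⟨(inv_pos.2 h0).le, inv_le_one_of_one_le₀ h1⟩
  rwa [rad, add_sub_cancel_left, smul_smul, inv_mul_cancel₀ h0.ne', one_smul, add_sub_cancel] at this

variable (e : OpenPartialHomeomorph X ℂ) (c : ℂ) (r : ℝ)

/-- an open disc of a chart -/
def dsc : Set X := e.symm '' ball c r

/-- a closed disc of a chart -/
def cds : Set X := e.symm '' closedBall c r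

open Classical in
/-- the radial push away from `x` -/
def push (R : ℝ) (x y : X) : X := if y ∈ e.source then e.symm (rad R (e x) (e y)) else y

/-- pairs of distinct points, the first one in `V` -/
abbrev Tot (V : Set X) : Type := {q : X × X // q.1 ∈ V ∧ q.2 ≠ q.1}

variable {e c r}

theorem mem_img {S : Set ℂ} (h : S ⊆ e.target) : x ∈ e.symm '' S ↔ x ∈ e.source ∧ e x ∈ S :=
  ⟨fun ⟨w, a, b⟩ => b ▸ ⟨e.map_target (h a), (e.right_inv (h a)).symm ▸ a⟩,
    fun a => ⟨_, a.2, e.left_inv a.1⟩⟩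

theorem dsc_sub : dsc e c r ⊆ cds e c r := image_mono ball_subset_closedBall

theorem dsc_mono {r' : ℝ} (h : r ≤ r') : dsc e c r ⊆ dsc e c r' := image_mono (ball_subset_ball h)

theorem cds_mono {r' : ℝ} (h : r ≤ r') : cds e c r ⊆ cds e c r' :=
  image_mono (closedBall_subset_closedBall h)

theorem cds_sub {r' : ℝ} (h : r < r') : cds e c r ⊆ dsc e c r' :=
  image_mono (closedBall_subset_ball h)

theorem dsc_open (h : ball c r ⊆ e.target) : IsOpen (dsc e c r) :=
  e.symm.isOpen_image_of_subset_source isOpen_ball h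

theorem cds_compact (h : closedBall c r ⊆ e.target) : IsCompact (cds e c r) :=
  (isCompact_closedBall c r).image_of_continuousOn (e.continuousOn_symm.mono h)

section push

variable (h : closedBall c (3 * r) ⊆ e.target) (hx : x ∈ dsc e c r) {R : ℝ}
include h hx

theorem r_pos' : 0 < r := let ⟨_, a, _⟩ := hx; pos_of_mem_ball a

theorem x_spec : x ∈ e.source ∧ ‖e x - c‖ < r := by
  have := (mem_img ((ball_subset_closedBall.trans (closedBall_subset_closedBall
    (by linarith [r_pos' h hx]))).trans h)).1 hx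
  exact ⟨this.1, mem_ball_iff_norm.1 this.2⟩

theorem push_far (hR : R ≤ 2 * r) (hy : y ∉ dsc e c (3 * r)) : push e R x y = y := by
  unfold push
  split_ifs with a
  · rw [rad_far, e.left_inv a]
    have h1 : 3 * r ≤ ‖e y - c‖ := not_lt.1 fun b => hy ⟨_, mem_ball_iff_norm.2 b, e.left_inv a⟩
    linarith [norm_sub_le_norm_sub_add_norm_sub (e y) (e x) c, (x_spec h hx).2]
  · rfl

theorem rad_cases (hR : R ≤ 2 * r) {w : ℂ} (hw : w ≠ e x) :
    rad R (e x) w = w ∨ rad R (e x) w ∈ ball c (3 * r) := by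
  rcases le_total R ‖w - e x‖ with a | a
  · exact .inl (rad_far a)
  · refine .inr (mem_ball_iff_norm.2 ?_)
    linarith [norm_sub_le_norm_sub_add_norm_sub (rad R (e x) w) (e x) c, (x_spec h hx).2,
      (norm_rad hw).trans (max_eq_right a)]

theorem e_ne (hy : y ≠ x) (a : y ∈ e.source) : e y ≠ e x := fun b =>
  hy (e.injOn a (x_spec h hx).1 b)

theorem rad_tgt (hR : R ≤ 2 * r) (hy : y ≠ x) (a : y ∈ e.source) :
    rad R (e x) (e y) ∈ e.target := by
  rcases rad_cases h hx hR (e_ne h hx hy a) with b | b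
  exacts [b.symm ▸ e.map_source a, h (ball_subset_closedBall b)]

theorem push_cases (hR : R ≤ 2 * r) (hy : y ≠ x) :
    push e R x y = y ∨ push e R x y ∈ dsc e c (3 * r) := by
  unfold push
  split_ifs with a
  · exact (rad_cases h hx hR (e_ne h hx hy a)).imp (fun b => by rw [b, e.left_inv a])
      fun b => ⟨_, b, rfl⟩
  · exact .inl rfl

theorem push_out (hR : R ≤ 2 * r) (hy : y ≠ x) {K : Set ℂ} (hK : Convex ℝ K) (h1 : K ⊆ e.target)
    (h2 : e x ∈ K) (a : push e R x y ∈ e.symm '' K) : y ∈ e.symm '' K := by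
  unfold push at a
  split_ifs at a with b
  · have := ((mem_img h1).1 a).2
    rw [e.right_inv (rad_tgt h hx hR hy b)] at this
    exact (mem_img h1).2 ⟨b, rad_out hK h2 this⟩
  · exact a

theorem push_ne (hR : R ≤ 2 * r) (hy : y ≠ x) : push e R x y ≠ x := fun a => by
  have s := (x_spec h hx).1
  obtain ⟨_, rfl, b⟩ := push_out h hx hR hy (convex_singleton (e x))
    (singleton_subset_iff.2 (e.map_source s)) rfl ⟨_, rfl, (e.left_inv s).trans a.symm⟩
  exact hy (b.symm.trans (e.left_inv s))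

theorem cds_tgt : closedBall c r ⊆ e.target :=
  (closedBall_subset_closedBall (by linarith [r_pos' h hx])).trans h

theorem push_compl (hR : R ≤ 2 * r) (hy : y ∉ cds e c r) : push e R x y ∉ cds e c r := fun a =>
  hy (push_out h hx hR (fun b : y = x => hy (b ▸ dsc_sub hx)) (convex_closedBall c r) (cds_tgt h hx)
    (mem_closedBall_iff_norm.2 (x_spec h hx).2.le) a)

theorem push_top (hy : y ≠ x) : push e (2 * r) x y ∉ cds e c r := fun a => by
  unfold push at a
  split_ifs at a with b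
  · have := mem_closedBall_iff_norm.1 ((mem_img (cds_tgt h hx)).1 a).2
    rw [e.right_inv (rad_tgt h hx le_rfl hy b)] at this
    linarith [norm_sub_le_norm_sub_add_norm_sub (rad (2 * r) (e x) (e y)) c (e x),
      norm_sub_rev c (e x) ▸ (x_spec h hx).2,
      (le_max_right _ _).trans_eq (norm_rad (R := 2 * r) (e_ne h hx hy b)).symm]
  · exact b ((mem_img (cds_tgt h hx)).1 a).1

end push

theorem push_zero (x y : X) : push e 0 x y = y := by
  unfold push
  split_ifs with a
  · rw [rad_far (norm_nonneg _), e.left_inv a]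
  · rfl

theorem cont_push [T2Space X] (h : closedBall c (3 * r) ⊆ e.target) {T : Type} [TopologicalSpace T]
    {R : T → ℝ} {x y : T → X} (hR : Continuous R) (hx : Continuous x) (hy : Continuous y)
    (h1 : ∀ t, R t ≤ 2 * r) (h2 : ∀ t, x t ∈ dsc e c r) (h3 : ∀ t, y t ≠ x t) :
    Continuous fun t => push e (R t) (x t) (y t) := continuous_iff_continuousAt.2 fun t => by
  by_cases a : y t ∈ e.source
  · have c1 : ContinuousAt (fun t => e (x t)) t :=
      (e.continuousAt (x_spec h (h2 t)).1).comp hx.continuousAt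
    have c2 : ContinuousAt (fun t => e (y t)) t := (e.continuousAt a).comp hy.continuousAt
    have c3 : ContinuousAt (fun t => rad (R t) (e (x t)) (e (y t))) t :=
      c1.add ((continuousAt_const.max (hR.continuousAt.div (c2.sub c1).norm
        (norm_ne_zero_iff.2 (sub_ne_zero.2 (e_ne h (h2 t) (h3 t) a))))).smul (c2.sub c1))
    refine ((e.continuousAt_symm (rad_tgt h (h2 t) (h1 t) (h3 t) a)).comp_of_eq c3 rfl).congr ?_
    filter_upwards [hy.continuousAt.eventually (e.open_source.mem_nhds a)] with s hs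
    exact (if_pos hs).symm
  · refine hy.continuousAt.congr ?_
    filter_upwards [hy.continuousAt.eventually ((cds_compact h).isClosed.isOpen_compl.mem_nhds
      fun b => a ((mem_img h).1 b).1)] with s hs
    exact (push_far h (h2 s) (h1 s) fun b => hs (dsc_sub b)).symm

/-- the fibre of the space of pairs -/
def fib {V : Set X} (hx : x ∈ V) : C(↥({x}ᶜ : Set X), Tot V) :=
  ⟨fun y => ⟨(x, y), hx, y.2⟩, by fun_prop⟩

/-- the retraction onto the complement of the disc -/
def ret [T2Space X] (h : closedBall c (3 * r) ⊆ e.target) : C(Tot (dsc e c r), ↥(cds e c r)ᶜ) :=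
  ⟨fun q => ⟨push e (2 * r) q.1.1 q.1.2, push_top h q.2.1 q.2.2⟩, (cont_push h continuous_const
    (by fun_prop) (by fun_prop) (fun _ => le_rfl) (fun q => q.2.1) fun q => q.2.2).subtype_mk _⟩

theorem sub_pc (hx : x ∈ dsc e c r) : (cds e c r)ᶜ ⊆ {x}ᶜ :=
  compl_subset_compl.2 (singleton_subset_iff.2 (dsc_sub hx))

/-- the inclusion of the complement of the disc -/
abbrev inc (hx : x ∈ dsc e c r) : C(↥(cds e c r)ᶜ, ↥({x}ᶜ : Set X)) :=
  ContinuousMap.inclusion (sub_pc hx)

theorem ret_far [T2Space X] (h : closedBall c (3 * r) ⊆ e.target) (q : Tot (dsc e c r))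
    (hq : q.1.2 ∉ dsc e c (3 * r)) : (ret h q : X) = q.1.2 := push_far h q.2.1 le_rfl hq

theorem ret_htp [T2Space X] (h : closedBall c (3 * r) ⊆ e.target) (hx : x ∈ dsc e c r)
    {a b : ↥({x}ᶜ : Set X)} (ha : a.1 ∉ dsc e c (3 * r)) (hb : b.1 ∉ dsc e c (3 * r))
    (η η' : Path a b) (hη : ∀ t, (η' t : X) = ret h (fib hx (η t))) :
    (Path.Homotopic.Quotient.mk η : PQ a b) = .mk η' := by
  have r0 := r_pos' h hx
  have k : ∀ s : I, s * (2 * r) ≤ 2 * r := fun s => mul_le_of_le_one_left (by linarith) s.2.2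
  exact htp_fix (fun q => ⟨push e (q.1 * (2 * r)) x (η q.2), push_ne h hx (k _) (η q.2).2⟩)
    ((cont_push h (by fun_prop) continuous_const (by fun_prop) (fun q => k _) (fun _ => hx)
      fun q : I × I => (η q.2).2).subtype_mk _) η η' (fun t => Subtype.ext (by simp [push_zero]))
    (fun t => Subtype.ext (by rw [hη]; simp; rfl))
    (fun s => Subtype.ext (by simp [push_far h hx (k s) ha]))
    fun s => Subtype.ext (by simp [push_far h hx (k s) hb])

/-- the complement of a disc and the complement of a point of the disc -/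
theorem bij_inc [T2Space X] (h : closedBall c (3 * r) ⊆ e.target) (hx : x ∈ dsc e c r)
    (b : ↥(cds e c r)ᶜ) (hb : b.1 ∉ dsc e c (3 * r)) :
    Function.Bijective (FundamentalGroup.map (inc hx) b) := by
  have r0 := r_pos' h hx
  have k : ∀ s : I, s * (2 * r) ≤ 2 * r := fun s => mul_le_of_le_one_left (by linarith) s.2.2
  refine bij_of_ret (inc hx) ((ret h).comp (fib hx)) b
    (fun q => ⟨push e (q.1 * (2 * r)) x q.2, push_ne h hx (k _) q.2.2⟩)
    (fun q => ⟨push e (q.1 * (2 * r)) x q.2, push_compl h hx (k _) q.2.2⟩)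
    ((cont_push h (by fun_prop) continuous_const (by fun_prop) (fun q => k _) (fun _ => hx)
      fun q => q.2.2).subtype_mk _)
    ((cont_push h (by fun_prop) continuous_const (by fun_prop) (fun q => k _) (fun _ => hx)
      fun q => sub_pc hx q.2.2).subtype_mk _)
    (fun z => Subtype.ext (by simp [push_zero])) (fun z => Subtype.ext (by simp; rfl))
    (fun s => Subtype.ext (push_far h hx (k s) hb)) (fun z => Subtype.ext (by simp [push_zero]))
    (fun z => Subtype.ext (by simp; rfl)) fun s => Subtype.ext (push_far h hx (k s) hb)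

section log

variable {R : ℝ} {y y' y'' : ↥({x}ᶜ : Set X)} {L L' L'' : ℂ}

variable (e) in
/-- the class `ξ` is that of a path in the punctured disc along which the logarithm of the
coordinate goes from `L` to `L'` -/
def Lg (x : X) (R : ℝ) {y y' : ↥({x}ᶜ : Set X)} (ξ : PQ y y') (L L' : ℂ) : Prop :=
  ∃ (γ : Path y y') (l : Path L L'), ξ = .mk γ ∧
    ∀ t, ‖cexp (l t)‖ < R ∧ (γ t : X) = e.symm (e x + cexp (l t))

theorem Lg.trans {ξ : PQ y y'} {ξ' : PQ y' y''} (a : Lg e x R ξ L L') (b : Lg e x R ξ' L' L'') :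
    Lg e x R (ξ.trans ξ') L L'' := by
  obtain ⟨γ, l, rfl, a⟩ := a
  obtain ⟨γ', l', rfl, b⟩ := b
  refine ⟨γ.trans γ', l.trans l', rfl, fun t => ?_⟩
  simp only [Path.trans_apply]
  split_ifs
  exacts [a _, b _]

theorem Lg.symm {ξ : PQ y y'} (a : Lg e x R ξ L L') : Lg e x R ξ.symm L' L :=
  let ⟨γ, l, h, a⟩ := a
  ⟨γ.symm, l.symm, h ▸ rfl, fun _ => a _⟩

theorem Lg.shift {ξ : PQ y y'} (a : Lg e x R ξ L L') (k : ℤ) :
    Lg e x R ξ (L + k * (2 * π * Complex.I)) (L' + k * (2 * π * Complex.I)) :=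
  let ⟨γ, l, h, a⟩ := a
  ⟨γ, l.map (f := fun z => z + k * (2 * π * Complex.I)) (by fun_prop), h, fun t => by
    simpa [Complex.exp_add, exp_int_mul_two_pi_mul_I] using a t⟩

theorem Lg.mono {R' : ℝ} {ξ : PQ y y'} (a : Lg e x R ξ L L') (h : R ≤ R') : Lg e x R' ξ L L' :=
  let ⟨γ, l, h1, a⟩ := a
  ⟨γ, l, h1, fun t => ⟨(a t).1.trans_le h, (a t).2⟩⟩

theorem Lg.src {ξ : PQ y y'} (a : Lg e x R ξ L L') :
    ‖cexp L‖ < R ∧ (y : X) = e.symm (e x + cexp L) :=
  let ⟨γ, l, _, a⟩ := a
  by simpa using a 0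

theorem el_ne (hx : x ∈ e.source) (h : ball (e x) R ⊆ e.target) (hL : ‖cexp L‖ < R) :
    e.symm (e x + cexp L) ∈ ({x}ᶜ : Set X) := fun a => by
  have := e.right_inv (h (show e x + cexp L ∈ ball (e x) R by simpa using hL))
  rw [show e.symm (e x + cexp L) = x from a] at this
  exact exp_ne_zero L (by simpa using this)

theorem Lg.uniq (hx : x ∈ e.source) (h : ball (e x) R ⊆ e.target) {ξ ξ' : PQ y y'}
    (a : Lg e x R ξ L L') (b : Lg e x R ξ' L L') : ξ = ξ' := by
  obtain ⟨γ, l, rfl, a⟩ := a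
  obtain ⟨γ', l', rfl, b⟩ := b
  have k : ∀ q : I × I, ‖cexp (l q.2 + (q.1 : ℝ) • (l' q.2 - l q.2))‖ < R := fun q => by
    have R0 := (norm_nonneg _).trans_lt (a 0).1
    have k1 : ∀ z, ‖cexp z‖ < R ↔ z.re < Real.log R := fun z => by
      rw [norm_exp, Real.lt_log_iff_exp_lt R0]
    exact (k1 _).2 ((convex_halfSpace_re_lt _).add_smul_sub_mem ((k1 _).1 (a _).1)
      ((k1 _).1 (b _).1) q.1.2)
  exact htp_fix (fun q => ⟨_, el_ne hx h (k q)⟩) ((e.continuousOn_symm.comp_continuous
    (by fun_prop) fun q => h (by simpa using k q)).subtype_mk _) γ γ'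
    (fun t => Subtype.ext (by simp [a])) (fun t => Subtype.ext (by simp [b]))
    (fun s => Subtype.ext (by simpa using (a 0).2.symm))
    fun s => Subtype.ext (by simpa using (a 1).2.symm)

theorem ex_log (h : ball (e x) R ⊆ e.target) (hx : x ∈ e.source) (hy : y.1 ∈ dsc e (e x) R) :
    ∃ L, cexp L = e y - e x :=
  ⟨log _, exp_log (sub_ne_zero.2 fun a => y.2 (e.injOn ((mem_img h).1 hy).1 hx a))⟩

theorem ex_Lg (hx : x ∈ e.source) (h : ball (e x) R ⊆ e.target) (γ : Path y y')
    (hγ : ∀ t, (γ t).1 ∈ dsc e (e x) R) (hL : cexp L = e y - e x) :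
    ∃ L', cexp L' = e y' - e x ∧ Lg e x R (.mk γ) L L' := by
  haveI : ContractibleSpace I := (convex_Icc (0 : ℝ) 1).contractibleSpace ⟨0, by simp⟩
  haveI : LocallyPathConnectedSpace I := (convex_Icc (0 : ℝ) 1).locallyPathConnectedSpace
  have m := fun t => (mem_img h).1 (hγ t)
  obtain ⟨l, ⟨h1, h2⟩, -⟩ := isCoveringMapOn_exp.existsUnique_continuousMap_lifts (A := I)
    ⟨fun t => e (γ t) - e x, (e.continuousOn.comp_continuous (by fun_prop)
      fun t => (m t).1).sub continuous_const⟩ (a₀ := 0) (e₀ := L) (by simpa using hL)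
    fun t => sub_ne_zero.2 fun a => (γ t).2 (e.injOn (m t).1 hx a)
  have h3 : ∀ t, cexp (l t) = e (γ t) - e x := congrFun h2
  refine ⟨l 1, by rw [h3, γ.target], γ, ⟨l, h1, rfl⟩, rfl, fun t => ?_⟩
  show ‖cexp (l t)‖ < R ∧ (γ t : X) = e.symm (e x + cexp (l t))
  rw [h3, add_sub_cancel, e.left_inv (m t).1]
  exact ⟨mem_ball_iff_norm.1 (m t).2, rfl⟩

/-- a loop which is close to a circle around the point has winding number one -/
theorem Lg.circ {l : ℂ} (v : I → ℂ) (hv : Continuous v) (e0 : v 0 = v 1)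
    (hn : ∀ t, ‖v t - l‖ < ‖l‖) (hR : ∀ t, ‖v t‖ < R) (a : Path y y)
    (ha : ∀ t, (a t : X) = e.symm (e x + cexp (2 * π * t * Complex.I) * v t)) :
    ∃ L, cexp L = v 0 ∧ Lg e x R (.mk a) L (L + 2 * π * Complex.I) := by
  have l0 : l ≠ 0 := norm_pos_iff.1 ((norm_nonneg _).trans_lt (hn 0))
  have s : ∀ t, v t / l ∈ slitPlane := fun t => by
    rw [show v t / l = 1 + (v t - l) / l by field_simp; ring]
    exact mem_slitPlane_of_norm_lt_one (by
      rw [norm_div, div_lt_one (norm_pos_iff.2 l0)]; exact hn t)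
  have k : ∀ t, cexp (log l + log (v t / l)) = v t := fun t => by
    rw [Complex.exp_add, exp_log l0, exp_log (slitPlane_ne_zero (s t)), mul_div_cancel₀ _ l0]
  refine ⟨_, k 0, a, ⟨⟨fun t => log l + log (v t / l) + 2 * π * t * Complex.I,
    (continuous_const.add ((hv.div_const l).clog s)).add (by fun_prop)⟩, by simp, by simp [e0]⟩,
    rfl, fun t => ?_⟩
  show ‖cexp (log l + log (v t / l) + 2 * π * t * Complex.I)‖ < R ∧
    (a t : X) = e.symm (e x + cexp (log l + log (v t / l) + 2 * π * t * Complex.I))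
  rw [Complex.exp_add, k, ha, mul_comm (v t), norm_mul,
    show 2 * π * t * Complex.I = ((2 * π * t : ℝ) : ℂ) * Complex.I by push_cast; ring,
    norm_exp_ofReal_mul_I, one_mul]
  exact ⟨hR t, rfl⟩

/-- winding number one is invariant under change of the base point inside the disc -/
theorem Lg.bpt {ω : PQ y y'} {a : PQ y' y'} (h : Lg e x R ω L L')
    (ha : Lg e x R a L' (L' + 2 * π * Complex.I)) :
    Lg e x R (bpt ω (lp a)).toPath L (L + 2 * π * Complex.I) :=
  h.trans (ha.trans (by simpa using h.symm.shift 1))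

theorem Lg.move {ξ : PQ y y} (a : Lg e x R ξ L (L + 2 * π * Complex.I)) (h : cexp L' = cexp L) :
    Lg e x R ξ L' (L' + 2 * π * Complex.I) := by
  obtain ⟨k, rfl⟩ := exp_eq_exp_iff_exists_int.1 h
  have := a.shift k
  rwa [add_right_comm] at this

end log

end general

end Vale.Agent.P275RH
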