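import Vale.Agent.P275RH.Gr

/-!
P275 (helper44): a branched covering of the plane, cut into strips.
-/

set_option linter.all false

open scoped Real
open Set Filter Topology unitInterval Metric Complex

noncomputable section

namespace Vale.Agent.P275RH

/-- a finite branched covering of the plane with one point at infinity -/
structure Bc (X : Type) [TopologicalSpace X] where
  f : X → ℂ
  m : ℕ
  b : Fin (m + 1) → ℂ
  N : ℕ
  r : ℝ
  κ : ℝ → X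
  cont : Continuous f
  cl : IsClosedMap f
  fin : ∀ z, (f ⁻¹' {z}).Finite
  mono : StrictMono fun i => (b i).im
  cov : IsCoveringMapOn f (range b)ᶜ
  cκ : Continuous κ
  big : ∀ i, ‖b i‖ < r / 2
  fκ : ∀ θ, f (κ θ) = r * cexp (θ * Complex.I)
  inj : ∀ θ θ', κ θ = κ θ' → ∃ k : ℤ, θ' = θ + k * (2 * π * N)
  sur : ∀ (θ : ℝ) y, f y = r * cexp (θ * Complex.I) → ∃ j : Fin N, κ (θ + 2 * π * (j : ℕ)) = y
  per : ∀ θ, κ (θ + 2 * π * N) = κ θ

namespace Bc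

variable {X : Type} [TopologicalSpace X] (B : Bc X) {Q : Set ℂ} {y y' : X} {z : ℂ} {i j : ℕ}

/-- convex open sets without branch values -/
structure Fr (Q : Set ℂ) : Prop where
  cv : Convex ℝ Q
  op : IsOpen Q
  nb : ∀ i, B.b i ∉ Q

variable {B}

theorem Fr.inter (h : B.Fr Q) {Q' : Set ℂ} (c : Convex ℝ Q') (o : IsOpen Q') : B.Fr (Q ∩ Q') :=
  ⟨h.cv.inter c, h.op.inter o, fun i a => h.nb i a.1⟩

theorem Fr.sec (h : B.Fr Q) (hy : B.f y ∈ Q) : ∃ s : C(Q, X), (∀ q, B.f (s q) = q) ∧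
    s ⟨_, hy⟩ = y ∧ ∀ y', JoinedIn (B.f ⁻¹' Q) y y' → y' ∈ range s := by
  haveI := h.cv.contractibleSpace ⟨_, hy⟩
  haveI := h.op.locallyPathConnectedSpace
  have n : ∀ z ∈ Q, z ∈ (range B.b)ᶜ := fun z hz ⟨i, e⟩ => h.nb i (e ▸ hz)
  obtain ⟨s, ⟨h1, h2⟩, -⟩ := B.cov.existsUnique_continuousMap_lifts (A := Q)
    ⟨Subtype.val, continuous_subtype_val⟩ (a₀ := ⟨_, hy⟩) (e₀ := y) rfl fun a => n _ a.2
  refine ⟨s, congrFun h2, h1, fun y' ⟨γ, hγ⟩ => ?_⟩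
  haveI : ContractibleSpace I := (convex_Icc (0 : ℝ) 1).contractibleSpace ⟨0, by simp⟩
  haveI : LocallyPathConnectedSpace I := (convex_Icc (0 : ℝ) 1).locallyPathConnectedSpace
  let g : C(I, Q) := ⟨fun t => ⟨B.f (γ t), hγ t⟩, (B.cont.comp γ.continuous).subtype_mk _⟩
  have := (B.cov.existsUnique_continuousMap_lifts (A := I) ⟨fun t => B.f (γ t),
    B.cont.comp γ.continuous⟩ (a₀ := 0) (e₀ := γ 0) rfl fun a => n _ (hγ a)).unique
    (y₁ := s.comp g) (y₂ := γ.toContinuousMap)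
    ⟨by rw [γ.source, ← h1]; exact congrArg s (Subtype.ext (congrArg B.f γ.source)),
      funext fun t => congrFun h2 (g t)⟩ ⟨rfl, rfl⟩
  exact ⟨g 1, (DFunLike.congr_fun this 1).trans γ.target⟩

theorem Fr.s1 (h : B.Fr Q) (hy : B.f y ∈ Q) (hz : z ∈ Q) :
    ∃ y', B.f y' = z ∧ JoinedIn (B.f ⁻¹' Q) y y' := by
  obtain ⟨s, h1, h2, -⟩ := h.sec hy
  haveI := h.cv.contractibleSpace ⟨_, hy⟩
  refine ⟨s ⟨z, hz⟩, h1 _, ((isPathConnected_range s.continuous).joinedIn _ ⟨_, h2⟩ _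
    ⟨_, rfl⟩).mono ?_⟩
  rintro _ ⟨q, rfl⟩
  exact (congrArg (· ∈ Q) (h1 q)).mpr q.2

theorem Fr.s2 (h : B.Fr Q) (j : JoinedIn (B.f ⁻¹' Q) y y') (e : B.f y = B.f y') : y = y' := by
  obtain ⟨s, h1, h2, h3⟩ := h.sec j.source_mem
  obtain ⟨q, rfl⟩ := h3 y' j
  exact h2.symm.trans (congrArg s (Subtype.ext (e.trans (h1 q))))

theorem Fr.ht (h : B.Fr Q) (γ δ : Path y y') (a : ∀ t, γ t ∈ B.f ⁻¹' Q) (b : ∀ t, δ t ∈ B.f ⁻¹' Q) :
    (Path.Homotopic.Quotient.mk γ : PQ y y') = .mk δ := by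
  have hy : B.f y ∈ Q := JoinedIn.source_mem (F := B.f ⁻¹' Q) ⟨γ, a⟩
  obtain ⟨s, h1, h2, h3⟩ := h.sec hy
  haveI := h.cv.contractibleSpace ⟨_, hy⟩
  haveI : ContractibleSpace I := (convex_Icc (0 : ℝ) 1).contractibleSpace ⟨0, by simp⟩
  have k : ∀ (γ : Path y y'), (∀ t, γ t ∈ B.f ⁻¹' Q) → ∀ t, γ t ∈ range s := fun γ a t =>
    h3 _ (((isPathConnected_range γ.continuous).joinedIn y ⟨0, γ.source⟩ _ ⟨t, rfl⟩).mono
      (range_subset_iff.2 a))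
  exact (Sc.range (IsInducing.of_comp s.continuous B.cont
    (by rw [show B.f ∘ s = Subtype.val from funext h1]; exact .subtypeVal))).ht _ _ _ _
    (k γ a) (k δ b)

variable (B)

/-- the strip around the `i`-th branch value -/
def T (i : ℕ) : Set ℂ :=
  {z | ∀ j : Fin (B.m + 1), ((j : ℕ) < i → (B.b j).im < z.im) ∧ (i < j → z.im < (B.b j).im)}

theorem T_eq (i : ℕ) : B.T i = ⋂ j : Fin (B.m + 1),
    (⋂ _ : (j : ℕ) < i, {z : ℂ | (B.b j).im < z.im}) ∩ ⋂ _ : i < j, {z : ℂ | z.im < (B.b j).im} := by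
  ext z
  simp [T]

theorem T_open (i : ℕ) : IsOpen (B.T i) := B.T_eq i ▸ isOpen_iInter_of_finite fun _ =>
  (isOpen_iInter_of_finite fun _ => isOpen_lt continuous_const continuous_im).inter
    (isOpen_iInter_of_finite fun _ => isOpen_lt continuous_im continuous_const)

theorem T_convex (i : ℕ) : Convex ℝ (B.T i) := B.T_eq i ▸ convex_iInter fun _ =>
  (convex_iInter fun _ => convex_halfSpace_im_gt _).inter
    (convex_iInter fun _ => convex_halfSpace_im_lt _)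

theorem b_T (i : Fin (B.m + 1)) : B.b i ∈ B.T i := fun _ => ⟨fun h => B.mono h, fun h => B.mono h⟩

theorem of_b_T {j : Fin (B.m + 1)} (h : B.b j ∈ B.T i) : (j : ℕ) = i :=
  le_antisymm (not_lt.1 fun a => ((h j).2 a).false) (not_lt.1 fun a => ((h j).1 a).false)

theorem T_cov (z : ℂ) : ∃ i ≤ B.m, z ∈ B.T i := by
  classical
  let P : ℕ → Prop := fun i => ∀ j : Fin (B.m + 1), i < j → z.im < (B.b j).im
  have h : ∃ i, P i := ⟨B.m, fun j hj => by omega⟩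
  refine ⟨Nat.find h, Nat.find_min' h fun j hj => by omega, fun j => ⟨fun hj => ?_, Nat.find_spec h j⟩⟩
  have := Nat.find_min h (m := Nat.find h - 1) (by omega)
  simp only [P, not_forall, not_lt] at this
  obtain ⟨l, h1, h2⟩ := this
  exact (B.mono (show j < l by rw [Fin.lt_def]; omega)).trans_le h2

theorem T_adj (hj : j ≤ B.m) (h : i < j) (a : z ∈ B.T i) (b : z ∈ B.T j) : j = i + 1 := by
  by_contra n
  exact ((b ⟨i + 1, by omega⟩).1 (by show i + 1 < j; omega)).not_gt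
    ((a ⟨i + 1, by omega⟩).2 (Nat.lt_succ_self i))

/-- the strip between two branch values -/
def S (i : ℕ) : Set ℂ := B.T i ∩ B.T (i + 1)

theorem S_fr (i : ℕ) : B.Fr (B.S i) :=
  ⟨(B.T_convex _).inter (B.T_convex _), (B.T_open _).inter (B.T_open _), fun _ h => by
    have := B.of_b_T h.1
    have := B.of_b_T h.2
    omega⟩

/-- the four linear forms -/
def lf (a : Bool × Bool) : ℂ →L[ℝ] ℝ :=
  (if a.2 then 1 else -1 : ℝ) • if a.1 then imCLM else reCLM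

/-- the four halves of a strip -/
def Hq (i : Fin (B.m + 1)) (a : Bool × Bool) : Set ℂ := B.T i ∩ {z | lf a (B.b i) < lf a z}

theorem Q_fr (i : Fin (B.m + 1)) (a : Bool × Bool) : B.Fr (B.Hq i a) :=
  ⟨(B.T_convex _).inter (convex_halfSpace_gt (lf a).isLinear _),
    (B.T_open _).inter (isOpen_lt continuous_const (lf a).continuous), fun j h => by
      obtain rfl : j = i := Fin.ext (B.of_b_T h.1)
      exact lt_irrefl (lf a (B.b j)) h.2⟩

theorem Q_cov {i : Fin (B.m + 1)} (h : z ∈ B.T i) (n : z ≠ B.b i) : ∃ a, z ∈ B.Hq i a := by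
  rcases lt_trichotomy z.im (B.b i).im with a | a | a
  · exact ⟨(true, false), h, by simpa [lf] using a⟩
  · rcases lt_trichotomy z.re (B.b i).re with c | c | c
    · exact ⟨(false, false), h, by simpa [lf] using c⟩
    · exact (n (Complex.ext c a)).elim
    · exact ⟨(false, true), h, by simpa [lf] using c⟩
  · exact ⟨(true, true), h, by simpa [lf] using a⟩

theorem Q_near {i : Fin (B.m + 1)} {a a' : Bool × Bool} (h : z ∈ B.Hq i a ∩ B.Hq i a') {ε : ℝ}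
    (h0 : 0 < ε) : ∃ w ∈ B.Hq i a ∩ B.Hq i a', w ∈ ball (B.b i) ε := by
  have k : ∀ a, z ∈ B.Hq i a → ∀ t : ℝ, 0 < t → t ≤ 1 → B.b i + t • (z - B.b i) ∈ B.Hq i a :=
    fun a h t h0 h1 => ⟨(B.T_convex i).add_smul_sub_mem (B.b_T i) h.1 ⟨h0.le, h1⟩, by
      have := mul_pos h0 (sub_pos.2 h.2)
      simp only [mem_setOf_eq, map_add, map_smul, map_sub, smul_eq_mul]
      linarith⟩
  have c : ContinuousAt (fun t : ℝ => B.b i + t • (z - B.b i)) 0 := by fun_prop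
  obtain ⟨t, h1, h2⟩ := (((c.eventually (show ball (B.b i) ε ∈ 𝓝 _ by
    simpa using ball_mem_nhds _ h0)).filter_mono nhdsWithin_le_nhds).and
    (Ioc_mem_nhdsGT (zero_lt_one' ℝ))).exists
  exact ⟨_, ⟨k a h.1 t h2.1 h2.2, k a' h.2 t h2.1 h2.2⟩, h1⟩

theorem ex_disc [T2Space X] (hL : LD X) (c : ℂ) : ∃ ε > 0, ∀ x y (γ δ : Path x y),
    (∀ t, γ t ∈ B.f ⁻¹' ball c ε) → (∀ t, δ t ∈ B.f ⁻¹' ball c ε) →
      (Path.Homotopic.Quotient.mk γ : PQ x y) = .mk δ := by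
  obtain ⟨O, h1, h2⟩ := (B.fin c).t2_separation
  choose φ a1 a2 a3 using fun x => hL x _ ((h1 x).2.mem_nhds (h1 x).1)
  obtain ⟨ε, h0, hε⟩ := Metric.mem_nhds_iff.1 ((B.cl _ (isOpen_biUnion (s := B.f ⁻¹' {c})
    fun x _ => (a1 x).isOpen_range).isClosed_compl).isOpen_compl.mem_nhds
    (x := c) fun ⟨x, hx, e⟩ => hx (mem_biUnion e ⟨0, a2 x⟩))
  have k0 : ∀ x, B.f x ∈ ball c ε → ∃ q ∈ B.f ⁻¹' {c}, x ∈ range (φ q) := fun x hx => by
    by_contra n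
    exact hε hx ⟨x, fun a => n (mem_iUnion₂.1 a |>.imp fun _ a => ⟨a.1, a.2⟩), rfl⟩
  have k : ∀ x y (γ : Path x y), (∀ t, γ t ∈ B.f ⁻¹' ball c ε) → ∀ q ∈ B.f ⁻¹' {c},
      x ∈ range (φ q) → ∀ t, γ t ∈ range (φ q) := fun x y γ hγ q hq hx =>
    range_subset_iff.1 ((isPreconnected_range γ.continuous).subset_left_of_subset_union
      (v := ⋃ q' ∈ B.f ⁻¹' {c} \ {q}, range (φ q')) (a1 q).isOpen_range
      (isOpen_biUnion fun x _ => (a1 x).isOpen_range)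
      (disjoint_iUnion₂_right.2 fun q' h => (h2 hq h.1 (Ne.symm h.2)).mono (a3 q) (a3 q'))
      (range_subset_iff.2 fun t => by
        obtain ⟨q', b1, b2⟩ := k0 _ (hγ t)
        by_cases e : q' = q
        exacts [.inl (e ▸ b2), .inr (mem_biUnion (show q' ∈ B.f ⁻¹' {c} \ {q} from ⟨b1, e⟩) b2)])
      ⟨x, ⟨0, γ.source⟩, hx⟩)
  refine ⟨ε, h0, fun x y γ δ hγ hδ => ?_⟩
  obtain ⟨q, b1, b2⟩ := k0 x (JoinedIn.source_mem (F := B.f ⁻¹' ball c ε) ⟨γ, hγ⟩)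
  exact (Sc.range (a1 q).isInducing).ht _ _ _ _ (k _ _ γ hγ q b1 b2) (k _ _ δ hδ q b1 b2)

theorem T_loop [T2Space X] (hL : LD X) (i : Fin (B.m + 1)) (γ : Path y y)
    (hγ : ∀ t, B.f (γ t) ∈ B.T i) : (Path.Homotopic.Quotient.mk γ : PQ y y) = .refl y := by
  obtain ⟨ε, h0, hε⟩ := B.ex_disc hL (B.b i)
  refine vk (Y := fun a : Option (Bool × Bool) => B.f ⁻¹' a.elim (ball (B.b i) ε) (B.Hq i))
    (D := B.f ⁻¹' ball (B.b i) ε) (fun a => IsOpen.preimage B.cont ?_) (fun a => ?_)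
    (fun x γ h => hε x x γ (.refl x) h fun _ => JoinedIn.source_mem ⟨γ, h⟩) ?_ ?_ γ fun t => ?_
  · cases a
    exacts [isOpen_ball, (B.Q_fr i _).op]
  · cases a
    exacts [hε, fun _ _ => (B.Q_fr i _).ht]
  · rintro (_ | a) (_ | a') y h h'
    · exact ⟨y, h, .refl ⟨h, h'⟩⟩
    · exact ⟨y, h, .refl ⟨h, h'⟩⟩
    · exact ⟨y, h', .refl ⟨h, h'⟩⟩
    · obtain ⟨w, h1, h2⟩ := B.Q_near ⟨h, h'⟩ h0
      obtain ⟨y', rfl, h3⟩ := ((B.Q_fr i a).inter (B.Q_fr i a').cv (B.Q_fr i a').op).s1 ⟨h, h'⟩ h1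
      exact ⟨y', h2, h3⟩
  · rintro (_ | a) y hy z hz h
    · exact h.mono fun _ a => ⟨a, a⟩
    · obtain ⟨y', h2, h3⟩ := ((B.Q_fr i a).inter (convex_ball _ ε) isOpen_ball).s1
        ⟨h.source_mem, hy⟩ ⟨h.target_mem, hz⟩
      exact (B.Q_fr i a).s2 ((h3.mono fun _ a => a.1).symm.trans h) h2 ▸ h3
  · by_cases e : B.f (γ t) = B.b i
    · exact ⟨none, show B.f (γ t) ∈ ball _ ε from e ▸ mem_ball_self h0⟩
    · exact (B.Q_cov (hγ t) e).elim fun a ha => ⟨some a, ha⟩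

theorem r_pos : 0 < B.r := by linarith [B.big 0, norm_nonneg (B.b 0)]

theorem ex_mu : ∃ μ : ℕ → ℝ, ∀ a, |μ a| ≤ B.r / 2 ∧ ∀ j : Fin (B.m + 1),
    ((j : ℕ) < a → (B.b j).im < μ a) ∧ (a ≤ j → μ a < (B.b j).im) := by
  have k := fun j => abs_lt.1 ((abs_im_le_norm _).trans_lt (B.big j))
  have r0 := B.r_pos
  refine (Classical.skolem (p := fun (a : ℕ) (x : ℝ) => |x| ≤ B.r / 2 ∧ ∀ j : Fin (B.m + 1),
    ((j : ℕ) < a → (B.b j).im < x) ∧ (a ≤ j → x < (B.b j).im))).1 fun a => ?_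
  rcases a with _ | a
  · exact ⟨-(B.r / 2), by rw [abs_neg, abs_of_pos (half_pos r0)], fun j => ⟨fun h => by omega,
      fun _ => (k j).1⟩⟩
  by_cases h : a < B.m
  · obtain ⟨x, h1, h2⟩ := exists_between (B.mono (show (⟨a, by omega⟩ : Fin (B.m + 1)) <
      ⟨a + 1, by omega⟩ from Nat.lt_succ_self a))
    exact ⟨x, abs_le.2 ⟨((k _).1.trans h1).le, (h2.trans (k _).2).le⟩, fun j =>
      ⟨fun h => (B.mono.monotone (show j ≤ ⟨a, _⟩ from Nat.le_of_lt_succ h)).trans_lt h1,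
        fun h => h2.trans_le (B.mono.monotone (show ⟨a + 1, _⟩ ≤ j from h))⟩⟩
  · exact ⟨B.r / 2, by rw [abs_of_pos (half_pos r0)], fun j => ⟨fun _ => (k j).2, fun h => by omega⟩⟩

/-- angles of points of the big circle between the branch values -/
def θ (a : ℕ) : ℝ := Real.arcsin (B.ex_mu.choose a / B.r)

theorem sin_θ (a : ℕ) : B.r * Real.sin (B.θ a) = B.ex_mu.choose a := by
  have h := abs_le.1 (B.ex_mu.choose_spec a).1
  have r0 := B.r_pos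
  rw [θ, Real.sin_arcsin ((le_div_iff₀ r0).2 (by linarith)) ((div_le_iff₀ r0).2 (by linarith)),
    mul_div_cancel₀ _ r0.ne']

theorem θ_abs (a : ℕ) : |B.r * Real.sin (B.θ a)| ≤ B.r / 2 :=
  (B.sin_θ a).symm ▸ (B.ex_mu.choose_spec a).1

theorem θ_lt {a : ℕ} {j : Fin (B.m + 1)} (h : (j : ℕ) < a) : (B.b j).im < B.r * Real.sin (B.θ a) :=
  (B.sin_θ a).symm ▸ ((B.ex_mu.choose_spec a).2 j).1 h

theorem θ_gt {a : ℕ} {j : Fin (B.m + 1)} (h : a ≤ j) : B.r * Real.sin (B.θ a) < (B.b j).im :=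
  (B.sin_θ a).symm ▸ ((B.ex_mu.choose_spec a).2 j).2 h

theorem θ_mem (a : ℕ) : B.θ a ∈ Icc (-(π / 2)) (π / 2) := Real.arcsin_mem_Icc _

theorem im_κ (x : ℝ) : (B.f (B.κ x)).im = B.r * Real.sin x := by
  rw [B.fκ, im_ofReal_mul, exp_ofReal_mul_I_im]

theorem re_κ (x : ℝ) : (B.f (B.κ x)).re = B.r * Real.cos x := by
  rw [B.fκ, re_ofReal_mul, exp_ofReal_mul_I_re]

theorem mem_T {x : ℝ} (h1 : i = 0 ∨ Real.sin (B.θ i) ≤ Real.sin x)
    (h2 : i = B.m ∨ Real.sin x ≤ Real.sin (B.θ (i + 1))) : B.f (B.κ x) ∈ B.T i := fun j => by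
  rw [im_κ]
  refine ⟨fun h => ?_, fun h => ?_⟩
  · exact (B.θ_lt h).trans_le (mul_le_mul_of_nonneg_left (h1.resolve_left (by omega)) B.r_pos.le)
  · exact (mul_le_mul_of_nonneg_left (h2.resolve_left (by omega)) B.r_pos.le).trans_lt (B.θ_gt h)

theorem sin_le (h : i ≤ B.m) : Real.sin (B.θ i) ≤ Real.sin (B.θ (i + 1)) :=
  (lt_of_mul_lt_mul_left ((B.θ_gt (j := ⟨i, by omega⟩) le_rfl).trans (B.θ_lt (Nat.lt_succ_self i)))
    B.r_pos.le).le

theorem mem_S {x : ℝ} (h : i < B.m) (e : Real.sin x = Real.sin (B.θ (i + 1))) :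
    B.f (B.κ x) ∈ B.S i :=
  ⟨B.mem_T (.inr (e ▸ B.sin_le h.le)) (.inr e.le), B.mem_T (.inr e.ge) (.inr (e ▸ B.sin_le h))⟩

/-- the vertices -/
def V : Type :=
  {q : ℕ × Set X // q.1 ≤ B.m ∧ ∃ y, B.f y ∈ B.T q.1 ∧ q.2 = pathComponentIn (B.f ⁻¹' B.T q.1) y}

/-- the vertex of a point -/
def vx (hi : i ≤ B.m) (h : B.f y ∈ B.T i) : B.V := ⟨(i, pathComponentIn (B.f ⁻¹' B.T i) y), hi, y, h, rfl⟩

/-- the open set of a vertex -/
def U (v : B.V) : Set X := v.1.2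

theorem mem_vx (hi : i ≤ B.m) (h : B.f y ∈ B.T i) : y ∈ B.U (B.vx hi h) :=
  mem_pathComponentIn_self h

theorem ex_vx (v : B.V) : ∃ i y hi h, v = B.vx (i := i) (y := y) hi h :=
  let ⟨y, h, e⟩ := v.2.2
  ⟨_, y, v.2.1, h, Subtype.ext (Prod.ext rfl e)⟩

theorem U_T {v : B.V} (h : y ∈ B.U v) : B.f y ∈ B.T v.1.1 := by
  obtain ⟨i, x, hi, hx, rfl⟩ := B.ex_vx v
  exact pathComponentIn_subset (F := B.f ⁻¹' B.T i) h

theorem eq_vx {v : B.V} (h : y ∈ B.U v) (e : v.1.1 = i) (hi : i ≤ B.m) (h' : B.f y ∈ B.T i) :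
    v = B.vx hi h' := by
  obtain ⟨i, x, hi, hx, rfl⟩ := B.ex_vx v
  subst e
  exact Subtype.ext (Prod.ext rfl (pathComponentIn_congr h).symm)

theorem vx_join (hi : i ≤ B.m) (h : JoinedIn (B.f ⁻¹' B.T i) y y') :
    B.vx hi h.source_mem = B.vx hi h.target_mem := B.eq_vx h rfl _ _

/-- the edges -/
abbrev E : Type := Fin B.m × Fin B.N

/-- the point of an edge on the big circle -/
def pt (e : B.E) : X := B.κ (B.θ (e.1 + 1) + 2 * π * (e.2 : ℕ))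

theorem sin_add (x : ℝ) (j : ℕ) : Real.sin (x + 2 * π * j) = Real.sin x := by
  rw [mul_comm, Real.sin_add_nat_mul_two_pi]

theorem fκ_add (x : ℝ) (j : ℕ) : B.f (B.κ (x + 2 * π * j)) = B.r * cexp (x * Complex.I) := by
  rw [B.fκ, show ((x + 2 * π * j : ℝ) : ℂ) * Complex.I = x * Complex.I + j * (2 * π * Complex.I) by
    push_cast; ring, Complex.exp_add, exp_nat_mul_two_pi_mul_I, mul_one]

theorem pt_S (e : B.E) : B.f (B.pt e) ∈ B.S e.1 := B.mem_S e.1.2 (sin_add _ _)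

/-- the open set of an edge -/
def W (e : B.E) : Set X := pathComponentIn (B.f ⁻¹' B.S e.1) (B.pt e)

/-- the lower end -/
def s (e : B.E) : B.V := B.vx e.1.2.le (B.pt_S e).1

/-- the upper end -/
def t (e : B.E) : B.V := B.vx e.1.2 (B.pt_S e).2

theorem W_S {e : B.E} (h : y ∈ B.W e) : B.f y ∈ B.S e.1 :=
  pathComponentIn_subset (F := B.f ⁻¹' B.S e.1) h

theorem s_eq {e : B.E} (h : y ∈ B.W e) : B.s e = B.vx e.1.2.le (B.W_S h).1 :=
  B.vx_join _ (JoinedIn.mono h fun _ a => a.1)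

theorem t_eq {e : B.E} (h : y ∈ B.W e) : B.t e = B.vx e.1.2 (B.W_S h).2 :=
  B.vx_join _ (JoinedIn.mono h fun _ a => a.2)

theorem ex_W (i : Fin B.m) (h : B.f y ∈ B.S i) : ∃ j, y ∈ B.W (i, j) := by
  obtain ⟨y', h1, h2⟩ := (B.S_fr i).s1 h (B.mem_S i.2 rfl)
  obtain ⟨j, rfl⟩ := B.sur _ y' (h1.trans (B.fκ _))
  exact ⟨j, h2.symm⟩

theorem W_dis (e e' : B.E) (h : y ∈ B.W e) (h' : y ∈ B.W e') : e = e' := by
  obtain ⟨i, j⟩ := e
  obtain ⟨i', j'⟩ := e'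
  obtain rfl : i = i' := by
    have a := B.W_S h
    have b := B.W_S h'
    rcases lt_trichotomy (i : ℕ) i' with c | c | c
    · have : (i' : ℕ) + 1 = i + 1 := B.T_adj i'.2 (Nat.lt_succ_of_lt c) a.1 b.2
      omega
    · exact Fin.ext c
    · have : (i : ℕ) + 1 = i' + 1 := B.T_adj i.2 (Nat.lt_succ_of_lt c) b.1 a.2
      omega
  obtain ⟨k, hk⟩ := B.inj _ _ ((B.S_fr i).s2 (JoinedIn.trans h h'.symm)
    ((B.fκ_add _ _).trans (B.fκ_add _ _).symm))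
  have h1 : ((j' : ℕ) : ℝ) = (j : ℕ) + k * B.N :=
    mul_left_cancel₀ Real.two_pi_pos.ne' (by simp only at hk; linarith)
  have h2 : ((j' : ℕ) : ℤ) = (j : ℕ) + k * B.N := by exact_mod_cast h1
  have h3 : k = 0 := by
    have := j.2
    have := j'.2
    rcases lt_trichotomy k 0 with c | c | c
    · nlinarith
    · exact c
    · nlinarith
  rw [show j = j' from Fin.ext (by rw [h3] at h2; omega)]

theorem graph [T2Space X] (hL : LD X) : Gc B.U B.W B.s B.t := by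
  haveI := hL.lpc
  refine ⟨⟨?_, fun y => ?_⟩, ?_, fun e => ((B.S_fr _).op.preimage B.cont).pathComponentIn _,
    fun e => isPathConnected_pathComponentIn (B.pt_S e), fun e v y hy => ⟨fun h => ?_, ?_⟩,
    fun e h => ?_, fun e e' y => B.W_dis e e', fun v v' n y a b => ?_⟩
  · intro v
    obtain ⟨i, x, hi, hx, rfl⟩ := B.ex_vx v
    exact ((B.T_open _).preimage B.cont).pathComponentIn _
  · obtain ⟨i, hi, h⟩ := B.T_cov (B.f y)
    exact ⟨_, B.mem_vx hi h⟩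
  · intro v
    obtain ⟨i, x, hi, hx, rfl⟩ := B.ex_vx v
    exact .of_loop (isPathConnected_pathComponentIn hx) fun y γ h =>
      B.T_loop hL ⟨i, Nat.lt_succ_of_le hi⟩ γ fun t => B.U_T (h t)
  · have a := B.W_S hy
    have b := B.U_T h
    rw [B.s_eq hy, B.t_eq hy]
    rcases lt_trichotomy v.1.1 e.1 with c | c | c
    · have := B.T_adj e.1.2 (Nat.lt_succ_of_lt c) b a.2
      omega
    · exact .inl (B.eq_vx h c _ _)
    · exact .inr (B.eq_vx h (B.T_adj v.2.1 c a.1 b) _ _)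
  · rw [B.s_eq hy, B.t_eq hy]
    rintro (rfl | rfl) <;> exact B.mem_vx _ _
  · exact (Nat.succ_ne_self _ (congrArg (fun v : B.V => v.1.1) h).symm)
  · have k : ∀ {v v' : B.V}, y ∈ B.U v → y ∈ B.U v' → v.1.1 < v'.1.1 → ∃ e, y ∈ B.W e :=
      fun {v v'} a b c => by
        have e := B.T_adj v'.2.1 c (B.U_T a) (B.U_T b)
        obtain ⟨j, hj⟩ := B.ex_W ⟨v.1.1, c.trans_le v'.2.1⟩ ⟨B.U_T a, e ▸ B.U_T b⟩
        exact ⟨_, hj⟩
    rcases lt_trichotomy v.1.1 v'.1.1 with c | c | c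
    · exact k a b c
    · exact (n ((B.eq_vx a c v'.2.1 (B.U_T b)).trans (B.eq_vx b rfl _ _).symm)).elim
    · exact k b a c

end Bc

end Vale.Agent.P275RH
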