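import Vale.Agent.P275RH.Ret
import Vale.Agent.P275AD.Defs

/-!
P275 (helper44): markings in families.
-/

set_option linter.all false

open scoped Real
open Set Filter Topology unitInterval Metric Complex

noncomputable section

namespace Vale.Agent.P275RH

open Vale.Agent.P275ST Vale.Agent.P275GC
open Vale.Agent.P275AD (Cmp Ok)

section chart

variable {X : Type} [TopologicalSpace X] {e e' : OpenPartialHomeomorph X ℂ} {c : ℂ} {r R R' : ℝ}
  {x : X} {y y' : ↥({x}ᶜ : Set X)} {L L' : ℂ}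

theorem bpt_refl (γ : FundamentalGroup X x) : bpt (.refl x) γ = γ :=
  (bpt_self 1 γ).trans (by rw [inv_one, one_mul, mul_one])

theorem bpt_can {a b d : X} (ω : PQ a d) (ω' : PQ b d) (γ : FundamentalGroup X d) :
    bpt (ω.trans ω'.symm) (bpt ω' γ) = bpt ω γ := by
  rw [← bpt_trans, Path.Homotopic.Quotient.trans_assoc, Path.Homotopic.Quotient.symm_trans,
    Path.Homotopic.Quotient.trans_refl]

theorem circ_mem (h : closedBall c (3 * r) ⊆ e.target) (r0 : 0 < r) (θ : ℝ) :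
    e.symm (circleMap c (3 * r) θ) ∉ dsc e c (3 * r) := fun a => by
  have := ((mem_img (ball_subset_closedBall.trans h)).1 a).2
  rw [e.right_inv (h (circleMap_mem_closedBall _ (by linarith) _))] at this
  exact circleMap_notMem_ball _ _ _ this

/-- the base point -/
def bs (h : closedBall c (3 * r) ⊆ e.target) (r0 : 0 < r) : ↥(cds e c r)ᶜ :=
  ⟨e.symm (circleMap c (3 * r) 0), fun a => circ_mem h r0 0 (cds_sub (by linarith) a)⟩

theorem bs_coe (h : closedBall c (3 * r) ⊆ e.target) (r0 : 0 < r) :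
    (bs h r0 : X) = e.symm (c + 3 * r) := by simp [bs, circleMap]

theorem bs_far (h : closedBall c (3 * r) ⊆ e.target) (r0 : 0 < r) :
    (bs h r0 : X) ∉ dsc e c (3 * r) := circ_mem h r0 0

theorem bs_mem (h : closedBall c (3 * r) ⊆ e.target) (r0 : 0 < r) :
    (bs h r0 : X) ∈ cds e c (3 * r) := ⟨_, circleMap_mem_closedBall _ (by linarith) _, rfl⟩

/-- the circle through the base point -/
def cir (h : closedBall c (3 * r) ⊆ e.target) (r0 : 0 < r) : Path (bs h r0) (bs h r0) :=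
  ⟨⟨fun t => ⟨e.symm (circleMap c (3 * r) (2 * π * t)),
      fun a => circ_mem h r0 _ (cds_sub (by linarith) a)⟩,
    (e.continuousOn_symm.comp_continuous (by fun_prop)
      fun _ => h (circleMap_mem_closedBall _ (by linarith) _)).subtype_mk _⟩,
    Subtype.ext (by simp [bs]), Subtype.ext (by simp [bs, circleMap, exp_two_pi_mul_I])⟩

theorem cir_coe (h : closedBall c (3 * r) ⊆ e.target) (r0 : 0 < r) (t : I) :
    (cir h r0 t : X) = e.symm (circleMap c (3 * r) (2 * π * t)) := rfl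

theorem lg_cir (h : closedBall c (3 * r) ⊆ e.target) (r0 : 0 < r) (hx : x ∈ dsc e c r)
    (hL : cexp L = c + 3 * r - e x) :
    Lg e x (4 * r) ((Path.Homotopic.Quotient.mk (cir h r0)).map (inc hx)) L
      (L + 2 * π * Complex.I) := by
  have h1 := (x_spec h hx).2
  have n : ∀ t : I, ‖3 * r + (c - e x) * cexp (-(2 * π * t : ℝ) * Complex.I) - 3 * r‖ < r := fun t => by
    rw [add_sub_cancel_left, norm_mul, ← ofReal_neg, norm_exp_ofReal_mul_I, mul_one, norm_sub_rev]
    exact h1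
  have n3 : ‖(3 * r : ℂ)‖ = 3 * r := by simp [r0.le]
  obtain ⟨L', a, b⟩ := Lg.circ (e := e) (R := 4 * r) (l := 3 * r)
    (fun t => 3 * r + (c - e x) * cexp (-(2 * π * t : ℝ) * Complex.I)) (by fun_prop)
    (by simp [exp_neg, exp_two_pi_mul_I]) (fun t => (n t).trans_le (by linarith))
    (fun t => by linarith [n t, norm_sub_norm_le (3 * r + (c - e x) *
      cexp (-(2 * π * t : ℝ) * Complex.I)) (3 * r)]) ((cir h r0).map (inc hx).continuous) fun t => by
      show e.symm _ = _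
      congr 1
      have : cexp (2 * π * t * Complex.I) * cexp (-(2 * π * t : ℝ) * Complex.I) = 1 := by
        rw [← Complex.exp_add, ← Complex.exp_zero]; congr 1; push_cast; ring
      simp only [circleMap]
      push_cast at this ⊢
      linear_combination (e x - c) * this
  exact b.move (by rw [a, hL]; simp; ring)

theorem ex_seg (hx : x ∈ e.source) (h : ball (e x) R ⊆ e.target) (h1 : ‖cexp L‖ < R)
    (h2 : ‖cexp L'‖ < R) (hy : (y : X) = e.symm (e x + cexp L))
    (hy' : (y' : X) = e.symm (e x + cexp L')) :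
    ∃ ω : Path y y', (∀ t, (ω t).1 ∈ dsc e (e x) R) ∧ Lg e x R (.mk ω) L L' := by
  have k : ∀ t : I, ‖cexp (Path.segment L L' t)‖ < R := fun t => by
    have R0 := (norm_nonneg _).trans_lt h1
    have k1 : ∀ z, ‖cexp z‖ < R ↔ z.re < Real.log R := fun z => by
      rw [norm_exp, Real.lt_log_iff_exp_lt R0]
    exact (k1 _).2 ((convex_halfSpace_re_lt _).segment_subset ((k1 _).1 h1) ((k1 _).1 h2)
      (Path.range_segment L L' ▸ mem_range_self t))
  exact ⟨⟨⟨fun t => ⟨_, el_ne hx h (k t)⟩, (e.continuousOn_symm.comp_continuous (by fun_prop)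
    fun t => h (by simpa using k t)).subtype_mk _⟩, Subtype.ext (by simp [hy]),
    Subtype.ext (by simp [hy'])⟩, fun t => ⟨_, by simpa using k t, rfl⟩, _, _, rfl,
    fun t => ⟨k t, rfl⟩⟩

theorem Lg.small (hx : x ∈ e.source) (h : ball (e x) R ⊆ e.target) {a : PQ y y}
    (ha : Lg e x R a L (L + 2 * π * Complex.I)) {l : ℂ} (l0 : l ≠ 0) (hl : ‖l‖ < R) :
    ∃ (y' : ↥({x}ᶜ : Set X)) (a' : Path y' y') (ω : Path y y'),
      (∀ t, (a' t : X) = e.symm (e x + cexp (2 * π * t * Complex.I) * l)) ∧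
      (∀ t, (ω t).1 ∈ dsc e (e x) R) ∧ lp a = P275RH.bpt (.mk ω) (lp (.mk a')) := by
  have k : ∀ t : I, cexp (2 * π * t * Complex.I + log l) = cexp (2 * π * t * Complex.I) * l :=
    fun t => by rw [Complex.exp_add, exp_log l0]
  have k' : ∀ t : I, ‖cexp (2 * π * t * Complex.I + log l)‖ < R := fun t => by
    rw [k, norm_mul, show 2 * π * t * Complex.I = ((2 * π * t : ℝ) : ℂ) * Complex.I by
      push_cast; ring, norm_exp_ofReal_mul_I, one_mul]
    exact hl
  let a' : Path (⟨_, el_ne hx h (k' 0)⟩ : ↥({x}ᶜ : Set X)) ⟨_, el_ne hx h (k' 0)⟩ :=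
    ⟨⟨fun t => ⟨_, el_ne hx h (k' t)⟩, (e.continuousOn_symm.comp_continuous (by fun_prop)
      fun t => h (by simpa using k' t)).subtype_mk _⟩, rfl,
      Subtype.ext (by simp [Complex.exp_add, exp_two_pi_mul_I])⟩
  have ha' : ∀ t, (a' t : X) = e.symm (e x + cexp (2 * π * t * Complex.I) * l) := fun t => k t ▸ rfl
  obtain ⟨L', b1, b2⟩ := Lg.circ (e := e) (R := R) (l := l) (fun _ => l) continuous_const rfl
    (fun _ => by simpa using l0) (fun _ => hl) a' ha'
  obtain ⟨ω, c1, c2⟩ := ex_seg hx h ha.src.1 b2.src.1 ha.src.2 b2.src.2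
  exact ⟨_, a', ω, ha', c1, ha.uniq hx h (c2.bpt b2)⟩

/-- the winding number does not depend on the chart -/
theorem Lg.chg (hx : x ∈ e.source) (hx' : x ∈ e'.source) (h : ball (e x) R ⊆ e.target)
    (h' : ball (e' x) R' ⊆ e'.target) (s : dsc e (e x) R ⊆ dsc e' (e' x) R') {d : ℂ} (d0 : d ≠ 0)
    (hd : HasDerivAt (fun w => e' (e.symm w)) d (e x)) {a : PQ y y}
    (ha : Lg e x R a L (L + 2 * π * Complex.I)) (hL : cexp L' = e' y - e' x) :
    Lg e' x R' a L' (L' + 2 * π * Complex.I) := by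
  have R0 := (norm_nonneg _).trans_lt ha.src.1
  have d1 := norm_pos_iff.2 d0
  obtain ⟨δ, δ0, hδ⟩ := Metric.eventually_nhds_iff_ball.1
    (Asymptotics.isLittleO_iff.1 hd.isLittleO (half_pos d1))
  obtain ⟨l, l0, l1⟩ := exists_between (lt_min δ0 R0)
  have n : ‖(l : ℂ)‖ = l := by simp [l0.le]
  obtain ⟨y', a', ω, h1, h2, h3⟩ := ha.small hx h (l := l) (ofReal_ne_zero.2 l0.ne')
    (n.symm ▸ l1.trans_le (min_le_right _ _))
  obtain ⟨L2, b1, b2⟩ := ex_Lg hx' h' ω (fun t => s (h2 t)) hL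
  have n1 : ∀ t : I, ‖cexp (2 * π * t * Complex.I)‖ = 1 := fun t => by
    rw [show 2 * π * t * Complex.I = ((2 * π * t : ℝ) : ℂ) * Complex.I by push_cast; ring,
      norm_exp_ofReal_mul_I]
  have m : ∀ t, (a' t).1 ∈ e'.source ∧ e' (a' t) ∈ ball (e' x) R' := fun t =>
    (mem_img h').1 (s ⟨_, by
      rw [mem_ball_iff_norm, add_sub_cancel_left, norm_mul, n1, one_mul, n]
      exact l1.trans_le (min_le_right _ _), (h1 t).symm⟩)
  have est : ∀ t : I, ‖(cexp (2 * π * t * Complex.I))⁻¹ * (e' (a' t) - e' x) - l * d‖ <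
      ‖(l : ℂ) * d‖ := fun t => by
    have := hδ (e x + cexp (2 * π * t * Complex.I) * l) (by
      rw [mem_ball_iff_norm, add_sub_cancel_left, norm_mul, n1, one_mul, n]
      exact l1.trans_le (min_le_left _ _))
    rw [← h1, e.left_inv hx, add_sub_cancel_left, norm_mul, n1, one_mul, n] at this
    rw [show (cexp (2 * π * t * Complex.I))⁻¹ * (e' (a' t) - e' x) - l * d =
      (cexp (2 * π * t * Complex.I))⁻¹ * (e' (a' t) - e' x - (cexp (2 * π * t * Complex.I) * l) • d) by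
        rw [mul_sub _ (e' (a' t) - e' x), smul_eq_mul, mul_assoc _ (l : ℂ),
          inv_mul_cancel_left₀ (exp_ne_zero _)],
      norm_mul, norm_inv, n1, inv_one, one_mul, norm_mul, n]
    nlinarith
  obtain ⟨L3, c1, c2⟩ := Lg.circ (e := e') (R := R') (l := l * d)
    (fun t => (cexp (2 * π * t * Complex.I))⁻¹ * (e' (a' t) - e' x))
    (Continuous.mul (Continuous.inv₀ (by fun_prop) fun _ => exp_ne_zero _)
      ((e'.continuousOn.comp_continuous (by fun_prop) fun t => (m t).1).sub continuous_const))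
    (by simp [exp_two_pi_mul_I]) est
    (fun t => by rw [norm_mul, norm_inv, n1, inv_one, one_mul]; exact mem_ball_iff_norm.1 (m t).2)
    a' fun t => by rw [mul_inv_cancel_left₀ (exp_ne_zero _), add_sub_cancel, e'.left_inv (m t).1]
  exact (show a = _ from h3) ▸ b2.bpt (c2.move (by rw [b1, c1]; simp))

end chart

variable {C : Type} [TopologicalSpace C] [ChartedSpace ℂ C] {e : OpenPartialHomeomorph C ℂ}
  {x p : C} {c : ℂ} {r R : ℝ} {g : ℕ}

theorem holAt_of_cmp (he : Cmp e) (hx : x ∈ e.source) :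
    HolAt x (e.transHomeomorph (Homeomorph.subRight (e x))) := by
  obtain ⟨h1, h2⟩ := he x hx
  have hp := mem_chart_source ℂ x
  have e1 : e ((chartAt ℂ x).symm (ctr x)) = e x := congrArg e ((chartAt ℂ x).left_inv hp)
  refine ⟨hx, sub_self _, h1.sub analyticAt_const, fun h0 => ?_⟩
  have h3 : deriv (fun z => e ((chartAt ℂ x).symm z)) (ctr x) = 0 :=
    (deriv_sub_const (e x)).symm.trans h0
  have h4 := (e1 ▸ h2.differentiableAt.hasDerivAt).comp (ctr x) h1.differentiableAt.hasDerivAt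
  rw [h3, mul_zero] at h4
  refine zero_ne_one (h4.unique ((hasDerivAt_id _).congr_of_eventuallyEq ?_))
  have t0 := (chartAt ℂ x).map_source hp
  filter_upwards [(chartAt ℂ x).open_target.mem_nhds t0, ((chartAt ℂ x).continuousAt_symm t0).eventually
    (show e.source ∈ 𝓝 _ by rw [(chartAt ℂ x).left_inv hp]; exact e.open_source.mem_nhds hx)]
    with z a b
  exact (congrArg _ (e.left_inv b)).trans ((chartAt ℂ x).right_inv a)

/-- loops of winding number one are meridians -/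
theorem Lg.mer (he : Cmp e) (hx : x ∈ e.source) (h : ball (e x) R ⊆ e.target) {y x₀ : Pc x}
    {a : PQ y y} {L : ℂ} (ha : Lg e x R a L (L + 2 * π * Complex.I)) (ω : PQ x₀ y) :
    IsMeridian x x₀ (P275RH.bpt ω (lp a)) := by
  obtain ⟨δ, δ0, hδ⟩ := (holAt_of_cmp he hx).mer
  obtain ⟨l, l0, l1⟩ := exists_between (lt_min δ0 ((norm_nonneg _).trans_lt ha.src.1))
  have n : ‖(l : ℂ)‖ = l := by simp [l0.le]
  obtain ⟨y', a', ω', h1, -, h3⟩ := ha.small hx h (l := l) (ofReal_ne_zero.2 l0.ne')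
    (n.symm ▸ l1.trans_le (min_le_right _ _))
  rw [h3, ← bpt_trans]
  refine hδ l (ofReal_ne_zero.2 l0.ne') (n.symm ▸ l1.trans_le (min_le_left _ _)) _ _ a' _ fun t => ?_
  rw [h1, mul_comm, add_comm]
  rfl

section mk

variable [T2Space C] (he : Cmp e) (h : closedBall c (5 * r) ⊆ e.target) (r0 : 0 < r)

theorem five (h : closedBall c (5 * r) ⊆ e.target) (r0 : 0 < r) : closedBall c (3 * r) ⊆ e.target :=
  (closedBall_subset_closedBall (by linarith)).trans h

/-- the complement of the disc against the complement of a point -/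
def incE (h : closedBall c (3 * r) ⊆ e.target) (r0 : 0 < r) (hx : x ∈ dsc e c r) :
    FundamentalGroup ↥(cds e c r)ᶜ (bs h r0) ≃* FundamentalGroup (Pc x) (inc hx (bs h r0)) :=
  .ofBijective _ (bij_inc h hx _ (bs_far h r0))

include he

theorem mer_cir (hx : x ∈ dsc e c r) :
    IsMeridian x _ (incE (five h r0) r0 hx (lp (.mk (cir (five h r0) r0)))) := by
  have h1 := x_spec (five h r0) hx
  have := (lg_cir (five h r0) r0 hx (exp_log fun a => ?_)).mer he h1.1
    ((ball_subset_ball' (by rw [dist_eq_norm]; linarith)).trans (ball_subset_closedBall.trans h))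
    (.refl (inc hx (bs (five h r0) r0)))
  · rwa [bpt_refl] at this
  · rw [← sub_eq_zero.1 a] at h1
    simp [abs_of_pos r0] at h1
    linarith [h1.2]

/-- the marking of the punctured curve given by a marking of the complement of the disc -/
def mkg (E : FreeGroup (Fin g × Bool) ≃* FundamentalGroup ↥(cds e c r)ᶜ (bs (five h r0) r0))
    (hE : E (cwd g) = lp (.mk (cir (five h r0) r0))) (hx : x ∈ dsc e c r) :
    Marking g x (inc hx (bs (five h r0) r0)) :=
  ⟨E.trans (incE _ r0 hx), by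
    have := mer_cir he h r0 hx
    rw [← hE] at this
    exact this⟩

theorem ex_mk [ConnectedSpace C] (hx : x ∈ dsc e c r) {x₀ : Pc x} (M : Marking g x x₀) :
    ∃ (E : FreeGroup (Fin g × Bool) ≃* FundamentalGroup ↥(cds e c r)ᶜ (bs (five h r0) r0))
      (ω : PQ _ x₀), E (cwd g) = lp (.mk (cir (five h r0) r0)) ∧
        ∀ w, incE _ r0 hx (E w) = bpt ω (M.e w) := by
  haveI := pc_pc x
  let ω₀ : PQ (inc hx (bs (five h r0) r0)) x₀ := .mk (PathConnectedSpace.somePath _ _)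
  obtain ⟨u, hu⟩ := mer_isConj (mer_bpt M.rel ω₀) (mer_cir he h r0 hx)
  refine ⟨(M.e.trans (bpt ((u⁻¹).toPath.trans ω₀))).trans (incE _ r0 hx).symm, _, ?_,
    fun w => (incE _ r0 hx).apply_symm_apply _⟩
  refine (incE _ r0 hx).symm_apply_eq.2 (Eq.trans ?_ hu.symm)
  refine (bpt_trans _ _ _).trans ?_
  rw [bpt_self, inv_inv]
  rfl

end mk

/-- a finite cover by small discs -/
structure Geo (A : At C) where
  N : ℕ
  k : Fin N → Fin A.N
  c : Fin N → ℂ
  ε : ℝ
  δ : ℝ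
  ε0 : 0 < ε
  εδ : 10 * ε < δ
  big : ∀ i, ‖c i‖ + 10 * δ < 1
  cov : ∀ x, ∃ i, x ∈ dsc (A.e (k i)) (c i) ε
  star : ∀ i j x, x ∈ dsc (A.e (k i)) (c i) ε → x ∈ dsc (A.e (k j)) (c j) ε →
    cds (A.e (k j)) (c j) (10 * ε) ⊆ dsc (A.e (k i)) (c i) δ

namespace Geo

variable {A : At C} (G : Geo A) (i j : Fin G.N)

/-- the chart -/
abbrev ch : OpenPartialHomeomorph C ℂ := A.e (G.k i)

/-- open discs -/
abbrev D (r : ℝ) : Set C := dsc (G.ch i) (G.c i) r

/-- the small discs -/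
abbrev V : Set C := G.D i G.ε

/-- the complement of a closed small disc -/
abbrev Y : Set C := (cds (G.ch i) (G.c i) G.ε)ᶜ

/-- the complement of a closed large disc -/
abbrev Z : Set C := (cds (G.ch i) (G.c i) G.δ)ᶜ

theorem δ0 : 0 < G.δ := by linarith [G.ε0, G.εδ]

theorem unit {r : ℝ} (h : r ≤ 10 * G.δ) : closedBall (G.c i) r ⊆ ball 0 1 :=
  closedBall_subset_ball' (by rw [dist_zero_right]; linarith [G.big i])

theorem tgt {r : ℝ} (h : r ≤ 10 * G.δ) : closedBall (G.c i) r ⊆ (G.ch i).target :=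
  (G.unit i h).trans (A.tgt _ ▸ ball_subset_ball A.hR.le)

theorem t5 : closedBall (G.c i) (5 * G.ε) ⊆ (G.ch i).target := G.tgt i (by linarith [G.ε0, G.εδ])

theorem t3 : closedBall (G.c i) (3 * G.ε) ⊆ (G.ch i).target := G.tgt i (by linarith [G.ε0, G.εδ])

theorem s3 : closedBall (G.c i) (3 * G.δ) ⊆ (G.ch i).target := G.tgt i (by linarith [G.δ0])

/-- the base point `c + 3 ε` -/
abbrev b : G.Y i := bs (G.t3 i) G.ε0

/-- the base point `c + 3 δ` -/
abbrev β : G.Z i := bs (G.s3 i) G.δ0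

/-- the circle of radius `3 ε` -/
abbrev cir : Path (G.b i) (G.b i) := P275RH.cir (G.t3 i) G.ε0

theorem V_open : IsOpen (G.V i) :=
  dsc_open (ball_subset_closedBall.trans (G.tgt i (by linarith [G.ε0, G.εδ])))

theorem V_conn : IsPathConnected (G.V i) :=
  (sc_disc _ G.ε0 (ball_subset_closedBall.trans (G.tgt i (by linarith [G.ε0, G.εδ])))).pc

theorem ctr_mem : (G.ch i).symm (G.c i) ∈ G.V i := ⟨_, mem_ball_self G.ε0, rfl⟩

variable {G i j}

theorem V_spec (hi : x ∈ G.V i) : x ∈ (G.ch i).source ∧ ‖G.ch i x - G.c i‖ < G.ε := x_spec (G.t3 i) hi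

theorem ball_tgt (hi : x ∈ G.V i) {r : ℝ} (h : r ≤ 9 * G.δ) : ball (G.ch i x) r ⊆ (G.ch i).target :=
  (ball_subset_ball' (by rw [dist_eq_norm]; linarith [(V_spec hi).2, G.εδ, G.ε0])).trans
    (ball_subset_closedBall.trans (G.tgt i le_rfl))

theorem D_sub (hi : x ∈ G.V i) {r r' : ℝ} (h : r + G.ε ≤ r') : G.D i r ⊆ dsc (G.ch i) (G.ch i x) r' :=
  image_mono (ball_subset_ball' (by rw [dist_comm, dist_eq_norm]; linarith [(V_spec hi).2]))

theorem sub_D (hi : x ∈ G.V i) {r r' : ℝ} (h : r + G.ε ≤ r') : dsc (G.ch i) (G.ch i x) r ⊆ G.D i r' :=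
  image_mono (ball_subset_ball' (by rw [dist_eq_norm]; linarith [(V_spec hi).2]))

theorem D3 (hi : x ∈ G.V i) (hj : x ∈ G.V j) : cds (G.ch j) (G.c j) (3 * G.ε) ⊆ G.D i G.δ :=
  (cds_mono (by linarith [G.ε0])).trans (G.star i j x hi hj)

theorem ZY (hi : x ∈ G.V i) (hj : x ∈ G.V j) : G.Z i ⊆ G.Y j :=
  compl_subset_compl.2 ((cds_mono (by linarith [G.ε0])).trans ((D3 hi hj).trans dsc_sub))

/-- the inclusion -/
abbrev zy (hi : x ∈ G.V i) (hj : x ∈ G.V j) : C(G.Z i, G.Y j) := ContinuousMap.inclusion (ZY hi hj)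

theorem β_far (hi : x ∈ G.V i) (hj : x ∈ G.V j) : (G.β i).1 ∉ G.D j (3 * G.ε) := fun a =>
  (G.β i).2 (dsc_sub (D3 hi hj (dsc_sub a)))

theorem ex_om [T2Space C] (hi : x ∈ G.V i) (hj : x ∈ G.V j) :
    ∃ ω : Path (G.b j) (zy hi hj (G.β i)), ∀ t, (ω t).1 ∈ G.D i (4 * G.δ) := by
  have d0 := G.δ0
  obtain ⟨φ, a, -, b⟩ := ex_plane (G.ch i) (c := G.c i) (r := 4 * G.δ) (by linarith)
    (ball_subset_closedBall.trans (G.tgt i (by linarith)))
  obtain ⟨γ, hγ⟩ := (b ▸ pc_diff a (finite_singleton x)).joinedIn (G.b j).1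
    ⟨dsc_mono (by linarith) (D3 hi hj (bs_mem _ _)), sub_pc hj (G.b j).2⟩ (G.β i).1
    ⟨cds_sub (by linarith) (bs_mem _ _), sub_pc hj (ZY hi hj (G.β i).2)⟩
  refine ⟨⟨⟨fun t => ret (G.t3 j) (fib hj ⟨γ t, (hγ t).2⟩), by fun_prop⟩,
    Subtype.ext ((ret_far (G.t3 j) _ ?_).trans γ.source),
    Subtype.ext ((ret_far (G.t3 j) _ ?_).trans γ.target)⟩,
    fun t => ?_⟩
  · exact (congrArg (· ∉ G.D j (3 * G.ε)) γ.source).mpr (bs_far _ _)
  · exact (congrArg (· ∉ G.D j (3 * G.ε)) γ.target).mpr (β_far hi hj)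
  · rcases push_cases (G.t3 j) hj le_rfl (hγ t).2 with a | a
    · exact (congrArg (· ∈ G.D i (4 * G.δ)) a).mpr (hγ t).1
    · exact dsc_mono (by linarith) (D3 hi hj (dsc_sub a))

theorem bij_zy [T2Space C] (hi : x ∈ G.V i) (hj : x ∈ G.V j) :
    Function.Bijective (FundamentalGroup.map (zy hi hj) (G.β i)) := by
  refine (Function.Bijective.of_comp_iff' (bij_inc (G.t3 j) hj (zy hi hj (G.β i))
    (β_far hi hj)) _).1 ?_
  have := bij_inc (G.s3 i) (dsc_mono (by linarith [G.ε0, G.εδ]) hi) (G.β i) (bs_far _ _)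
  refine (congrArg Function.Bijective (funext fun γ => ?_)).mp this
  exact Path.Homotopic.Quotient.map_comp (p := γ.toPath) (f := zy hi hj) (g := inc hj)

end Geo

theorem exists_geo [T2Space C] [CompactSpace C] (A : At C) (p : C) :
    ∃ (G : Geo A) (i : Fin G.N), (G.ch i).symm (G.c i) = p := by
  have h1 : ∀ᶠ δ in 𝓝 (0 : ℝ), ∀ y ∈ univ, ∃ k, y ∈ (A.e k).source ∧ ‖A.e k y‖ + 10 * δ < 1 :=
    isCompact_univ.eventually_forall_of_forall_eventually fun y _ => by
      obtain ⟨k, a, b⟩ := A.cov y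
      have c : ContinuousAt (fun z : ℝ × C => ‖A.e k z.2‖ + 10 * z.1) (0, y) :=
        (((A.e k).continuousAt a).comp_of_eq continuousAt_snd rfl).norm.add (by fun_prop)
      filter_upwards [continuousAt_snd.eventually ((A.e k).open_source.mem_nhds a),
        c.eventually (gt_mem_nhds (by simpa using b))] with z u v
      exact ⟨k, u, v⟩
  obtain ⟨δ, hδ, δ0⟩ := ((h1.filter_mono nhdsWithin_le_nhds).and (self_mem_nhdsWithin (a := (0 : ℝ))
    (s := Ioi 0))).exists
  replace δ0 : 0 < δ := δ0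
  have u : ∀ k, closedBall (0 : ℂ) 1 ⊆ (A.e k).target := fun k => A.tgt k ▸ A.unit_sub
  have h2 : ∀ᶠ ε in 𝓝 (0 : ℝ), ∀ y ∈ univ, ∀ k k', y ∈ cds (A.e k) 0 1 → y ∈ cds (A.e k') 0 1 →
      cds (A.e k') (A.e k' y) (11 * ε) ⊆ dsc (A.e k) (A.e k y) (δ / 2) :=
    isCompact_univ.eventually_forall_of_forall_eventually fun y _ =>
      eventually_all.2 fun k => eventually_all.2 fun k' => by
        by_cases a : y ∈ cds (A.e k) 0 1 ∩ cds (A.e k') 0 1
        · have a1 := ((mem_img (u k)).1 a.1).1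
          have a2 := ((mem_img (u k')).1 a.2).1
          have c0 : ContinuousAt (A.e k').symm (A.e k' y) :=
            (A.e k').continuousAt_symm ((A.e k').map_source a2)
          obtain ⟨η, η0, hη⟩ := Metric.eventually_nhds_iff_ball.1 ((c0.eventually
            (show (A.e k).source ∈ 𝓝 _ by
              rw [(A.e k').left_inv a2]; exact (A.e k).open_source.mem_nhds a1)).and
            ((((A.e k).continuousAt a1).comp_of_eq c0 ((A.e k').left_inv a2)).eventually
              (show ball (A.e k y) (δ / 4) ∈ 𝓝 _ by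
                rw [Function.comp_apply, (A.e k').left_inv a2]
                exact ball_mem_nhds _ (by linarith))))
          have c1 : ContinuousAt (fun z : ℝ × C => 11 * z.1 + dist (A.e k' z.2) (A.e k' y)) (0, y) :=
            ContinuousAt.add (by fun_prop) ((((A.e k').continuousAt a2).comp_of_eq
              continuousAt_snd rfl).dist continuousAt_const)
          filter_upwards [c1.eventually (gt_mem_nhds (by simpa using η0)),
            (((A.e k).continuousAt a1).comp_of_eq (continuousAt_snd (p := ((0 : ℝ), y))) rfl).eventually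
              (ball_mem_nhds _ (show 0 < δ / 4 by linarith))] with z b1 b2 _ _
          rintro _ ⟨w, hw, rfl⟩
          obtain ⟨b3, b4⟩ := hη w (closedBall_subset_ball' b1 hw)
          refine ⟨_, ?_, (A.e k).left_inv b3⟩
          rw [mem_ball]
          linarith [dist_triangle_right (A.e k ((A.e k').symm w)) (A.e k z.2) (A.e k y),
            show dist (A.e k ((A.e k').symm w)) (A.e k y) < δ / 4 from b4,
            show dist (A.e k z.2) (A.e k y) < δ / 4 from b2]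
        · filter_upwards [continuousAt_snd.eventually (((cds_compact (u k)).isClosed.inter
            (cds_compact (u k')).isClosed).isOpen_compl.mem_nhds a)] with z b b1 b2
          exact (b ⟨b1, b2⟩).elim
  obtain ⟨ε, hε, ε0, ε1⟩ := ((h2.filter_mono nhdsWithin_le_nhds).and
    (Ioo_mem_nhdsGT (show 0 < δ / 10 by linarith))).exists
  choose k k1 k2 using fun y => hδ y trivial
  have t : ∀ y, closedBall (A.e (k y) y) (3 * ε) ⊆ closedBall 0 1 := fun y =>
    closedBall_subset_closedBall' (by rw [dist_zero_right]; linarith [k2 y])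
  obtain ⟨s, hs⟩ := isCompact_univ.elim_finite_subcover (fun y => dsc (A.e (k y)) (A.e (k y) y) ε)
    (fun y => dsc_open ((ball_subset_closedBall.trans (closedBall_subset_closedBall
      (by linarith))).trans ((t y).trans (u _))))
    fun y _ => mem_iUnion.2 ⟨y, _, mem_ball_self ε0, (A.e _).left_inv (k1 y)⟩
  obtain ⟨N, q, -, hq⟩ := (s.finite_toSet.insert p).fin_param
  obtain ⟨i0, h0⟩ : p ∈ range q := hq.ge (mem_insert _ _)
  refine ⟨⟨N, fun i => k (q i), fun i => A.e (k (q i)) (q i), ε, δ, ε0, by linarith,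
    fun i => k2 _, fun x => ?_, fun i j x hi hj => ?_⟩, i0, ((A.e _).left_inv (k1 _)).trans h0⟩
  · obtain ⟨y, hy, a⟩ := mem_iUnion₂.1 (hs (mem_univ x))
    obtain ⟨i, rfl⟩ : y ∈ range q := hq.ge (mem_insert_of_mem _ hy)
    exact ⟨i, a⟩
  · have a := (x_spec ((t _).trans (u _)) hi).2
    have b := (x_spec ((t _).trans (u _)) hj).2
    have m : ∀ {y}, x ∈ dsc (A.e (k y)) (A.e (k y) y) ε → x ∈ cds (A.e (k y)) 0 1 := fun h =>
      image_mono ((ball_subset_closedBall.trans (closedBall_subset_closedBall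
        (by linarith))).trans (t _)) h
    exact (image_mono (closedBall_subset_closedBall' (by
      rw [dist_comm, dist_eq_norm]; linarith))).trans ((hε x trivial _ _ (m hi) (m hj)).trans
      (image_mono (ball_subset_ball' (by rw [dist_eq_norm]; linarith))))

/-- markings of the complements of the small discs, with constant transitions -/
structure Tp (A : At C) (g : ℕ) extends Geo A where
  E : ∀ i, FreeGroup (Fin g × Bool) ≃* FundamentalGroup (toGeo.Y i) (toGeo.b i)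
  cw : ∀ i, E i (cwd g) = lp (.mk (toGeo.cir i))
  φ : Fin N → Fin N → FreeGroup (Fin g × Bool) ≃* FreeGroup (Fin g × Bool)
  fix : ∀ i j, φ i j (cwd g) = cwd g
  om : ∀ i j x (hi : x ∈ toGeo.V i) (hj : x ∈ toGeo.V j),
    ∃ (ωi : Path (toGeo.b i) (Geo.zy hi hi (toGeo.β i)))
      (ωj : Path (toGeo.b j) (Geo.zy hi hj (toGeo.β i))),
      (∀ t, (ωi t).1 ∈ toGeo.D i (4 * δ)) ∧ (∀ t, (ωj t).1 ∈ toGeo.D i (4 * δ)) ∧
      ∀ w, ∃ z : FundamentalGroup (toGeo.Z i) (toGeo.β i),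
        E j w = bpt (.mk ωj) (FundamentalGroup.map (Geo.zy hi hj) _ z) ∧
        E i (φ i j w) = bpt (.mk ωi) (FundamentalGroup.map (Geo.zy hi hi) _ z)

/-- the marking at a point of a small disc -/
def Tp.M [T2Space C] {A : At C} (T : Tp A g) (ok : Ok A) {i : Fin T.N} (hx : x ∈ T.V i) :
    Marking g x (inc hx (T.b i)) := mkg (ok _) (T.t5 i) T.ε0 (T.E i) (T.cw i) hx

theorem Tp.M_e [T2Space C] {A : At C} (T : Tp A g) (ok : Ok A) {i : Fin T.N} (hx : x ∈ T.V i) (w) :
    (T.M ok hx).e w = FundamentalGroup.map (inc hx) _ (T.E i w) := rfl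

theorem Geo.ex_φ [T2Space C] {A : At C} {G : Geo A} {i j : Fin G.N} (hi : x ∈ G.V i)
    (hj : x ∈ G.V j) (E : ∀ i, FreeGroup (Fin g × Bool) ≃* FundamentalGroup (G.Y i) (G.b i))
    (cw : ∀ i, E i (cwd g) = lp (.mk (G.cir i))) :
    ∃ φ : FreeGroup (Fin g × Bool) ≃* FreeGroup (Fin g × Bool), φ (cwd g) = cwd g ∧
      ∃ (ωi : Path (G.b i) (Geo.zy hi hi (G.β i))) (ωj : Path (G.b j) (Geo.zy hi hj (G.β i))),
      (∀ t, (ωi t).1 ∈ G.D i (4 * G.δ)) ∧ (∀ t, (ωj t).1 ∈ G.D i (4 * G.δ)) ∧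
      ∀ w, ∃ z : FundamentalGroup (G.Z i) (G.β i),
        E j w = bpt (.mk ωj) (FundamentalGroup.map (Geo.zy hi hj) _ z) ∧
        E i (φ w) = bpt (.mk ωi) (FundamentalGroup.map (Geo.zy hi hi) _ z) := by
  obtain ⟨ωi, h1⟩ := ex_om hi hi
  obtain ⟨ωj, h2⟩ := ex_om hi hj
  let Φi := (MulEquiv.ofBijective _ (bij_zy hi hi)).trans (bpt (.mk ωi))
  let Φj := (MulEquiv.ofBijective _ (bij_zy hi hj)).trans (bpt (.mk ωj))
  have k : ∀ w, ∃ z : FundamentalGroup (G.Z i) (G.β i),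
      E j w = bpt (.mk ωj) (FundamentalGroup.map (Geo.zy hi hj) _ z) ∧
      E i (((E j).trans (Φj.symm.trans (Φi.trans (E i).symm))) w) =
        bpt (.mk ωi) (FundamentalGroup.map (Geo.zy hi hi) _ z) := fun w =>
    ⟨Φj.symm (E j w), (Φj.apply_symm_apply _).symm, (E i).apply_symm_apply _⟩
  refine ⟨_, ?_, ωi, ωj, h1, h2, k⟩
  obtain ⟨z, a, b⟩ := k (cwd g)
  refine (E i).injective (b.trans ((incE _ G.ε0 hi).injective ?_))
  have e0 := G.ε0
  have e1 := G.εδ
  have si := V_spec hi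
  have sj := V_spec hj
  have ti := ball_tgt hi (r := 5 * G.δ) (by linarith)
  let η := (ωi.map (inc hi).continuous).trans (ωj.map (inc hj).continuous).symm
  have hη : ∀ t, (η t).1 ∈ dsc (G.ch i) (G.ch i x) (5 * G.δ) :=
    trans_mem (V := {y : Pc x | y.1 ∈ dsc (G.ch i) (G.ch i x) (5 * G.δ)})
      (fun t => D_sub hi (by linarith) (h1 t)) fun t => D_sub hi (by linarith) (h2 _)
  have eb : ∀ i, G.ch i (G.b i) = G.c i + 3 * G.ε := fun i => by
    rw [bs_coe, (G.ch i).right_inv (G.t3 i (by simp [abs_of_pos e0]))]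
  obtain ⟨L, hL⟩ := ex_log ti si.1 (η.source ▸ hη 0)
  obtain ⟨L', hL', c1⟩ := ex_Lg si.1 ti η hη hL
  obtain ⟨L2, hL2⟩ := ex_log (y := inc hj (G.b j)) (ball_tgt hj (r := 5 * G.ε) (by linarith)) sj.1
    (D_sub hj (r := 4 * G.ε) (by linarith) (cds_sub (by linarith) (bs_mem (G.t3 j) e0)))
  have c2 := (lg_cir (G.t3 j) e0 hj (hL2.trans (congrArg (· - _) (eb j)))).chg sj.1 si.1
    (ball_tgt hj (by linarith)) ti ((sub_D hj (r' := 10 * G.ε) (by linarith)).trans
      (dsc_sub.trans ((G.star i j x hi hj).trans (D_sub hi (by linarith)))))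
    (At.d_ne (At.mem_O sj.1 si.1)) (At.has_tr (At.mem_O sj.1 si.1)) hL'
  have c3 := (c1.bpt c2).uniq si.1 ti
    ((lg_cir (G.t3 i) e0 hi (hL.trans (congrArg (· - _) (eb i)))).mono (by linarith))
  have a' := congrArg (FundamentalGroup.map (inc hj) _) ((cw j).symm.trans a)
  rw [map_bpt, map_lp] at a'
  rw [cw i]
  refine (map_bpt _ _ _).trans (Eq.trans ?_ c3)
  rw [a']
  refine Eq.trans (congrArg _ ?_) (bpt_can ((Path.Homotopic.Quotient.mk ωi).map (inc hi))
    ((Path.Homotopic.Quotient.mk ωj).map (inc hj)) _).symm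
  exact (Path.Homotopic.Quotient.map_comp (p := z.toPath) (f := zy hi hi) (g := inc hi)).symm.trans
    (Path.Homotopic.Quotient.map_comp (p := z.toPath) (f := zy hi hj) (g := inc hj))

/-- **Markings in families** -/
theorem exists_tp [T2Space C] [CompactSpace C] [ConnectedSpace C] {A : At C} (ok : Ok A)
    {x₀ : Pc p} (M : Marking g p x₀) : ∃ (T : Tp A g) (i : Fin T.N) (hp : p ∈ T.V i),
      (T.ch i).symm (T.c i) = p ∧ ∃ ω, ∀ w, (T.M ok hp).e w = bpt ω (M.e w) := by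
  classical
  obtain ⟨G, i0, h0⟩ := exists_geo A p
  have hp : p ∈ G.V i0 := h0 ▸ G.ctr_mem i0
  let S : Set C := {x | ∃ y, Nonempty (Marking g x y)}
  have k : ∀ i, ∀ x ∈ G.V i, x ∈ S → G.V i ⊆ S := fun i x hx ⟨_, ⟨M⟩⟩ y hy =>
    let ⟨E, _, a, _⟩ := ex_mk (ok _) (G.t5 i) G.ε0 hx M
    ⟨_, ⟨mkg (ok _) (G.t5 i) G.ε0 E a hy⟩⟩
  have hS : S = univ := IsClopen.eq_univ ⟨⟨isOpen_iff_mem_nhds.2 fun x hx => (G.cov x).elim
    fun i hi => mem_of_superset ((G.V_open i).mem_nhds hi) fun y hy a => hx (k i y hy a hi)⟩,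
    isOpen_iff_mem_nhds.2 fun x hx => (G.cov x).elim fun i hi =>
      mem_of_superset ((G.V_open i).mem_nhds hi) (k i x hi hx)⟩ ⟨p, _, ⟨M⟩⟩
  have : ∀ i, ∃ E : FreeGroup (Fin g × Bool) ≃* FundamentalGroup (G.Y i) (G.b i),
      E (cwd g) = lp (.mk (G.cir i)) ∧ ∀ hp : p ∈ G.V i, ∃ ω, ∀ w,
        incE _ G.ε0 hp (E w) = bpt ω (M.e w) := fun i => by
    by_cases hp : p ∈ G.V i
    · obtain ⟨E, ω, a, b⟩ := ex_mk (ok _) (G.t5 i) G.ε0 hp M
      exact ⟨E, a, fun _ => ⟨ω, b⟩⟩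
    · obtain ⟨_, ⟨M'⟩⟩ := hS.ge (mem_univ ((G.ch i).symm (G.c i)))
      obtain ⟨E, ω, a, -⟩ := ex_mk (ok _) (G.t5 i) G.ε0 (G.ctr_mem i) M'
      exact ⟨E, a, fun h => (hp h).elim⟩
  choose E cw hE using this
  have : ∀ i j, ∃ φ : FreeGroup (Fin g × Bool) ≃* FreeGroup (Fin g × Bool), φ (cwd g) = cwd g ∧
      ∀ x (hi : x ∈ G.V i) (hj : x ∈ G.V j),
      ∃ (ωi : Path (G.b i) (Geo.zy hi hi (G.β i))) (ωj : Path (G.b j) (Geo.zy hi hj (G.β i))),
      (∀ t, (ωi t).1 ∈ G.D i (4 * G.δ)) ∧ (∀ t, (ωj t).1 ∈ G.D i (4 * G.δ)) ∧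
      ∀ w, ∃ z : FundamentalGroup (G.Z i) (G.β i),
        E j w = bpt (.mk ωj) (FundamentalGroup.map (Geo.zy hi hj) _ z) ∧
        E i (φ w) = bpt (.mk ωi) (FundamentalGroup.map (Geo.zy hi hi) _ z) := fun i j => by
    by_cases h : ∃ x, x ∈ G.V i ∧ x ∈ G.V j
    · obtain ⟨x, hi, hj⟩ := h
      obtain ⟨φ, a, b⟩ := Geo.ex_φ hi hj E cw
      exact ⟨φ, a, fun _ _ _ => b⟩
    · exact ⟨.refl _, rfl, fun x hi hj => (h ⟨x, hi, hj⟩).elim⟩
  choose φ fix om using this
  exact ⟨⟨G, E, cw, φ, fix, om⟩, i0, hp, h0, hE i0 hp⟩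

end Vale.Agent.P275RH
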