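import Vale.Agent.P275RH.TpD
import Vale.Agent.P275RH.Wnd

/-!
P275 (helper44): the universal cocycle on the pairs (pole, point).
-/

set_option linter.all false

open scoped Real
open Set Filter Topology unitInterval Metric Complex
open Vale.Agent.P275GC (At)
open Vale.Agent.P275RL (Nd Wd)

noncomputable section

namespace Vale.Agent.P275RH

section uv

variable {Y H : Type} [TopologicalSpace Y] [Group H] {b : Y}

/-- a universal cocycle with all frames -/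
structure Uv (E : H ≃* FundamentalGroup Y b) where
  ι : Type
  U : ι → Set Y
  c : ι → ι → Y → H
  cy : Cy U c
  k0 : ι
  h0 : b ∈ U k0
  rep : ∀ w, cy.rep h0 (E w) = w
  all : ∀ y (ω : PQ b y), ∃ k, y ∈ U k ∧ hol U c ω k0 k = 1

theorem ex_uv [PathConnectedSpace Y] (hL : LD Y) (E : H ≃* FundamentalGroup Y b) :
    Nonempty (Uv E) := by
  haveI := hL.lpc
  obtain ⟨V, -, h1, h2, h3, -⟩ := hL.oc (U := fun _ : Unit => univ)
    ⟨fun _ => isOpen_univ, fun _ => ⟨(), trivial⟩⟩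
  obtain ⟨τ, hτ, e0⟩ := exists_tau' h3 (h2 b)
  have h := (hτ.cy h1).map E.symm.toMonoidHom
  have h' : Cy (fun k : Y × H => V k.1) fun k m y => k.2 * E.symm (uc τ k.1 m.1 y) * m.2⁻¹ :=
    (h.pull (f := .id Y) (r := Prod.fst) ⟨fun k => h1.opn _, fun y => ⟨(y, 1), h2 y⟩⟩
      fun _ _ a => a).gauge (b := fun k _ => k.2) fun _ _ _ => .of_forall fun _ => rfl
  have k : ∀ {x y} (γ : PQ x y) (k m : Y × H), x ∈ V k.1 → y ∈ V m.1 → hol _ _ γ k m =
      m.2 * hol V (fun i j x => E.symm.toMonoidHom (uc τ i j x)) γ k.1 m.1 * k.2⁻¹ :=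
    fun γ k m => h'.hol_eq (T := fun x y γ k m =>
      m.2 * hol V (fun i j x => E.symm.toMonoidHom (uc τ i j x)) γ k.1 m.1 * k.2⁻¹)
      (fun x y z γ δ i j k _ hj _ => by rw [h.hol_trans hj]; group)
      (fun x y γ i j k hγ hi hk => by
        rw [h.hol_loc γ hγ hi hk]; simp only [MulEquiv.coe_toMonoidHom]; group) γ
  refine ⟨⟨_, _, _, h', (b, 1), h2 b, fun w => (k _ _ _ (h2 b) (h2 b)).trans ?_, fun y ω =>
    ⟨(y, (hol V (fun i j x => E.symm.toMonoidHom (uc τ i j x)) ω b y)⁻¹), h2 y,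
      (k _ _ _ (h2 b) (h2 y)).trans (by simp)⟩⟩⟩
  rw [one_mul, inv_one, mul_one]
  exact (DFunLike.congr_fun (hτ.rep_map h1 (h2 b) e0 E.symm.toMonoidHom) _).trans
    (E.symm_apply_apply w)

end uv

section ret

variable {X : Type} [TopologicalSpace X] [T2Space X] {e : OpenPartialHomeomorph X ℂ} {c : ℂ} {r : ℝ}
  {x : X} (h : closedBall c (3 * r) ⊆ e.target) (hx : x ∈ dsc e c r)

/-- the retraction of the fibre -/
def rt : C(↥({x}ᶜ : Set X), ↥(cds e c r)ᶜ) := (ret h).comp (fib hx)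

theorem rt_inc {a : ↥(cds e c r)ᶜ} (ha : a.1 ∉ dsc e c (3 * r)) : rt h hx (inc hx a) = a :=
  Subtype.ext (ret_far h _ ha)

include h hx in
theorem pc_cds [PathConnectedSpace ↥({x}ᶜ : Set X)] : PathConnectedSpace ↥(cds e c r)ᶜ := by
  have r0 := r_pos' h hx
  have k : ∀ s : I, s * (2 * r) ≤ 2 * r := fun s => mul_le_of_le_one_left (by linarith) s.2.2
  have j : ∀ a : ↥(cds e c r)ᶜ, Joined a (rt h hx (inc hx a)) := fun a =>
    ⟨⟨⟨fun s => ⟨push e (s * (2 * r)) x a, push_compl h hx (k _) a.2⟩,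
      (cont_push h (by fun_prop) continuous_const continuous_const k (fun _ => hx)
        fun _ => sub_pc hx a.2).subtype_mk _⟩, Subtype.ext (by simp [push_zero]),
      Subtype.ext (by simp; rfl)⟩⟩
  exact ⟨(PathConnectedSpace.nonempty).map (rt h hx), fun a b => (j a).trans
    (Joined.trans ⟨(PathConnectedSpace.somePath _ _).map (rt h hx).continuous⟩ (j b).symm)⟩

theorem hol_rt {ι H : Type} [Group H] {U : ι → Set ↥(cds e c r)ᶜ} {f : ι → ι → ↥(cds e c r)ᶜ → H}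
    {a b : ↥(cds e c r)ᶜ} (ha : a.1 ∉ dsc e c (3 * r)) (hb : b.1 ∉ dsc e c (3 * r)) (η : PQ a b)
    (k m : ι) : hol U f ((η.map (inc hx)).map (rt h hx)) k m = hol U f η k m := by
  obtain ⟨η, rfl⟩ := Path.Homotopic.Quotient.mk_surjective η
  have r0 := r_pos' h hx
  have k' : ∀ s : I, s * (2 * r) ≤ 2 * r := fun s => mul_le_of_le_one_left (by linarith) s.2.2
  let η' := ((η.map (inc hx).continuous).map (rt h hx).continuous).cast (rt_inc h hx ha).symm
    (rt_inc h hx hb).symm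
  exact (hol_path_congr (c := f) (γ := (η.map (inc hx).continuous).map (rt h hx).continuous)
    (γ' := η') (fun _ => rfl) _ _).trans (congrArg (hol U f · k m) (htp_fix
    (fun q => ⟨push e (q.1 * (2 * r)) x (η q.2), push_compl h hx (k' _) (η q.2).2⟩)
    ((cont_push h (by fun_prop) continuous_const (by fun_prop) (fun q => k' _) (fun _ => hx)
      fun q : I × I => sub_pc hx (η q.2).2).subtype_mk _) η η'
    (fun t => Subtype.ext (by simp [push_zero])) (fun t => Subtype.ext (by simp; rfl))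
    (fun s => Subtype.ext (by simp [push_far h hx (k' s) ha]))
    fun s => Subtype.ext (by simp [push_far h hx (k' s) hb])).symm)

end ret

namespace Geo

variable {C : Type} [TopologicalSpace C] [ChartedSpace ℂ C] {A : At C} {G : Geo A} {i : Fin G.N}
  {x : C}

theorem nrm_lt (q : Nd (G.V i) (5 * G.δ)) : ‖cexp q.1.2‖ < 5 * G.δ := by
  rw [norm_exp, ← Real.lt_log_iff_exp_lt (by linarith [G.δ0])]
  exact q.2.2

theorem tg5 (hi : x ∈ G.V i) : ball (G.ch i x) (5 * G.δ) ⊆ (G.ch i).target :=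
  ball_tgt hi (by linarith [G.δ0])

/-- a point of the space of logarithms -/
def nd (hi : x ∈ G.V i) {L : ℂ} (h : ‖cexp L‖ < 5 * G.δ) : Nd (G.V i) (5 * G.δ) :=
  ⟨(x, L), hi, by rwa [norm_exp, ← Real.lt_log_iff_exp_lt (by linarith [G.δ0])] at h⟩

variable (G i)

/-- the tangential base point -/
def ν : C(Nd (G.V i) (5 * G.δ), Wd (G.V i)) :=
  ⟨fun q => ⟨(q.1.1, (G.ch i).symm (G.ch i q.1.1 + cexp q.1.2)), q.2.1,
    el_ne (V_spec q.2.1).1 (tg5 q.2.1) (nrm_lt q)⟩, Continuous.subtype_mk (Continuous.prodMk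
      (by fun_prop) ((G.ch i).continuousOn_symm.comp_continuous (((G.ch i).continuousOn.comp_continuous
        (by fun_prop) fun q => (V_spec q.2.1).1).add (by fun_prop))
      fun q => tg5 q.2.1 (by simpa using nrm_lt q))) _⟩

theorem ν_T (q : Nd (G.V i) (5 * G.δ)) : G.ν i q.T = G.ν i q :=
  Subtype.ext (by simp [ν, Nd.T, Complex.exp_add])

/-- the space of logarithms is a convex set -/
def ndH : (ball (G.c i) G.ε ×ˢ {L : ℂ | L.re < Real.log (5 * G.δ)} : Set (ℂ × ℂ)) ≃ₜ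
    Nd (G.V i) (5 * G.δ) where
  toFun q := ⟨((G.ch i).symm q.1.1, q.1.2), ⟨_, q.2.1, rfl⟩, q.2.2⟩
  invFun q := ⟨(G.ch i q.1.1, q.1.2), mem_ball_iff_norm.2 (V_spec q.2.1).2, q.2.2⟩
  left_inv q := Subtype.ext (Prod.ext ((G.ch i).right_inv (G.t3 i (closedBall_subset_closedBall
    (by linarith [G.ε0]) (ball_subset_closedBall q.2.1)))) rfl)
  right_inv q := Subtype.ext (Prod.ext ((G.ch i).left_inv (V_spec q.2.1).1) rfl)
  continuous_toFun := Continuous.subtype_mk (Continuous.prodMk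
    ((G.ch i).continuousOn_symm.comp_continuous (by fun_prop) fun q => G.t3 i
      (closedBall_subset_closedBall (by linarith [G.ε0]) (ball_subset_closedBall q.2.1)))
    (by fun_prop)) _
  continuous_invFun := Continuous.subtype_mk (Continuous.prodMk
    ((G.ch i).continuousOn.comp_continuous (by fun_prop) fun q => (V_spec q.2.1).1) (by fun_prop)) _

theorem nd_cv : Convex ℝ (ball (G.c i) G.ε ×ˢ {L : ℂ | L.re < Real.log (5 * G.δ)} : Set (ℂ × ℂ)) :=
  (convex_ball _ _).prod (convex_halfSpace_re_lt _)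

theorem nd_ct : ContractibleSpace (Nd (G.V i) (5 * G.δ)) :=
  haveI := (G.nd_cv i).contractibleSpace ⟨(_, (Real.log (5 * G.δ) - 1 : ℝ)), mem_ball_self G.ε0, by simp⟩
  (G.ndH i).symm.contractibleSpace

theorem nd_lpc : LocallyPathConnectedSpace (Nd (G.V i) (5 * G.δ)) :=
  haveI := (G.nd_cv i).locallyPathConnectedSpace
  (G.ndH i).symm.isOpenEmbedding.locallyPathConnectedSpace

variable {G i} [T2Space C] {H : Type} [Group H] {E : H ≃* FundamentalGroup (G.Y i) (G.b i)}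
  (Q : Uv E) (hi : x ∈ G.V i)

theorem cyW : Cy (fun k => ret (G.t3 i) ⁻¹' Q.U k) fun k m q => Q.c k m (ret (G.t3 i) q) :=
  Q.cy.pull (r := id) (Q.cy.toOc.pre _) fun _ _ a => a

theorem cyF : Cy (fun k => rt (G.t3 i) hi ⁻¹' Q.U k) fun k m y => Q.c k m (rt (G.t3 i) hi y) :=
  Q.cy.pull (r := id) (Q.cy.toOc.pre _) fun _ _ a => a

/-- the holonomy in the fibre -/
abbrev hF {y y' : ↥({x}ᶜ : Set C)} (γ : PQ y y') (k m : Q.ι) : H :=
  hol (fun k => rt (G.t3 i) hi ⁻¹' Q.U k) (fun k m y => Q.c k m (rt (G.t3 i) hi y)) γ k m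

theorem hF_eq {y y' : ↥({x}ᶜ : Set C)} (γ : PQ y y') {k m : Q.ι} (hk : rt (G.t3 i) hi y ∈ Q.U k)
    (hm : rt (G.t3 i) hi y' ∈ Q.U m) : hF Q hi γ k m = hol Q.U Q.c (γ.map (rt (G.t3 i) hi)) k m :=
  Q.cy.hol_pull (r := id) (Q.cy.toOc.pre _) (fun _ _ a => a) γ hk hm

theorem mem_F {a : G.Y i} (ha : a.1 ∉ G.D i (3 * G.ε)) {k : Q.ι} (hk : a ∈ Q.U k) :
    rt (G.t3 i) hi (inc hi a) ∈ Q.U k := (rt_inc _ hi ha).symm ▸ hk

theorem hF_inc {a b : G.Y i} (ha : a.1 ∉ G.D i (3 * G.ε)) (hb : b.1 ∉ G.D i (3 * G.ε)) (η : PQ a b)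
    {k m : Q.ι} (hk : a ∈ Q.U k) (hm : b ∈ Q.U m) :
    hF Q hi (η.map (inc hi)) k m = hol Q.U Q.c η k m :=
  (hF_eq Q hi _ (mem_F Q hi ha hk) (mem_F Q hi hb hm)).trans (hol_rt _ hi ha hb η k m)

theorem mem_0 : rt (G.t3 i) hi (inc hi (G.b i)) ∈ Q.U Q.k0 := mem_F Q hi (bs_far _ _) Q.h0

theorem rep_inc (w : H) :
    (cyF Q hi).rep (mem_0 Q hi) (FundamentalGroup.map (inc hi) _ (E w)) = w :=
  (hF_inc Q hi (bs_far _ _) (bs_far _ _) _ Q.h0 Q.h0).trans (Q.rep w)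

theorem ex_w (γ : FundamentalGroup _ (inc hi (G.b i))) :
    ∃ w, γ = FundamentalGroup.map (inc hi) _ (E w) :=
  let ⟨a, h⟩ := (bij_inc (G.t3 i) hi (G.b i) (bs_far _ _)).2 γ
  ⟨E.symm a, by rw [E.apply_symm_apply, h]⟩

theorem rep_bij [PathConnectedSpace ↥({x}ᶜ : Set C)] {y : ↥({x}ᶜ : Set C)} {k : Q.ι}
    (hk : rt (G.t3 i) hi y ∈ Q.U k) : Function.Bijective ((cyF Q hi).rep hk) := by
  let ω : PQ (inc hi (G.b i)) y := .mk (PathConnectedSpace.somePath _ _)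
  have h0 : Function.Bijective ((cyF Q hi).rep (mem_0 Q hi)) :=
    ⟨fun a b e => by
      obtain ⟨w, rfl⟩ := ex_w (E := E) hi a
      obtain ⟨w', rfl⟩ := ex_w (E := E) hi b
      rw [rep_inc, rep_inc] at e
      rw [e], fun w => ⟨_, rep_inc Q hi w⟩⟩
  refine (congrArg Function.Bijective (funext fun γ => ?_)).mp
    (((MulAut.conj (hF Q hi ω Q.k0 k)).bijective.comp h0).comp (bpt ω).bijective)
  simp only [Function.comp, (cyF Q hi).rep_bpt _ hk, MulAut.conj_apply]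
  group

theorem all_F {y : ↥({x}ᶜ : Set C)} (ω : PQ (inc hi (G.b i)) y) :
    ∃ k, rt (G.t3 i) hi y ∈ Q.U k ∧ hF Q hi ω Q.k0 k = 1 := by
  have e := rt_inc (G.t3 i) hi (a := G.b i) (bs_far _ _)
  obtain ⟨k, a, b⟩ := Q.all _ ((ω.map (rt (G.t3 i) hi)).cast e.symm rfl)
  refine ⟨k, a, (hF_eq Q hi ω (mem_0 Q hi) a).trans (Eq.trans ?_ b)⟩
  obtain ⟨ω, rfl⟩ := Path.Homotopic.Quotient.mk_surjective ω
  exact hol_path_congr (c := Q.c) (γ := ω.map (rt (G.t3 i) hi).continuous)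
    (γ' := (ω.map (rt (G.t3 i) hi).continuous).cast e.symm rfl) (fun _ => rfl) _ _

variable {Q hi} {b : Q.ι → Nd (G.V i) (5 * G.δ) → H}

/-- flat sections over the space of logarithms are given by the holonomy -/
theorem fs_lg (hb : Fs (fun k => G.ν i ⁻¹' (ret (G.t3 i) ⁻¹' Q.U k))
      (fun k m q => Q.c k m (ret (G.t3 i) (G.ν i q))) b) {y y' : ↥({x}ᶜ : Set C)} {ξ : PQ y y'}
    {L L' : ℂ} (h : Lg (G.ch i) x (5 * G.δ) ξ L L') {k m : Q.ι} (hk : rt (G.t3 i) hi y ∈ Q.U k)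
    (hm : rt (G.t3 i) hi y' ∈ Q.U m) :
    b m (nd hi h.symm.src.1) = hF Q hi ξ k m * b k (nd hi h.src.1) := by
  obtain ⟨γ, l, rfl, a⟩ := id h
  let δ : Path (nd hi h.src.1) (nd hi h.symm.src.1) :=
    ⟨⟨fun t => nd hi (a t).1, (continuous_const.prodMk l.continuous).subtype_mk _⟩,
      Subtype.ext (Prod.ext rfl l.source), Subtype.ext (Prod.ext rfl l.target)⟩
  have e : ∀ t, G.ν i (δ t) = fib hi (γ t) := fun t => Subtype.ext (Prod.ext rfl (a t).2.symm)
  let f := (ret (G.t3 i)).comp (G.ν i)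
  have k0 : f (nd hi h.src.1) ∈ Q.U k := by
    rw [← δ.source, ContinuousMap.comp_apply, e, γ.source]; exact hk
  have k1 : f (nd hi h.symm.src.1) ∈ Q.U m := by
    rw [← δ.target, ContinuousMap.comp_apply, e, γ.target]; exact hm
  rw [← hb.hol (Q.cy.pull (f := f) (r := id) (Q.cy.toOc.pre f) fun _ _ a => a) (.mk δ) k0 k1,
    hF_eq Q hi _ hk hm]
  exact congrArg (· * _) ((Q.cy.hol_pull (f := f) (r := id) (Q.cy.toOc.pre f) (fun _ _ a => a) _
    k0 k1).trans (hol_path_congr (γ := δ.map f.continuous)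
      (γ' := γ.map (rt (G.t3 i) hi).continuous) (fun t => congrArg (ret (G.t3 i)) (e t)) _ _))

theorem ex_L0 : ∃ L : C → ℂ, ContinuousOn L (G.V i) ∧
    ∀ x ∈ G.V i, cexp (L x) = G.c i + 3 * G.ε - G.ch i x := by
  have e0 : (3 * G.ε : ℂ) ≠ 0 := by simpa using G.ε0.ne'
  have s : ∀ x ∈ G.V i, 1 + (G.c i - G.ch i x) / (3 * G.ε) ∈ slitPlane := fun x hx =>
    mem_slitPlane_of_norm_lt_one (by
      rw [norm_div, div_lt_one (norm_pos_iff.2 e0), norm_sub_rev,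
        show ‖(3 * G.ε : ℂ)‖ = 3 * G.ε by simp [G.ε0.le]]
      linarith [(V_spec hx).2, G.ε0])
  refine ⟨fun x => log (3 * G.ε) + log (1 + (G.c i - G.ch i x) / (3 * G.ε)),
    continuousOn_const.add (ContinuousOn.clog (continuousOn_const.add ((continuousOn_const.sub
      ((G.ch i).continuousOn.mono fun x hx => (V_spec hx).1)).div_const _)) s), fun x hx => ?_⟩
  rw [Complex.exp_add, exp_log e0, exp_log (slitPlane_ne_zero (s x hx)), mul_add, mul_one,
    mul_div_cancel₀ _ e0]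
  ring

variable (Q)

/-- the trivialisation at the tangential base point -/
theorem ex_b {w : H} (hw : E w = lp (.mk (G.cir i))) : ∃ b : Q.ι → Nd (G.V i) (5 * G.δ) → H,
    Fs (fun k => G.ν i ⁻¹' (ret (G.t3 i) ⁻¹' Q.U k))
      (fun k m q => Q.c k m (ret (G.t3 i) (G.ν i q))) b ∧
    (∀ k q, G.ν i q ∈ ret (G.t3 i) ⁻¹' Q.U k → b k q.T = b k q * w) ∧
    ∀ x (hi : x ∈ G.V i), ∃ (L : ℂ) (h : ‖cexp L‖ < 5 * G.δ),
      cexp L = G.c i + 3 * G.ε - G.ch i x ∧ b Q.k0 (nd hi h) = 1 := by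
  haveI := G.nd_ct i
  haveI := G.nd_lpc i
  obtain ⟨L, h1, h2⟩ := ex_L0 (G := G) (i := i)
  have e0 := G.ε0
  have e1 := G.εδ
  have g := fun x (hx : x ∈ G.V i) => (lg_cir (G.t3 i) e0 hx (h2 x hx)).mono
    (show 4 * G.ε ≤ 5 * G.δ by linarith)
  have m : ∀ x (hx : x ∈ G.V i), G.ν i (nd hx (g x hx).src.1) ∈ ret (G.t3 i) ⁻¹' Q.U Q.k0 :=
    fun x hx => by
      rw [show G.ν i (nd hx (g x hx).src.1) = fib hx (inc hx (G.b i)) from
        Subtype.ext (Prod.ext rfl (g x hx).src.2.symm)]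
      exact mem_0 Q hx
  have hc := (cyW Q).pull (r := id) ((cyW Q).toOc.pre (G.ν i)) fun _ _ a => a
  obtain ⟨b, b1, b2⟩ := hc.exists_fs (m _ (G.ctr_mem i)) (m := (1 : H)) fun γ => by
    rw [Subsingleton.elim γ 1, map_one, one_smul]
  have cT : Continuous (Nd.T (V := G.V i) (δ := 5 * G.δ)) := by
    unfold Nd.T
    fun_prop
  refine ⟨b, b1, fun k q hq => Fs.ext (s := fun k q => b k q.T) (s' := fun k q => b k q * w)
    ⟨fun k q hq => cT.continuousAt.eventually (b1.lc k q.T (by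
      rwa [mem_preimage, G.ν_T])), fun k m q a a' => ?_⟩
    ⟨fun k q hq => (b1.lc k q hq).mono fun _ e => congrArg (· * w) e, fun k m q a a' => by
      rw [b1.tr k m q a a', smul_eq_mul, smul_eq_mul, mul_assoc]⟩ hc (m _ (G.ctr_mem i)) ?_ hq,
    fun x hx => ⟨_, (g x hx).src.1, h2 x hx, ?_⟩⟩
  · have := b1.tr k m q.T (by rwa [mem_preimage, G.ν_T]) (by rwa [mem_preimage, G.ν_T])
    rwa [G.ν_T] at this
  · refine (fs_lg b1 (g _ (G.ctr_mem i)) (mem_0 Q _) (mem_0 Q _)).trans ?_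
    beta_reduce
    rw [b2, mul_one, one_mul]
    exact (congrArg (fun γ => (cyF Q _).rep (mem_0 Q _) (FundamentalGroup.map (inc _) _ γ))
      hw.symm).trans (rep_inc Q _ w)
  · obtain ⟨γ, hγ⟩ := (G.V_conn i).joinedIn _ (G.ctr_mem i) x hx
    let δ : Path (nd (G.ctr_mem i) (g _ (G.ctr_mem i)).src.1) (nd hx (g x hx).src.1) :=
      ⟨⟨fun t => nd (hγ t) (g _ (hγ t)).src.1,
        (γ.continuous.prodMk (h1.comp_continuous γ.continuous hγ)).subtype_mk _⟩,
        Subtype.ext (Prod.ext γ.source (congrArg L γ.source)),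
        Subtype.ext (Prod.ext γ.target (congrArg L γ.target))⟩
    exact ((b1.lc _).path δ fun t => m _ (hγ t)).trans b2

end Geo

end Vale.Agent.P275RH
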