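import Vale.Agent.P275RH.Top
import Vale.Agent.P275RL.Rd

/-!
P275 (helper44): the scalar part of the local topological data.
-/

set_option linter.all false

open scoped Real
open Set Metric Complex
open Vale.Agent.P275GC (At)
open Vale.Agent.P275NA (Fm)
open Vale.Agent.P275MO (off)
open Vale.Agent.P275ST
open Vale.Agent.P275Z
open Vale.Agent.P275RL (Nd)

noncomputable section

namespace Vale.Agent.P275RH

/-- trivialisations of `l` off the points of a small disc which are equal to `u0` far from the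
disc, and a root near the pole -/
structure Sca {C : Type} [TopologicalSpace C] {A : At C} (l : P275NA.Cy A ℂ) (n : ℕ) (d : ℤ)
    (G : Geo A) (i : Fin G.N) (u0 : Fm A ℂ) where
  u : C → Fm A ℂ
  uc : ∀ j, ContinuousOn (fun p : C × ℂ => u p.1 j p.2) {p | p.1 ∈ G.V i ∧ p.2 ∈ off A p.1 j}
  un : ∀ x ∈ G.V i, ∀ j, ∀ w ∈ off A x j, u x j w ≠ 0
  ul : ∀ x ∈ G.V i, ∀ j k, ∀ w ∈ A.O j k, (A.e j).symm w ≠ x →
    u x j w = l j k w * u x k (A.tr j k w)
  ctr : ∀ j, ∀ w ∈ off A ((G.ch i).symm (G.c i)) j, u ((G.ch i).symm (G.c i)) j w = u0 j w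
  far : ∀ x ∈ G.V i, ∀ j, ∀ w ∈ ball (0 : ℂ) A.R, (A.e j).symm w ∉ G.D i (3 * G.ε) →
    u x j w = u0 j w
  s : Nd (G.V i) (5 * G.δ) → ℂ
  sc : Continuous s
  sp : ∀ q, s q ^ n = u q.1.1 (G.k i) (G.ch i q.1.1 + exp q.1.2)
  sT : ∀ q, s q.T = zeta n d * s q

/-- existence of the scalar data -/
def SCA : Prop := ∀ (S : Sit) (T : S.Atl) (G : Geo T.A) (i : Fin G.N)
  (x₀ : Pc ((G.ch i).symm (G.c i))) (_ : Marking S.g _ x₀) (ℓ : S.C → ℂ),
  IsTriv S.D ((G.ch i).symm (G.c i)) ℓ →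
    Nonempty (Sca T.l S.n (deg S.D) G i (trv T.A T.s ℓ))

end Vale.Agent.P275RH
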