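import Vale.Agent.P275RH.Tp1
import Vale.Agent.P275RF.Top
import Vale.Agent.P275AD.Trv

/-!
P275 (helper44): the topological input of the Riemann-Hilbert correspondence in families.
-/

set_option linter.all false

open scoped Real
open Set Filter Topology unitInterval Metric Complex
open Vale.Agent.P275GC (At)
open Vale.Agent.P275NA (Fm)
open Vale.Agent.P275MO (off)
open Vale.Agent.P275ST
open Vale.Agent.P275Z
open Vale.Agent.P275RL (Nd Wd Loc Tr Fg TOPF)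

noncomputable section

namespace Vale.Agent.P275RH

section one

variable {X ι G : Type} [TopologicalSpace X] [Group G] {U : ι → Set X} {c : ι → ι → X → G}
  {x y z : X} {i j : ι} (h : Cy U c) (hi : x ∈ U i) (hj : y ∈ U j) {ω : PQ x y}
  (e : hol U c ω i j = 1)
include h hj e

theorem Cy.rep_one (γ : FundamentalGroup X y) : h.rep hi (bpt ω γ) = h.rep hj γ := by
  rw [h.rep_bpt hi hj, e, inv_one, one_mul, mul_one]

theorem Cy.hol_one (η : PQ y z) (k : ι) : hol U c (ω.trans η) i k = hol U c η j k := by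
  rw [h.hol_trans hj, e, mul_one]

include hi in
theorem Cy.hol_one' (η : PQ x z) (k : ι) : hol U c (ω.symm.trans η) j k = hol U c η i k := by
  rw [h.hol_trans hi, h.hol_symm _ hi hj, e, inv_one, mul_one]

end one

variable {C : Type} [TopologicalSpace C] {A : At C} {l : P275NA.Cy A ℂ} {g n : ℕ} {d : ℤ} {x : C}

theorem mem_off (y : Pc x) {j : Fin A.N} (h : y.1 ∈ (A.e j).source) : A.e j y ∈ off A x j :=
  ⟨At.map_src h, ((A.e j).left_inv h).symm ▸ y.2⟩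

/-- the quotient of two trivialisations -/
theorem ex_rat (P Q : Loc A l g n d) (hP : x ∈ P.V) (hQ : x ∈ Q.V) :
    ∃ r : C(Pc x, ℂ), (∀ y, r y ≠ 0) ∧ ∀ (y : Pc x) j, y.1 ∈ (A.e j).source →
      r y * P.u x j (A.e j y) = Q.u x j (A.e j y) := by
  choose k hk _ using A.cov
  have e : ∀ (y : Pc x) j j', y.1 ∈ (A.e j).source → y.1 ∈ (A.e j').source →
      Q.u x j (A.e j y) / P.u x j (A.e j y) = Q.u x j' (A.e j' y) / P.u x j' (A.e j' y) :=
    fun y j j' a b => by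
      have p := P.ul x hP j j' _ (At.mem_O a b) (mem_off y a).2
      have := P.un x hP j _ (mem_off y a)
      rw [p] at this
      rw [p, Q.ul x hQ j j' _ (At.mem_O a b) (mem_off y a).2, At.tr_e a,
        mul_div_mul_left _ _ (left_ne_zero_of_mul this)]
  have c : ∀ (P : Loc A l g n d), x ∈ P.V → ∀ j, ContinuousOn (fun y : Pc x => P.u x j (A.e j y))
      {y | y.1 ∈ (A.e j).source} := fun P hP j =>
    (P.uc j).comp (f := fun y : Pc x => (x, A.e j y)) (continuousOn_const.prodMk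
      ((A.e j).continuousOn.comp continuous_subtype_val.continuousOn fun _ a => a))
      fun y a => ⟨hP, mem_off y a⟩
  refine ⟨⟨fun y => Q.u x (k y) (A.e (k y) y) / P.u x (k y) (A.e (k y) y),
    continuous_iff_continuousAt.2 fun y => ?_⟩, fun y => div_ne_zero
      (Q.un x hQ _ _ (mem_off y (hk _))) (P.un x hP _ _ (mem_off y (hk _))), fun y j a => ?_⟩
  · have m : {z : Pc x | z.1 ∈ (A.e (k y)).source} ∈ 𝓝 y :=
      ((A.e _).open_source.preimage continuous_subtype_val).mem_nhds (hk _)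
    exact ((((c Q hQ _).div (c P hP _) fun z a => P.un x hP _ _ (mem_off z a))).continuousAt m).congr
      (mem_of_superset m fun z a => e z _ _ a (hk _))
  · exact (congrArg (· * _) (e y _ j (hk _) a)).trans
      (div_mul_cancel₀ _ (P.un x hP _ _ (mem_off y a)))

variable [ChartedSpace ℂ C] [T2Space C] [ConnectedSpace C]

/-- all the data over one disc -/
structure Pk (T : Tp A g) (l : P275NA.Cy A ℂ) (n : ℕ) (d : ℤ) (i : Fin T.N) (u0 : Fm A ℂ) where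
  Q : Uv (T.E i)
  b : Q.ι → Nd (T.V i) (5 * T.δ) → Fg g
  fs : Fs (fun k => T.ν i ⁻¹' (ret (T.t3 i) ⁻¹' Q.U k))
    (fun k m q => Q.c k m (ret (T.t3 i) (T.ν i q))) b
  per : ∀ k q, T.ν i q ∈ ret (T.t3 i) ⁻¹' Q.U k → b k q.T = b k q * cwd g
  b0 : ∀ x (hi : x ∈ T.V i), ∃ (L : ℂ) (h : ‖cexp L‖ < 5 * T.δ),
    cexp L = T.c i + 3 * T.ε - T.ch i x ∧ b Q.k0 (Geo.nd hi h) = 1
  S : Sca l n d T.toGeo i u0

variable {T : Tp A g} {i j : Fin T.N} {u0 u1 : Fm A ℂ}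

theorem ex_pk (S : Sca l n d T.toGeo i u0) : Nonempty (Pk T l n d i u0) := by
  haveI := pc_pc ((T.ch i).symm (T.c i))
  haveI := pc_cds (T.t3 i) (T.ctr_mem i)
  obtain ⟨Q⟩ := ex_uv ((ld_chart C).sub (cds_compact (cds_tgt (T.t3 i)
    (T.ctr_mem i))).isClosed.isOpen_compl) (T.E i)
  obtain ⟨b, h1, h2, h3⟩ := Geo.ex_b Q (T.cw i)
  exact ⟨⟨Q, b, h1, h2, h3, S⟩⟩

namespace Pk

variable (P : Pk T l n d i u0) (Q : Pk T l n d j u1)

/-- the local data -/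
def loc : Loc A l g n d where
  V := T.V i
  opn := T.V_open i
  a := T.k i
  δ := 5 * T.δ
  hδ := by linarith [T.δ0]
  sub x hx := ⟨(Geo.V_spec hx).1, by
    linarith [(Geo.V_spec hx).2, T.big i, T.εδ, T.ε0, norm_sub_norm_le (T.ch i x) (T.c i)]⟩
  ι := P.Q.ι
  U k := ret (T.t3 i) ⁻¹' P.Q.U k
  c k m q := P.Q.c k m (ret (T.t3 i) q)
  cy := Geo.cyW P.Q
  univ x hx _ _ hk := haveI := pc_pc x; Geo.rep_bij P.Q hx hk
  ν := T.ν i
  ν_eq _ := rfl
  b := P.b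
  fs := P.fs
  per := P.per
  u := P.S.u
  uc := P.S.uc
  un := P.S.un
  ul := P.S.ul
  s := P.S.s
  sc := P.S.sc
  sp := P.S.sp
  sT := P.S.sT

theorem ex_ch : ∃ κ : Fg g →* Multiplicative ℂ, (∀ w, cexp (κ w).toAdd = 1) ∧
    ∀ x (hi : x ∈ T.V i) (hj : x ∈ T.V j) (r : C(Pc x, ℂ)) (h : ∀ y, r y ≠ 0),
      (∀ (y : Pc x) k, y.1 ∈ (A.e k).source → r y * P.S.u x k (A.e k y) = Q.S.u x k (A.e k y)) →
      ∀ w, κ w = wnd h _ (FundamentalGroup.map (inc hj) _ (T.E j w)) := by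
  by_cases a : ∃ x, x ∈ T.V i ∧ x ∈ T.V j
  swap
  · exact ⟨1, fun _ => Complex.exp_zero, fun x hi hj => (a ⟨x, hi, hj⟩).elim⟩
  obtain ⟨x', hi', hj'⟩ := a
  obtain ⟨r', h', e'⟩ := ex_rat P.loc Q.loc hi' hj'
  refine ⟨(wnd h' _).comp ((FundamentalGroup.map (inc hj') _).comp (T.E j).toMonoidHom),
    fun w => exp_wnd h' _, fun x hi hj r h e w => ?_⟩
  obtain ⟨_, ω, -, -, hw⟩ := T.om i j x hi hj
  obtain ⟨z, a, -⟩ := hw w
  show wnd h' _ (FundamentalGroup.map (inc hj') _ (T.E j w)) = _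
  rw [a, map_bpt, map_bpt, wnd_bpt, wnd_bpt,
    wnd_map (r := r'.comp (inc hj')) (fun _ => h' _) h' (inc hj') fun _ => rfl,
    wnd_map (r := r.comp (inc hj)) (fun _ => h _) h (inc hj) fun _ => rfl,
    wnd_map (r := (r.comp (inc hj)).comp (Geo.zy hi hj)) (r' := r.comp (inc hj)) (fun _ => h _) _ _
      fun _ => rfl]
  refine wnd_map _ _ _ (fun y => ?_) _
  obtain ⟨k, hk, -⟩ := A.cov y
  have e0 := (A.e k).left_inv hk
  have f1 : (A.e k).symm (A.e k y) ∉ T.D i (3 * T.ε) := fun a =>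
    y.2 (e0 ▸ dsc_sub (Geo.D3 hi hi (dsc_sub a)))
  have f2 : (A.e k).symm (A.e k y) ∉ T.D j (3 * T.ε) := fun a =>
    y.2 (e0 ▸ dsc_sub (Geo.D3 hi hj (dsc_sub a)))
  have p := P.S.far x hi k _ (At.map_src hk) f1
  have k1 := (e' (inc hj' (Geo.zy hi hj y)) k hk).trans (Q.S.far x' hj' k _ (At.map_src hk) f2)
  have k2 := (e (inc hj (Geo.zy hi hj y)) k hk).trans (Q.S.far x hj k _ (At.map_src hk) f2)
  exact mul_right_cancel₀ (P.S.un x hi k _ (mem_off (inc hj (Geo.zy hi hj y)) hk))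
    (((congrArg (_ * ·) (p.trans (P.S.far x' hi' k _ (At.map_src hk) f1).symm)).trans k1).trans
      k2.symm)

theorem ex_be (hi : x ∈ T.V i) (hj : x ∈ T.V j) : ∃ β : P.Q.ι → Q.Q.ι → Pc x → Fg g,
    (∀ k m, Lc (rt (T.t3 i) hi ⁻¹' P.Q.U k ∩ rt (T.t3 j) hj ⁻¹' Q.Q.U m) (β k m)) ∧
    (∀ k k' m y, rt (T.t3 i) hi y ∈ P.Q.U k → rt (T.t3 i) hi y ∈ P.Q.U k' →
      β k m y = P.Q.c k k' (rt (T.t3 i) hi y) * β k' m y) ∧
    (∀ k m m' y, rt (T.t3 j) hj y ∈ Q.Q.U m → rt (T.t3 j) hj y ∈ Q.Q.U m' →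
      β k m' y = β k m y * T.φ i j (Q.Q.c m m' (rt (T.t3 j) hj y))) ∧
    ∀ k m (y : Pc x) (ω : Path (inc hj (T.b j)) y), rt (T.t3 i) hi y ∈ P.Q.U k →
      rt (T.t3 j) hj y ∈ Q.Q.U m → (∀ t, (ω t).1 ∈ T.D i (4 * T.δ)) →
      ∃ ζ : Path (inc hi (T.b i)) y, (∀ t, (ζ t).1 ∈ T.D i (4 * T.δ)) ∧
        β k m y * T.φ i j (Geo.hF Q.Q hj (.mk ω) Q.Q.k0 m) = Geo.hF P.Q hi (.mk ζ) P.Q.k0 k := by
  haveI := pc_pc x
  haveI := lpc_pc x
  obtain ⟨ωi, ωj, h1, h2, hw⟩ := T.om i j x hi hj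
  obtain ⟨ki, a1, a2⟩ := Geo.all_F P.Q hi ((Path.Homotopic.Quotient.mk ωi).map (inc hi))
  obtain ⟨kj, b1, b2⟩ := Geo.all_F Q.Q hj ((Path.Homotopic.Quotient.mk ωj).map (inc hj))
  have cP := Geo.cyF P.Q hi
  have cQ := Geo.cyF Q.Q hj
  obtain ⟨β, c1, c2, c3, c4⟩ := cP.ex_iso (cQ.map (T.φ i j).toMonoidHom) a1 b1 (a := 1) fun γ => by
    obtain ⟨w, e⟩ := Geo.ex_w (E := T.E j) hj
      (bpt ((Path.Homotopic.Quotient.mk ωj).map (inc hj)) γ)
    obtain ⟨z, p, q⟩ := hw w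
    have k1 := (cQ.rep_one (Geo.mem_0 Q.Q hj) b1 b2 γ).symm.trans
      ((congrArg _ e).trans (Geo.rep_inc Q.Q hj w))
    rw [p, map_bpt] at e
    rw [mul_one, one_mul, ← cP.rep_one (Geo.mem_0 P.Q hi) a1 a2]
    refine Eq.trans ?_ ((cQ.hol_map (T.φ i j).toMonoidHom _ b1 b1).trans
      (congrArg (T.φ i j) k1)).symm
    rw [← Geo.rep_inc P.Q hi (T.φ i j w), q, map_bpt, (bpt _).injective e]
    exact congrArg (fun a => cP.rep _ (bpt _ a))
      ((Path.Homotopic.Quotient.map_comp (p := z.toPath) (f := Geo.zy hi hj)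
        (g := inc hj)).symm.trans
      (Path.Homotopic.Quotient.map_comp (p := z.toPath) (f := Geo.zy hi hi) (g := inc hi)))
  refine ⟨β, c1, c2, c3, fun k m y ω hk hm hω => ⟨(ωi.map (inc hi).continuous).trans
    ((ωj.map (inc hj).continuous).symm.trans ω),
    trans_mem (V := {y : Pc x | y.1 ∈ T.D i (4 * T.δ)}) h1
      (trans_mem (V := {y : Pc x | y.1 ∈ T.D i (4 * T.δ)}) (fun _ => h2 _) hω), ?_⟩⟩
  have := (cQ.hol_map (T.φ i j).toMonoidHom _ b1 hm).trans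
    (congrArg _ (cQ.hol_one' (Geo.mem_0 Q.Q hj) b1 b2 (.mk ω) m))
  exact (congrArg (· * _) ((c4 k m y _ hk hm).trans (congrArg (_ * ·⁻¹) this))).trans
    ((inv_mul_cancel_right _ _).trans ((mul_one _).trans (cP.hol_one a1 a2 _ _).symm))

theorem tr (n0 : n ≠ 0) : ∃ t : Aut g n, ∀ x (hi : x ∈ T.V i) (hj : x ∈ T.V j),
    Nonempty (Tr P.loc Q.loc t hi hj) := by
  obtain ⟨κ, k1, k2⟩ := P.ex_ch Q
  have n1 : (n : ℂ) ≠ 0 := Nat.cast_ne_zero.2 n0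
  have pw : ∀ z, cexp (z / n) ^ n = cexp z := fun z => by
    rw [← Complex.exp_nat_mul, mul_div_cancel₀ _ n1]
  refine ⟨⟨T.φ i j, T.fix i j, fun s => cexp ((κ (.of s)).toAdd / n), fun s => (pw _).trans (k1 _)⟩,
    fun x hi hj => ?_⟩
  haveI := pc_pc x
  haveI := lpc_pc x
  obtain ⟨r, h, e⟩ := ex_rat P.loc Q.loc hi hj
  obtain ⟨v, v1, v2, v3⟩ := (Geo.cyF Q.Q hj).ex_lg h (Geo.mem_0 Q.Q hj) κ k1 fun γ => by
    obtain ⟨w, rfl⟩ := Geo.ex_w (E := T.E j) hj γ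
    rw [Geo.rep_inc, k2 x hi hj r h e]
  obtain ⟨β, c1, c2, c3, c4⟩ := P.ex_be Q hi hj
  have e0 := T.ε0
  have e1 := T.εδ
  have si := Geo.V_spec hi
  have sj := Geo.V_spec hj
  have tj := Geo.ball_tgt hj (r := 4 * T.ε) (by linarith)
  obtain ⟨ε, ε0, hε⟩ := Metric.eventually_nhds_iff_ball.1
    (((T.ch i).continuousAt_symm ((T.ch i).map_source si.1)).eventually
      ((dsc_open tj).mem_nhds ⟨_, mem_ball_self (by linarith),
        ((T.ch j).left_inv sj.1).trans ((T.ch i).left_inv si.1).symm⟩))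
  refine ⟨⟨β, fun m y => cexp (v m y / n), ⟨⟨fun w => cexp ((κ w).toAdd / n), by simp⟩,
    fun a b => by simp [add_div, Complex.exp_add]⟩, fun _ => rfl, c1,
    fun k k' m y a b _ => c2 k k' m y a b, fun k m m' y _ => c3 k m m' y,
    fun m => ((v1 m).div_const _).cexp, fun m y k a b => by rw [pw, v2 m y a]; exact e y k b.1,
    fun m m' y a b => by rw [v3 m m' y a b, add_div, Complex.exp_add]; rfl, ε, ε0, ?_⟩⟩
  rintro y ⟨⟨x1, L⟩, hx1, hL⟩ ⟨⟨x2, L'⟩, hx2, hL'⟩ k m hq q1 q2 hk hm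
  obtain rfl : x = x1 := (congrArg (·.1.1) q1).symm
  obtain rfl : x = x2 := (congrArg (·.1.1) q2).symm
  have y1 : (y : C) = (T.ch i).symm (T.ch i x + cexp L) := (congrArg (·.1.2) q1).symm
  have y2 : (y : C) = (T.ch j).symm (T.ch j x + cexp L') := (congrArg (·.1.2) q2).symm
  have m1 := ((mem_img tj).1 (y1 ▸ hε _ (by
    rwa [mem_ball_iff_norm, add_sub_cancel_left, norm_exp, ← Real.lt_log_iff_exp_lt ε0]))).2
  rw [y2, (T.ch j).right_inv (Geo.tg5 hj (by simpa using Geo.nrm_lt ⟨_, hx2, hL'⟩)),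
    mem_ball_iff_norm, add_sub_cancel_left] at m1
  obtain ⟨L1, _, p1, p2⟩ := P.b0 x hi
  obtain ⟨L2, _, p3, p4⟩ := Q.b0 x hj
  have g2 := (lg_cir (T.t3 j) e0 hj p3).src
  obtain ⟨ω, o1, o2⟩ := ex_seg sj.1 tj g2.1 m1 g2.2 y2
  obtain ⟨ζ, z1, z2⟩ := c4 k m y ω hk hm fun t => dsc_mono (by linarith) (T.star i j x hi hj
    (dsc_sub (Geo.sub_D hj (r' := 10 * T.ε) (by linarith) (o1 t))))
  obtain ⟨L3, r1, r2⟩ := ex_Lg si.1 (Geo.tg5 hi) ζ (fun t => Geo.D_sub hi (by linarith) (z1 t))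
    (L := L1) (p1.trans (congrArg (· - _) (by
      rw [show (inc hi (T.b i) : C) = _ from bs_coe (T.t3 i) e0,
        (T.ch i).right_inv (T.t3 i (by simp [abs_of_pos e0]))])))
  rw [y1, (T.ch i).right_inv (Geo.tg5 hi (by simpa using Geo.nrm_lt ⟨_, hx1, hL⟩)),
    add_sub_cancel_left] at r1
  obtain ⟨a, ha⟩ := exp_eq_exp_iff_exists_int.1 r1
  have s1 := Geo.fs_lg P.fs r2 (Geo.mem_0 P.Q hi) hk
  have s2 := Geo.fs_lg Q.fs (o2.mono (show 4 * T.ε ≤ 5 * T.δ by linarith)) (Geo.mem_0 Q.Q hj) hm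
  rw [p2, mul_one] at s1
  rw [p4, mul_one] at s2
  refine ⟨a, ((congrArg (fun w => _ * T.φ i j w) s2).trans (z2.trans s1.symm)).trans ?_⟩
  exact P275RF.b_zpow P.loc a _ _ k rfl ha (q1 ▸ hk)

end Pk

/-- **the topological input** -/
theorem topf_of (h : SCA) : TOPF := fun S T => by
  obtain ⟨G, i0, hp, h0, ω, hω⟩ := exists_tp T.ok S.M
  have : ∀ i, ∃ ℓ, IsTriv S.D ((G.ch i).symm (G.c i)) ℓ ∧ (i = i0 → ℓ = S.ℓ) := fun i => by
    by_cases e : i = i0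
    · exact ⟨S.ℓ, e ▸ h0.symm ▸ S.triv, fun _ => rfl⟩
    · exact (P275AD.exists_triv _ _).imp fun _ a => ⟨a, fun b => (e b).elim⟩
  choose ℓ h1 h2 using this
  have P := fun i => (ex_pk (h S T G.toGeo i _ (G.M T.ok (G.ctr_mem i)) _ (h1 i)).some).some
  choose t ht using fun i j => (P i).tr (P j) (by linarith [S.adm.hn])
  obtain ⟨k, hk, e⟩ := Geo.all_F (P i0).Q hp ω
  refine ⟨_, fun i => (P i).loc, t, G.cov, fun i => (G.V_conn i).isConnected.isPreconnected, ht, i0,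
    hp, fun j w hw => ?_, k, hk, fun γ => ?_⟩
  · have := (P i0).S.ctr j w (h0.symm ▸ hw)
    rw [h0] at this
    exact this.trans (by rw [h2 i0 rfl])
  · exact ((Geo.cyF (P i0).Q hp).rep_one (Geo.mem_0 _ hp) hk e (S.M.e γ)).symm.trans
      ((congrArg _ (hω γ).symm).trans (Geo.rep_inc _ hp γ))

end Vale.Agent.P275RH
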